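import Vale.Agent.P322.Scalar.Num

/-!
Which of the two induction hypotheses is the larger one.
-/

namespace Vale.Agent.P322

open Real Set

/-- `phi u / u ^ 2` is nondecreasing on `[0,1)`. -/
lemma phi_mul_sq_mono {a b : ℝ} (ha : 0 ≤ a) (hab : a ≤ b) (hb : b < 1) :
    phi a * b ^ 2 ≤ phi b * a ^ 2 := by
  rcases ha.lt_or_eq with ha | ha
  · have aux : ∀ t ∈ Ioo (0 : ℝ) 1, 2 * phi t ≤ t * artanh t := by
      intro t ht
      have hd : ∀ x ∈ Ico (0 : ℝ) 1,
          HasDerivAt (fun x => x * artanh x - 2 * phi x) (x / (1 - x ^ 2) - artanh x) x := by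
        intro x hx
        have := ((hasDerivAt_id x).mul (hasDerivAt_artanh' (by linarith [hx.1]) hx.2)).sub
          ((hasDerivAt_phi (by linarith [hx.1]) hx.2).const_mul 2)
        exact this.congr_deriv (by simp only [id_eq]; ring)
      have key : MonotoneOn (fun x => x * artanh x - 2 * phi x) (Ico 0 1) := by
        apply monotoneOn_of_hasDerivWithinAt_nonneg (convex_Ico 0 1)
          (fun x hx => (hd x hx).continuousAt.continuousWithinAt)
          (fun x hx => (hd x (interior_subset hx)).hasDerivWithinAt)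
        intro x hx
        rw [interior_Ico] at hx
        have hq := one_sub_sq_pos (show -1 < x by linarith [hx.1]) hx.2
        rw [sub_nonneg, le_div_iff₀ hq, mul_comm]
        exact artanh_mul_one_sub_sq_le hx.1.le hx.2
      have := key ⟨le_rfl, zero_lt_one⟩ ⟨ht.1.le, ht.2⟩ ht.1.le
      simp at this
      linarith
    have hd : ∀ t ∈ Ioo (0 : ℝ) 1,
        HasDerivAt (fun t => phi t / t ^ 2) ((t * artanh t - 2 * phi t) / t ^ 3) t := by
      intro t ht
      have := (hasDerivAt_phi (by linarith [ht.1]) ht.2).div (hasDerivAt_pow 2 t)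
        (pow_ne_zero 2 ht.1.ne')
      refine this.congr_deriv ?_
      have := ht.1
      push_cast
      field_simp
    have key : MonotoneOn (fun t => phi t / t ^ 2) (Ioo 0 1) := by
      apply monotoneOn_of_hasDerivWithinAt_nonneg (convex_Ioo 0 1)
      · exact fun t ht => (hd t ht).continuousAt.continuousWithinAt
      · intro t ht
        exact (hd t (interior_subset ht)).hasDerivWithinAt
      · intro t ht
        rw [interior_Ioo] at ht
        exact div_nonneg (by linarith [aux t ht]) (pow_nonneg ht.1.le 3)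
    have := key ⟨ha, hab.trans_lt hb⟩ ⟨ha.trans_le hab, hb⟩ hab
    simp only at this
    rwa [div_le_div_iff₀ (pow_pos ha 2) (pow_pos (ha.trans_le hab) 2)] at this
  · subst ha; simp

lemma half_sq_le_phi {u : ℝ} (h₀ : 0 ≤ u) (h₁ : u < 1) : u ^ 2 / 2 ≤ phi u := by
  have hd : ∀ x ∈ Ico (0 : ℝ) 1, HasDerivAt (fun x => phi x - x ^ 2 / 2) (artanh x - x) x := by
    intro x hx
    have := (hasDerivAt_phi (by linarith [hx.1]) hx.2).sub ((hasDerivAt_pow 2 x).div_const 2)
    exact this.congr_deriv (by push_cast; ring)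
  have key : MonotoneOn (fun x => phi x - x ^ 2 / 2) (Ico 0 1) := by
    apply monotoneOn_of_hasDerivWithinAt_nonneg (convex_Ico 0 1)
      (fun x hx => (hd x hx).continuousAt.continuousWithinAt)
      (fun x hx => (hd x (interior_subset hx)).hasDerivWithinAt)
    intro x hx
    rw [interior_Ico] at hx
    linarith [le_artanh hx.1.le hx.2]
  have := key ⟨le_rfl, zero_lt_one⟩ ⟨h₀, h₁⟩ h₀
  simp at this
  linarith

/-- The ratio `s artanh s / kap s + ent s` is nonincreasing. -/
lemma switchRatio_antitone {r s : ℝ} (hr : 0 ≤ r) (hrs : r ≤ s) (hs : s < 1) :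
    s * artanh s / kap s + ent s ≤ r * artanh r / kap r + ent r := by
  have hr' : r ∈ Ico (0 : ℝ) 1 := ⟨hr, hrs.trans_lt hs⟩
  have hs' : s ∈ Ico (0 : ℝ) 1 := ⟨hr.trans hrs, hs⟩
  have hks : 0 < kap s := lt_of_lt_of_le two_pos (two_le_kap hs'.1 hs)
  have hkr : 0 < kap r := lt_of_lt_of_le two_pos (two_le_kap hr hr'.2)
  have h1 := curve_tangent_param hr' hs'
  have h2 : r * artanh r / kap s ≤ r * artanh r / kap r :=
    div_le_div_of_nonneg_left (mul_nonneg hr (artanh_nonneg hr)) hkr (kap_monotoneOn hr' hs' hrs)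
  have h3 : s * artanh s / kap s + ent s ≤ r * artanh r / kap s + ent r := by
    rw [div_add' _ _ _ hks.ne', div_add' _ _ _ hks.ne', div_le_div_iff_of_pos_right hks]
    linarith
  linarith

open Vale.Agent.P322.Num in
lemma switch_low_num :
    phi (393 / 500) / (393 / 500) ^ 2 ≤
      (17 / 20) * artanh (17 / 20) / kap (17 / 20) + ent (17 / 20) ∧
    phi (17 / 20) ≤ (393 / 500) ^ 2 * (6931471803 / 10000000000) := by
  have hc : phiHi (393 / 500) / (393 / 500) ^ 2 ≤
      (17 / 20) * atLo (17 / 20) / kapHi (17 / 20) + entLo (17 / 20) ∧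
      phiHi (17 / 20) ≤ (393 / 500) ^ 2 * (6931471803 / 10000000000) ∧
      0 < atLo (17 / 20) := by decide +kernel
  obtain ⟨h1, h2, h3⟩ := hc
  have h4 : (0 : ℝ) ≤ (atLo (17 / 20) : ℝ) := by exact_mod_cast h3.le
  have a := le_phiHi (s := 393 / 500) (by norm_num) (by norm_num)
  have b := le_phiHi (s := 17 / 20) (by norm_num) (by norm_num)
  have c := atLo_le (s := 17 / 20) (by norm_num) (by norm_num)
  have e := entLo_le (s := 17 / 20) (by norm_num) (by norm_num)
  have f := le_kapHi (s := 17 / 20) (by norm_num) (by norm_num) h3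
  have g := two_le_kap (s := 17 / 20) (by norm_num) (by norm_num)
  rify at h1 h2
  push_cast at a b c e f
  refine ⟨?_, b.trans h2⟩
  refine ((div_le_div_of_nonneg_right a (by positivity)).trans h1).trans (add_le_add ?_ e)
  exact div_le_div₀ (mul_nonneg (by norm_num) (artanh_nonneg (by norm_num)))
    (mul_le_mul_of_nonneg_left c (by norm_num)) (by linarith) f

open Vale.Agent.P322.Num in
lemma switch_high_num :
    (91 / 100) * artanh (91 / 100) / kap (91 / 100) + ent (91 / 100) ≤ 1 / 2 := by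
  have hc : (91 / 100) * atHi (91 / 100) / kapLo (91 / 100) + entHi (91 / 100) ≤ 1 / 2 ∧
      0 < kapLo (91 / 100) := by decide +kernel
  obtain ⟨h1, h2⟩ := hc
  have c := le_atHi (s := 91 / 100) (by norm_num) (by norm_num)
  have e := le_entHi (s := 91 / 100) (by norm_num) (by norm_num)
  have f := kapLo_le (s := 91 / 100) (by norm_num) (by norm_num)
  rify at h1 h2
  push_cast at c e f
  refine le_trans (add_le_add ?_ e) h1
  exact div_le_div₀ (le_trans (mul_nonneg (by norm_num) (artanh_nonneg (by norm_num)))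
      (mul_le_mul_of_nonneg_left c (by norm_num)))
    (mul_le_mul_of_nonneg_left c (by norm_num)) h2 f

/-- For small `entInv H` the first hypothesis is the larger one. -/
theorem gTwo_le_gOne {m H σ : ℝ} (hm : 0 ≤ m) (hm1 : m < 1) (hH : 0 < H)
    (hσ : σ ∈ Icc (0 : ℝ) (17 / 20)) (hσH : ent σ = H) : gTwo m H ≤ gOne m H := by
  have hg := one_sub_sq_pos (show -1 < m by linarith) hm1
  have hpos : 0 < H + phi m := by linarith [phi_nonneg (show -1 ≤ m by linarith) hm1.le]
  unfold gTwo gOne
  by_cases hc : log 2 ≤ H / (1 - m ^ 2)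
  · rw [curve_eq_zero hc, mul_zero]; exact curve_nonneg hpos
  rw [not_le] at hc
  obtain ⟨s, hs, hes, hcs⟩ := exists_curve_eq (div_pos hH hg) hc.le
  have hHs : H = (1 - m ^ 2) * ent s := by rw [hes]; field_simp
  have hsσ : s ≤ σ := by
    by_contra hlt
    have h1 := ent_strictAntiOn ⟨hσ.1, by linarith [hσ.2]⟩ ⟨hs.1, hs.2.le⟩ (not_le.1 hlt)
    have h2 : H ≤ H / (1 - m ^ 2) := by
      rw [le_div_iff₀ hg]; nlinarith
    linarith
  obtain ⟨n1, n2⟩ := switch_low_num
  have hl2 : (6931471803 : ℝ) / 10000000000 ≤ log 2 := by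
    have := Real.log_two_gt_d9
    norm_num at this ⊢; linarith
  have hlow : ent (17 / 20 : ℝ) ≤ H := by
    rw [← hσH]
    exact ent_strictAntiOn.antitoneOn ⟨hσ.1, by linarith [hσ.2]⟩ (by norm_num) hσ.2
  have hmb : m ≤ 393 / 500 := by
    rw [div_lt_iff₀ hg] at hc
    have h3 : m ^ 2 * log 2 < phi (17 / 20) := by unfold ent at hlow; nlinarith
    have h4 : m ^ 2 * log 2 ≤ (393 / 500) ^ 2 * log 2 :=
      h3.le.trans (n2.trans (mul_le_mul_of_nonneg_left hl2 (by norm_num)))
    have h5 : m ^ 2 ≤ (393 / 500) ^ 2 := le_of_mul_le_mul_right h4 (log_pos one_lt_two)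
    exact (pow_le_pow_iff_left₀ hm (by norm_num) two_ne_zero).1 h5
  have hs17 : s ≤ 17 / 20 := hsσ.trans hσ.2
  have hQ := n1.trans (switchRatio_antitone hs.1 hs17 (by norm_num))
  have hk : 0 < kap s := lt_of_lt_of_le two_pos (two_le_kap hs.1 hs.2)
  have hphi : phi m * kap s ≤ m ^ 2 * (s * artanh s + kap s * ent s) := by
    have h6 := phi_mul_sq_mono hm hmb (by norm_num)
    have h7 : phi m ≤ phi (393 / 500) / (393 / 500) ^ 2 * m ^ 2 := by
      rw [div_mul_eq_mul_div, le_div_iff₀ (by norm_num)]; linarith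
    have h8 := mul_le_mul_of_nonneg_right (h7.trans (mul_le_mul_of_nonneg_right hQ (sq_nonneg m)))
      hk.le
    refine h8.trans (le_of_eq ?_)
    field_simp
  have ht := curve_tangent hpos hs
  rw [hcs]
  refine le_trans ?_ ht
  rw [hHs]
  nlinarith

/-- For `entInv (H + phi m)` close to one the second hypothesis is the larger one. -/
theorem gOne_le_gTwo {m H s : ℝ} (hm : 0 ≤ m) (hm1 : m < 1) (hH : 0 < H)
    (hs : s ∈ Ico (91 / 100 : ℝ) 1) (hsH : ent s = H + phi m) : gOne m H ≤ gTwo m H := by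
  have hg := one_sub_sq_pos (show -1 < m by linarith) hm1
  have hs' : s ∈ Ico (0 : ℝ) 1 := ⟨by linarith [hs.1], hs.2⟩
  have hk : 0 < kap s := lt_of_lt_of_le two_pos (two_le_kap hs'.1 hs.2)
  have hQ := (switchRatio_antitone (show (0 : ℝ) ≤ 91 / 100 by norm_num) hs.1 hs.2).trans
    switch_high_num
  have h1 : s * artanh s + kap s * ent s ≤ kap s / 2 := by
    have := mul_le_mul_of_nonneg_left hQ hk.le
    rw [mul_add, mul_div_cancel₀ _ hk.ne'] at this
    linarith
  have hp := half_sq_le_phi hm hm1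
  have ht := mul_le_mul_of_nonneg_left (curve_tangent (div_pos hH hg) hs') hg.le
  unfold gOne gTwo
  rw [← hsH, curve_ent hs'.1 hs.2]
  refine le_trans ?_ ht
  have e : (1 - m ^ 2) * (H / (1 - m ^ 2)) = H := mul_div_cancel₀ H hg.ne'
  have h2 := mul_le_mul_of_nonneg_left h1 (sq_nonneg m)
  have h3 := mul_le_mul_of_nonneg_left hp hk.le
  have h4 : (1 - m ^ 2) * (s * artanh s - kap s * (H / (1 - m ^ 2) - ent s)) =
      (1 - m ^ 2) * (s * artanh s) - kap s * H + kap s * ((1 - m ^ 2) * ent s) := by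
    rw [mul_sub, show (1 - m ^ 2) * (kap s * (H / (1 - m ^ 2) - ent s)) =
      kap s * ((1 - m ^ 2) * (H / (1 - m ^ 2))) - kap s * ((1 - m ^ 2) * ent s) by ring, e]
    ring
  rw [h4, show H = ent s - phi m by linarith]
  nlinarith

end Vale.Agent.P322
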