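import Vale.Agent.P322.Scalar.Low
import Vale.Agent.P322.Scalar.Switch
import Vale.Agent.P322.Bridge
import Vale.Agent.P322.Semigroup

/-!
The scalar inequality from the covers of the two middle regimes.
-/

namespace Vale.Agent.P322

open Real Set

/-- cover of the middle regime of the first hypothesis -/
def CoverOne : Prop :=
  ∀ m d s : ℝ, 0 ≤ m → 0 ≤ d → m + d < 1 → 0 ≤ s → s < 91 / 100 → 4 / 25 < phi s →
    0 < ent s - phi m → gapPhi m d ≤ phi s → ScalarCase gOne m d (ent s - phi m)

/-- cover of the upper regime of the second hypothesis -/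
def CoverTwo : Prop :=
  ∀ m d s : ℝ, 0 ≤ m → 0 ≤ d → m + d < 1 → 17 / 20 < s → s < 1 →
    ent s ≤ (ent (m + d) + ent (m - d)) / 2 → ScalarCase gTwo m d (ent s)

/-- Both hypotheses in `(m, d, H)` coordinates. -/
lemma scalarCase_of_covers (h₁ : CoverOne) (h₂ : CoverTwo) {m d H : ℝ} (hm : 0 ≤ m)
    (hd : 0 ≤ d) (hmd : m + d < 1) (hH : 0 < H) (hH' : H ≤ (ent (m + d) + ent (m - d)) / 2) :
    ScalarCase gOne m d H ∧ ScalarCase gTwo m d H := by
  have hm1 : m < 1 := by linarith
  have hHl : H ≤ log 2 := by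
    have a := ent_le_log_two (show -1 ≤ m + d by linarith) hmd.le
    have b := ent_le_log_two (show -1 ≤ m - d by linarith) (show m - d ≤ 1 by linarith)
    linarith
  have hφ := phi_nonneg (show -1 ≤ m by linarith) hm1.le
  obtain ⟨σ, hσ, eσ, -⟩ := exists_curve_eq hH hHl
  -- the first hypothesis below `91 / 100`
  have low : ∀ s ∈ Ico (0 : ℝ) (91 / 100), ent s = H + phi m → ScalarCase gOne m d H := by
    intro s hs es
    by_cases h : log 2 - (H + phi m) ≤ 4 / 25
    · exact scalar_low hm hd hmd hH hH' h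
    · have e : ent s - phi m = H := by linarith
      have hp : 4 / 25 < phi s := by unfold ent at es; linarith
      have hg : gapPhi m d ≤ phi s := by
        unfold gapPhi
        unfold ent at es hH'
        linarith
      rw [← e]
      exact h₁ m d s hm hd hmd hs.1 hs.2 hp (by linarith) hg
  have two : 17 / 20 < σ → ScalarCase gTwo m d H := fun h => by
    rw [← eσ]
    exact h₂ m d σ hm hd hmd h hσ.2 (by linarith)
  by_cases hX : log 2 - (H + phi m) ≤ 4 / 25
  · have one := scalar_low hm hd hmd hH hH' hX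
    refine ⟨one, ?_⟩
    by_cases h : σ ≤ 17 / 20
    · exact le_trans (gTwo_le_gOne hm hm1 hH ⟨hσ.1, h⟩ eσ) one
    · exact two (not_le.1 h)
  · obtain ⟨s, hs, es, -⟩ := exists_curve_eq (show 0 < H + phi m by linarith) (by linarith)
    have hsσ : s ≤ σ := by
      by_contra hc
      have := ent_strictAntiOn ⟨hσ.1, hσ.2.le⟩ ⟨hs.1, hs.2.le⟩ (not_le.1 hc)
      linarith
    by_cases h : σ ≤ 17 / 20
    · have one := low s ⟨hs.1, by linarith⟩ es
      exact ⟨one, le_trans (gTwo_le_gOne hm hm1 hH ⟨hσ.1, h⟩ eσ) one⟩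
    · refine ⟨?_, two (not_le.1 h)⟩
      by_cases h' : s < 91 / 100
      · exact low s ⟨hs.1, h'⟩ es
      · exact le_trans (gOne_le_gTwo hm hm1 hH ⟨not_lt.1 h', hs.2⟩ es) (two (not_le.1 h))

/-- The scalar two-point inequality from the covers. -/
theorem scalarTwoPoint_of_covers (h₁ : CoverOne) (h₂ : CoverTwo) : ScalarTwoPoint := by
  intro a b H hba ha hb hab hH hH'
  have e1 : (a + b) / 2 + (a - b) / 2 = a := by ring
  have e2 : (a + b) / 2 - (a - b) / 2 = b := by ring
  obtain ⟨c1, c2⟩ := scalarCase_of_covers h₁ h₂ (m := (a + b) / 2) (d := (a - b) / 2) (H := H)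
    (by linarith) (by linarith) (by linarith) hH (by rw [e1, e2]; exact hH')
  rw [ScalarCase, e1, e2] at c1 c2
  exact max_le c1 c2

/-- The Courtade-Kumar inequality from the covers. -/
theorem courtadeKumar_of_covers (h₁ : CoverOne) (h₂ : CoverTwo) : CourtadeKumar :=
  courtadeKumar_of_step (stepInequality_of_scalarTwoPoint (scalarTwoPoint_of_covers h₁ h₂))

end Vale.Agent.P322
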