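import Vale.Agent.P322.Interface

/-!
Coordinates for the scalar two-point inequality: `m` is the mean, `d` half the difference.
-/

namespace Vale.Agent.P322

open Real Set

/-- the Jensen gap of `phi` at the pair `m + d`, `m - d` -/
noncomputable def gapPhi (m d : ℝ) : ℝ := (phi (m + d) + phi (m - d)) / 2 - phi m

/-- the dissipation of the pair `m + d`, `m - d` -/
noncomputable def kerMD (m d : ℝ) : ℝ := ker (m + d) (m - d)

/-- the scalar inequality for one of the two hypotheses `g`, in `(m, d, H)` coordinates -/
def ScalarCase (g : ℝ → ℝ → ℝ) (m d H : ℝ) : Prop :=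
  g m H ≤ max (meanBound (m + d) (m - d) H) (pairBound d H) + avgBound (m + d) (m - d) H

end Vale.Agent.P322
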