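import Vale.Agent.P322.Basic
import Mathlib.Analysis.Complex.ExponentialBounds

/-!
Certified bounds at rational points, meant to be evaluated with `decide +kernel`.
-/

namespace Vale.Agent.P322.Num

open Real Finset

/-- round down to a dyadic rational -/
def rdn (x : ℚ) : ℚ := (⌊x * 281474976710656⌋ : ℚ) / 281474976710656

/-- round up to a dyadic rational -/
def rup (x : ℚ) : ℚ := (⌈x * 281474976710656⌉ : ℚ) / 281474976710656

lemma rdn_le (x : ℚ) : rdn x ≤ x := by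
  rw [rdn, div_le_iff₀ (by norm_num)]; exact Int.floor_le _

lemma le_rup (x : ℚ) : x ≤ rup x := by
  rw [rup, le_div_iff₀ (by norm_num)]; exact Int.le_ceil _

/-- partial sums of the series of the inverse hyperbolic tangent -/
def ser : ℕ → ℚ → ℚ
  | 0, _ => 0
  | n + 1, t => ser n t + t ^ (2 * n + 1) / ((2 * n + 1 : ℕ) : ℚ)

lemma ser_eq (n : ℕ) (t : ℚ) :
    (ser n t : ℝ) = ∑ i ∈ range n, (t : ℝ) ^ (2 * i + 1) / (2 * i + 1) := by
  induction n with
  | zero => simp [ser]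
  | succ n ih => rw [Finset.sum_range_succ, ← ih, ser]; push_cast; ring

/-- halve until below two -/
def halve : ℕ → ℚ → ℕ × ℚ
  | 0, x => (0, x)
  | n + 1, x => if 2 ≤ x then ((halve n (x / 2)).1 + 1, (halve n (x / 2)).2) else (0, x)

lemma halve_spec : ∀ (n : ℕ) (x : ℚ),
    x = 2 ^ (halve n x).1 * (halve n x).2 ∧ (1 ≤ x → 1 ≤ (halve n x).2)
  | 0, x => by simp [halve]
  | n + 1, x => by
    obtain ⟨h1, h2⟩ := halve_spec n (x / 2)
    by_cases h : 2 ≤ x
    · rw [halve, if_pos h]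
      exact ⟨by rw [pow_succ]; linarith, fun _ => h2 (by linarith)⟩
    · rw [halve, if_neg h]
      simp

/-- the argument of the series -/
def arg (y : ℚ) : ℚ := (y - 1) / (y + 1)

/-- lower bound for `log (x)`, `1 ≤ x` -/
def logLo1 (x : ℚ) : ℚ :=
  rdn (((halve 70 x).1 : ℚ) * (6931471803 / 10000000000)
    + 2 * ser 10 (max 0 (rdn (arg (halve 70 x).2))))

/-- the tail bound of the series -/
def serUp (t : ℚ) : ℚ := ser 10 t + t ^ (2 * 10 + 1) / (1 - t ^ 2)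

/-- upper bound for `log (x)`, `1 ≤ x` -/
def logHi1 (x : ℚ) : ℚ :=
  if rup (arg (halve 70 x).2) < 1 then
    rup (((halve 70 x).1 : ℚ) * (6931471808 / 10000000000) + 2 * serUp (rup (arg (halve 70 x).2)))
  else x

lemma log_eq_halve {x : ℚ} (hx : 1 ≤ x) :
    0 ≤ arg (halve 70 x).2 ∧ arg (halve 70 x).2 < 1 ∧
      Real.log (x : ℝ) = ((halve 70 x).1 : ℝ) * Real.log 2 +
        Real.log ((1 + (arg (halve 70 x).2 : ℝ)) / (1 - (arg (halve 70 x).2 : ℝ))) := by
  obtain ⟨h1, h2⟩ := halve_spec 70 x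
  set k := (halve 70 x).1
  set y := (halve 70 x).2
  have hy : 1 ≤ y := h2 hx
  have hyR : (1 : ℝ) ≤ (y : ℝ) := by exact_mod_cast hy
  refine ⟨div_nonneg (by linarith) (by linarith), ?_, ?_⟩
  · rw [arg, div_lt_one (by linarith)]; linarith
  · have e : (1 + (arg y : ℝ)) / (1 - (arg y : ℝ)) = (y : ℝ) := by
      rw [arg]; push_cast
      field_simp
      ring
    rw [e, h1]
    push_cast
    rw [Real.log_mul (by positivity) (by linarith), Real.log_pow]

lemma logLo1_le {x : ℚ} (hx : 1 ≤ x) : (logLo1 x : ℝ) ≤ Real.log (x : ℝ) := by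
  obtain ⟨h0, h1, he⟩ := log_eq_halve hx
  set t := arg (halve 70 x).2
  set u := max 0 (rdn t) with hu
  have hu0 : (0 : ℝ) ≤ (u : ℝ) := by exact_mod_cast le_max_left _ _
  have hut : (u : ℝ) ≤ (t : ℝ) := by exact_mod_cast max_le h0 (rdn_le t)
  have ht1 : (t : ℝ) < 1 := by exact_mod_cast h1
  have hs := sum_range_le_log_div hu0 (hut.trans_lt ht1) 10
  have hm : Real.log ((1 + (u : ℝ)) / (1 - u)) ≤ Real.log ((1 + (t : ℝ)) / (1 - t)) := by
    refine Real.log_le_log (div_pos (by linarith) (by linarith)) ?_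
    rw [div_le_div_iff₀ (by linarith) (by linarith)]
    nlinarith
  have h2 := Real.log_two_gt_d9
  have hk : (0 : ℝ) ≤ ((halve 70 x).1 : ℝ) := Nat.cast_nonneg _
  refine (Rat.cast_le.2 (rdn_le _)).trans ?_
  rw [← hu, he, Rat.cast_add, Rat.cast_mul, Rat.cast_mul, ser_eq]
  push_cast
  norm_num at h2
  nlinarith

lemma le_logHi1 {x : ℚ} (hx : 1 ≤ x) : Real.log (x : ℝ) ≤ (logHi1 x : ℝ) := by
  unfold logHi1
  split_ifs with hlt
  · obtain ⟨h0, h1, he⟩ := log_eq_halve hx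
    set t := arg (halve 70 x).2
    set u := rup t
    have ht0 : (0 : ℝ) ≤ (t : ℝ) := by exact_mod_cast h0
    have hut : (t : ℝ) ≤ (u : ℝ) := by exact_mod_cast le_rup t
    have hu1 : (u : ℝ) < 1 := by exact_mod_cast hlt
    have hs := log_div_le_sum_range_add (ht0.trans hut) hu1 10
    have hm : Real.log ((1 + (t : ℝ)) / (1 - t)) ≤ Real.log ((1 + (u : ℝ)) / (1 - u)) := by
      refine Real.log_le_log (div_pos (by linarith) (by linarith)) ?_
      rw [div_le_div_iff₀ (by linarith) (by linarith)]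
      nlinarith
    have h2 := Real.log_two_lt_d9
    have hk : (0 : ℝ) ≤ ((halve 70 x).1 : ℝ) := Nat.cast_nonneg _
    refine le_trans ?_ (Rat.cast_le.2 (le_rup _))
    rw [he, serUp]
    push_cast [ser_eq]
    norm_num at h2 hs ⊢
    nlinarith
  · have h1 : (1 : ℝ) ≤ (x : ℝ) := by exact_mod_cast hx
    have := Real.log_le_sub_one_of_pos (show (0 : ℝ) < x by linarith)
    linarith

/-- lower bound for the logarithm of a positive rational -/
def logLo (x : ℚ) : ℚ := if 1 ≤ x then logLo1 x else -logHi1 (1 / x)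

/-- upper bound for the logarithm of a positive rational -/
def logHi (x : ℚ) : ℚ := if 1 ≤ x then logHi1 x else -logLo1 (1 / x)

lemma logLo_le {x : ℚ} (hx : 0 < x) : (logLo x : ℝ) ≤ Real.log (x : ℝ) := by
  unfold logLo
  split_ifs with h
  · exact logLo1_le h
  · have := le_logHi1 (x := 1 / x) (by rw [le_div_iff₀ hx]; linarith)
    push_cast [one_div, Real.log_inv] at this ⊢
    linarith

lemma le_logHi {x : ℚ} (hx : 0 < x) : Real.log (x : ℝ) ≤ (logHi x : ℝ) := by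
  unfold logHi
  split_ifs with h
  · exact le_logHi1 h
  · have := logLo1_le (x := 1 / x) (by rw [le_div_iff₀ hx]; linarith)
    push_cast [one_div, Real.log_inv] at this ⊢
    linarith

/-- lower bound for `log 2` -/
def ln2Lo : ℚ := 6931471803 / 10000000000

/-- upper bound for `log 2` -/
def ln2Hi : ℚ := 6931471808 / 10000000000

lemma ln2Lo_le : (ln2Lo : ℝ) ≤ Real.log 2 := by
  have := Real.log_two_gt_d9
  norm_num [ln2Lo] at *; linarith

lemma le_ln2Hi : Real.log 2 ≤ (ln2Hi : ℝ) := by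
  have := Real.log_two_lt_d9
  norm_num [ln2Hi] at *; linarith

/-- lower bound for `artanh` -/
def atLo (s : ℚ) : ℚ := logLo ((1 + s) / (1 - s)) / 2

/-- upper bound for `artanh` -/
def atHi (s : ℚ) : ℚ := logHi ((1 + s) / (1 - s)) / 2

lemma atLo_le {s : ℚ} (h₁ : -1 < s) (h₂ : s < 1) : (atLo s : ℝ) ≤ artanh (s : ℝ) := by
  have := logLo_le (x := (1 + s) / (1 - s)) (div_pos (by linarith) (by linarith))
  rw [artanh_eq_half_log ⟨(by exact_mod_cast h₁.le : (-1 : ℝ) ≤ (s : ℝ)),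
    (by exact_mod_cast h₂.le : (s : ℝ) ≤ 1)⟩, atLo]
  push_cast at this ⊢
  linarith

lemma le_atHi {s : ℚ} (h₁ : -1 < s) (h₂ : s < 1) : artanh (s : ℝ) ≤ (atHi s : ℝ) := by
  have := le_logHi (x := (1 + s) / (1 - s)) (div_pos (by linarith) (by linarith))
  rw [artanh_eq_half_log ⟨(by exact_mod_cast h₁.le : (-1 : ℝ) ≤ (s : ℝ)),
    (by exact_mod_cast h₂.le : (s : ℝ) ≤ 1)⟩, atHi]
  push_cast at this ⊢
  linarith

/-- lower bound for `phi` -/
def phiLo (s : ℚ) : ℚ := ((1 + s) * logLo (1 + s) + (1 - s) * logLo (1 - s)) / 2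

/-- upper bound for `phi` -/
def phiHi (s : ℚ) : ℚ := ((1 + s) * logHi (1 + s) + (1 - s) * logHi (1 - s)) / 2

lemma phiLo_le {s : ℚ} (h₁ : -1 < s) (h₂ : s < 1) : (phiLo s : ℝ) ≤ phi (s : ℝ) := by
  have a := logLo_le (x := 1 + s) (by linarith)
  have b := logLo_le (x := 1 - s) (by linarith)
  have ha : (0 : ℝ) ≤ 1 + (s : ℝ) := by exact_mod_cast (by linarith : (0 : ℚ) ≤ 1 + s)
  have hb : (0 : ℝ) ≤ 1 - (s : ℝ) := by exact_mod_cast (by linarith : (0 : ℚ) ≤ 1 - s)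
  rw [phiLo, phi]
  push_cast at a b ⊢
  nlinarith [mul_le_mul_of_nonneg_left a ha, mul_le_mul_of_nonneg_left b hb]

lemma le_phiHi {s : ℚ} (h₁ : -1 < s) (h₂ : s < 1) : phi (s : ℝ) ≤ (phiHi s : ℝ) := by
  have a := le_logHi (x := 1 + s) (by linarith)
  have b := le_logHi (x := 1 - s) (by linarith)
  have ha : (0 : ℝ) ≤ 1 + (s : ℝ) := by exact_mod_cast (by linarith : (0 : ℚ) ≤ 1 + s)
  have hb : (0 : ℝ) ≤ 1 - (s : ℝ) := by exact_mod_cast (by linarith : (0 : ℚ) ≤ 1 - s)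
  rw [phiHi, phi]
  push_cast at a b ⊢
  nlinarith [mul_le_mul_of_nonneg_left a ha, mul_le_mul_of_nonneg_left b hb]

/-- lower bound for `ent`, from the two logarithms of `(1 ± s) / 2` -/
def entLo (s : ℚ) : ℚ := -((1 + s) / 2 * logHi ((1 + s) / 2) + (1 - s) / 2 * logHi ((1 - s) / 2))

/-- upper bound for `ent` -/
def entHi (s : ℚ) : ℚ := -((1 + s) / 2 * logLo ((1 + s) / 2) + (1 - s) / 2 * logLo ((1 - s) / 2))

lemma ent_eq_log {u : ℝ} (h₁ : -1 < u) (h₂ : u < 1) :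
    ent u = -((1 + u) / 2 * log ((1 + u) / 2) + (1 - u) / 2 * log ((1 - u) / 2)) := by
  rw [ent, phi, log_div (by linarith) two_ne_zero, log_div (by linarith) two_ne_zero]
  ring

lemma entLo_le {s : ℚ} (h₁ : -1 < s) (h₂ : s < 1) : (entLo s : ℝ) ≤ ent (s : ℝ) := by
  have a := le_logHi (x := (1 + s) / 2) (by linarith)
  have b := le_logHi (x := (1 - s) / 2) (by linarith)
  have h1' : (-1 : ℝ) < (s : ℝ) := by exact_mod_cast h₁
  have h2' : (s : ℝ) < 1 := by exact_mod_cast h₂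
  rw [entLo, ent_eq_log h1' h2']
  push_cast at a b ⊢
  nlinarith [mul_le_mul_of_nonneg_left a (show (0 : ℝ) ≤ (1 + (s : ℝ)) / 2 by linarith),
    mul_le_mul_of_nonneg_left b (show (0 : ℝ) ≤ (1 - (s : ℝ)) / 2 by linarith)]

lemma le_entHi {s : ℚ} (h₁ : -1 < s) (h₂ : s < 1) : ent (s : ℝ) ≤ (entHi s : ℝ) := by
  have a := logLo_le (x := (1 + s) / 2) (by linarith)
  have b := logLo_le (x := (1 - s) / 2) (by linarith)
  have h1' : (-1 : ℝ) < (s : ℝ) := by exact_mod_cast h₁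
  have h2' : (s : ℝ) < 1 := by exact_mod_cast h₂
  rw [entHi, ent_eq_log h1' h2']
  push_cast at a b ⊢
  nlinarith [mul_le_mul_of_nonneg_left a (show (0 : ℝ) ≤ (1 + (s : ℝ)) / 2 by linarith),
    mul_le_mul_of_nonneg_left b (show (0 : ℝ) ≤ (1 - (s : ℝ)) / 2 by linarith)]

/-- lower bound for `nfun` -/
def nfunLo (s : ℚ) : ℚ := ln2Lo - logHi (1 - s ^ 2) / 2

/-- upper bound for `nfun` -/
def nfunHi (s : ℚ) : ℚ := ln2Hi - logLo (1 - s ^ 2) / 2

lemma nfunLo_le {s : ℚ} (h₁ : -1 < s) (h₂ : s < 1) : (nfunLo s : ℝ) ≤ nfun (s : ℝ) := by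
  have a := le_logHi (x := 1 - s ^ 2) (by nlinarith)
  have := ln2Lo_le
  rw [nfunLo, nfun]
  push_cast at a ⊢
  linarith

lemma le_nfunHi {s : ℚ} (h₁ : -1 < s) (h₂ : s < 1) : nfun (s : ℝ) ≤ (nfunHi s : ℝ) := by
  have a := logLo_le (x := 1 - s ^ 2) (by nlinarith)
  have := le_ln2Hi
  rw [nfunHi, nfun]
  push_cast at a ⊢
  linarith

/-- lower bound for `kap` on `(0,1)` -/
def kapLo (s : ℚ) : ℚ := 1 + s / ((1 - s ^ 2) * atHi s)

/-- upper bound for `kap` on `(0,1)`, provided `atLo s` is positive -/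
def kapHi (s : ℚ) : ℚ := 1 + s / ((1 - s ^ 2) * atLo s)

lemma kapLo_le {s : ℚ} (h₁ : 0 < s) (h₂ : s < 1) : (kapLo s : ℝ) ≤ kap (s : ℝ) := by
  have hs : (0 : ℝ) < s := by exact_mod_cast h₁
  have hs' : (s : ℝ) < 1 := by exact_mod_cast h₂
  have hq := one_sub_sq_pos (show -1 < (s : ℝ) by linarith) hs'
  have := le_atHi (s := s) (by linarith) h₂
  rw [kapLo, kap_of_pos hs]
  push_cast
  gcongr
  exact mul_pos hq (artanh_pos ⟨hs, hs'⟩)

lemma le_kapHi {s : ℚ} (h₁ : 0 < s) (h₂ : s < 1) (h₃ : 0 < atLo s) :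
    kap (s : ℝ) ≤ (kapHi s : ℝ) := by
  have hs : (0 : ℝ) < s := by exact_mod_cast h₁
  have hs' : (s : ℝ) < 1 := by exact_mod_cast h₂
  have hq := one_sub_sq_pos (show -1 < (s : ℝ) by linarith) hs'
  have := atLo_le (s := s) (by linarith) h₂
  have ha : (0 : ℝ) < (atLo s : ℝ) := by exact_mod_cast h₃
  rw [kapHi, kap_of_pos hs]
  push_cast
  gcongr

/-- lower bound for `lamFun` -/
def lamLo (s : ℚ) : ℚ := s ^ 2 / ((1 - s ^ 2) * nfunHi s)

/-- upper bound for `lamFun`, provided `nfunLo s` is positive -/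
def lamHi (s : ℚ) : ℚ := s ^ 2 / ((1 - s ^ 2) * nfunLo s)

lemma lamLo_le {s : ℚ} (h₁ : -1 < s) (h₂ : s < 1) : (lamLo s : ℝ) ≤ lamFun (s : ℝ) := by
  have hs : (-1 : ℝ) < s := by exact_mod_cast h₁
  have hs' : (s : ℝ) < 1 := by exact_mod_cast h₂
  have hq := one_sub_sq_pos hs hs'
  have := le_nfunHi h₁ h₂
  have := half_le_nfun hs hs'
  rw [lamLo, lamFun]
  push_cast
  exact div_le_div_of_nonneg_left (sq_nonneg _) (mul_pos hq (by linarith))
    (mul_le_mul_of_nonneg_left (by assumption) hq.le)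

lemma le_lamHi {s : ℚ} (h₁ : -1 < s) (h₂ : s < 1) (h₃ : 0 < nfunLo s) :
    lamFun (s : ℝ) ≤ (lamHi s : ℝ) := by
  have hs : (-1 : ℝ) < s := by exact_mod_cast h₁
  have hs' : (s : ℝ) < 1 := by exact_mod_cast h₂
  have hq := one_sub_sq_pos hs hs'
  have hn : (0 : ℝ) < (nfunLo s : ℝ) := by exact_mod_cast h₃
  rw [lamHi, lamFun]
  push_cast
  exact div_le_div_of_nonneg_left (sq_nonneg _) (mul_pos hq hn)
    (mul_le_mul_of_nonneg_left (nfunLo_le h₁ h₂) hq.le)

end Vale.Agent.P322.Num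

namespace Vale.Agent.P322

open Real Set

/-- `curve` from below, by a parameter whose entropy is at least `H`. -/
lemma le_curve_of {H s : ℝ} (hH : 0 < H) (h₀ : 0 ≤ s) (h₁ : s < 1) (h : H ≤ ent s) :
    s * artanh s ≤ curve H := by
  rw [← curve_ent h₀ h₁]
  exact curve_antitoneOn hH (ent_pos (by linarith) h₁) h

/-- `curve` from above, by a parameter whose entropy is at most `H`. -/
lemma curve_le_of {H s : ℝ} (h₀ : 0 ≤ s) (h₁ : s < 1) (h : ent s ≤ H) :
    curve H ≤ s * artanh s := by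
  rw [← curve_ent h₀ h₁]
  have hp := ent_pos (show -1 < s by linarith) h₁
  exact curve_antitoneOn hp (hp.trans_le h) h

end Vale.Agent.P322
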