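import Vale.Agent.P322.Scalar.Pair
import Vale.Agent.P322.Bridge

/-!
Straight lines below the bounds in the scalar two-point inequality, and their combination.
Every regime of the scalar inequality is an application of `combine` to such lines.
-/

namespace Vale.Agent.P322

open Real Set

/-- a line below `pairBound` -/
theorem pairBound_line {d H z u l : ℝ} (hd : 0 ≤ d) (hH : 0 < H) (hz : z ∈ Ioo (0 : ℝ) 1)
    (hu : u ≤ artanh z + lamFun z * (ent z / z)) (hl : lamFun z ≤ l) :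
    u * d - l * H ≤ pairBound d H := by
  refine le_trans ?_ (pairBound_tangent hd hH hz)
  have h1 := mul_le_mul_of_nonneg_right hu hd
  have h2 := mul_le_mul_of_nonneg_right hl hH.le
  linarith

/-- a line below the dictator curve, in the entropy deficit `x` -/
theorem curve_line_one {x t k b : ℝ} (hx : 0 ≤ x) (hx' : x < log 2) (ht : t ∈ Ico (0 : ℝ) 1)
    (_hk0 : 0 ≤ k) (hk : k ≤ kap t) (hb : kap t * phi t - t * artanh t ≤ b) :
    k * x - b ≤ curve (log 2 - x) := by
  refine le_trans ?_ (curve_tangent (by linarith) ht)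
  have := mul_le_mul_of_nonneg_right hk hx
  simp only [ent]
  linarith

/-- a line below the perspective of the dictator curve -/
theorem curve_line_two {g H t T k : ℝ} (hg : 0 < g) (hH : 0 < H) (ht : t ∈ Ico (0 : ℝ) 1)
    (hT : T ≤ t * artanh t + kap t * ent t) (hk : kap t ≤ k) :
    T * g - k * H ≤ g * curve (H / g) := by
  refine le_trans ?_ (mul_le_mul_of_nonneg_left (curve_tangent (div_pos hH hg) ht) hg.le)
  have h1 := mul_le_mul_of_nonneg_right hT hg.le
  have h2 := mul_le_mul_of_nonneg_right hk hH.le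
  have e : g * (t * artanh t - kap t * (H / g - ent t))
      = (t * artanh t + kap t * ent t) * g - kap t * H := by
    field_simp; ring
  rw [e]
  linarith

/-- the tangent plane of `kerMD` at `(mp, dp)` -/
theorem kerMD_plane {mp dp m d : ℝ} (hmp : 0 ≤ mp) (hdp : 0 ≤ dp) (hp : mp + dp < 1)
    (hm : 0 ≤ m) (hd : 0 ≤ d) (hmd : m + d < 1) :
    kerMD mp dp
        + (kerDeriv (mp + dp) (mp - dp) + kerDeriv (mp - dp) (mp + dp)) * (m - mp)
        + (kerDeriv (mp + dp) (mp - dp) - kerDeriv (mp - dp) (mp + dp)) * (d - dp)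
      ≤ kerMD m d := by
  obtain ⟨⟨a1, a2⟩, b1, b2⟩ := pair_bounds hm hd hmd
  obtain ⟨⟨p1, p2⟩, q1, q2⟩ := pair_bounds hmp hdp hp
  have h := meanCertificate (mp + dp) (mp - dp) (m + d) (m - d) q1 (by linarith) p2 (by linarith)
    (abs_lt.2 ⟨a1, a2⟩) (abs_lt.2 ⟨b1, b2⟩)
  have breg : ∀ u c : ℝ, |u| < 1 → |c| < 1 → 0 ≤ bregPhi u c := by
    intro u c hu hc
    have := ent_le_tangent hu hc
    simp only [ent] at this
    unfold bregPhi
    linarith
  have hlam : 0 ≤ min (1 / 2) (cornerRatio (mp + dp) (mp - dp)) := by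
    refine le_min (by norm_num) (div_nonneg (sq_nonneg _) ?_)
    have hP : 0 < (1 + (mp + dp)) * (1 + (mp - dp)) := mul_pos (by linarith) (by linarith)
    have hlog : log ((1 + (mp + dp)) * (1 + (mp - dp)) / 4) ≤ 0 :=
      log_nonpos (by linarith) (by rw [div_le_one (by norm_num)]; nlinarith)
    exact mul_nonneg (by linarith) (neg_nonneg.2 hlog)
  have h1 := breg (m + d) (mp + dp) (abs_lt.2 ⟨a1, a2⟩) (abs_lt.2 ⟨p1, p2⟩)
  have h2 := breg (m - d) (mp - dp) (abs_lt.2 ⟨b1, b2⟩) (abs_lt.2 ⟨q1, q2⟩)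
  have h3 := mul_nonneg hlam (div_nonneg (add_nonneg h1 h2) (zero_le_two : (0 : ℝ) ≤ 2))
  unfold kerMD
  linarith

/-- Combining the lines: `P` below `pairBound`, `K` below `kerMD`, `k * x - b` below the first
and `L₂` below the second average bound. -/
theorem combine {m d H P K L₂ c f w₀ C k b : ℝ} (hm : 0 ≤ m) (hd : 0 ≤ d) (hmd : m + d < 1)
    (_hH : 0 < H) (hH' : H ≤ (ent (m + d) + ent (m - d)) / 2)
    (hP : P ≤ pairBound d H) (hK : K ≤ kerMD m d) (hw : w₀ ≤ min (1 / 2) (d ^ 2 / (1 - m ^ 2)))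
    (hL₁ : k * ((ent (m + d) + ent (m - d)) / 2 - H) - b
      ≤ curve (log 2 - ((ent (m + d) + ent (m - d)) / 2 - H)))
    (hL₂ : L₂ ≤ (1 - m ^ 2 - d ^ 2) * curve (H / (1 - m ^ 2 - d ^ 2)))
    (hc : c ∈ Icc (0 : ℝ) 1) (hf : f ∈ Icc (0 : ℝ) 1) (hC : C ≤ c * w₀ + f * k) :
    (1 - c) * P + c * K + C * ((ent (m + d) + ent (m - d)) / 2 - H) - f * b + (1 - f) * L₂
      ≤ max (meanBound (m + d) (m - d) H) (pairBound d H) + avgBound (m + d) (m - d) H := by
  set x := (ent (m + d) + ent (m - d)) / 2 - H with hx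
  have hx0 : 0 ≤ x := by linarith
  have hM : K + w₀ * x ≤ meanBound (m + d) (m - d) H := by
    have h0 := meanBound_ge hm hd hmd hH'
    rw [← hx] at h0
    have := mul_le_mul_of_nonneg_right hw hx0
    linarith
  have e1 : H + (phi (m + d) + phi (m - d)) / 2 = log 2 - x := by rw [hx]; simp only [ent]; ring
  have e2 : ((1 - (m + d) ^ 2) + (1 - (m - d) ^ 2)) / 2 = 1 - m ^ 2 - d ^ 2 := by ring
  have hA1 : k * x - b ≤ avgBound (m + d) (m - d) H :=
    hL₁.trans (by rw [← e1]; exact le_max_left _ _)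
  have hA2 : L₂ ≤ avgBound (m + d) (m - d) H :=
    hL₂.trans (by rw [← e2]; exact le_max_right _ _)
  set R := max (meanBound (m + d) (m - d) H) (pairBound d H) with hR
  have r1 : P ≤ R := hP.trans (le_max_right _ _)
  have r2 : K + w₀ * x ≤ R := hM.trans (le_max_left _ _)
  have s1 := mul_le_mul_of_nonneg_left r1 (sub_nonneg.2 hc.2)
  have s2 := mul_le_mul_of_nonneg_left r2 hc.1
  have s3 := mul_le_mul_of_nonneg_left hA1 hf.1
  have s4 := mul_le_mul_of_nonneg_left hA2 (sub_nonneg.2 hf.2)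
  have s5 := mul_le_mul_of_nonneg_right hC hx0
  linarith

/-- an upper bound for the second hypothesis -/
theorem gTwo_le_sub {m H r : ℝ} (hm : 0 ≤ m) (hm1 : m < 1) (hH : 0 < H)
    (hr : r ∈ Ico (0 : ℝ) 1) (hle : H / (1 - m ^ 2) ≤ ent r) :
    gTwo m H ≤ curve H - m ^ 2 * (r * artanh r + kap r * ent r) := by
  have he : 0 < 1 - m ^ 2 := one_sub_sq_pos (by linarith) hm1
  set H₂ := H / (1 - m ^ 2) with hH₂
  have h2 : 0 < H₂ := div_pos hH he
  obtain ⟨s, hs, es, e⟩ := exists_curve_eq h2 (hle.trans (ent_le_log_two (by linarith [hr.1]) hr.2.le))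
  have hrs : r ≤ s := by
    by_contra hc
    have := ent_strictAntiOn ⟨hs.1, hs.2.le⟩ ⟨hr.1, hr.2.le⟩ (not_le.1 hc)
    linarith
  have hθ : r * artanh r + kap r * ent r ≤ s * artanh s + kap s * ent s := by
    refine (curve_tangent_param hs hr).trans ?_
    have := mul_le_mul_of_nonneg_right (kap_monotoneOn hr hs hrs)
      (ent_pos (show -1 < s by linarith [hs.1]) hs.2).le
    linarith
  have ht := curve_tangent hH hs
  have hHe : H = (1 - m ^ 2) * ent s := by rw [es, hH₂]; field_simp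
  have h3 := mul_le_mul_of_nonneg_left hθ (sq_nonneg m)
  rw [gTwo, ← hH₂, e]
  have h4 : kap s * (H - ent s) = -(m ^ 2 * (kap s * ent s)) := by rw [hHe]; ring
  linarith

end Vale.Agent.P322
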