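import Vale.Agent.P322.Scalar.Pair

/-!
Monotonicity in the mean `m` and convexity in `m ^ 2`, for the scalar inequality.
-/

namespace Vale.Agent.P322

open Real Set

lemma sqrt_pairPQ_le {m d : ℝ} (hm : 0 ≤ m) (hd : 0 ≤ d) (hmd : m + d < 1) :
    sqrt (pairPQ m d) ≤ 1 - d ^ 2 := by
  have hd1 : d < 1 := by linarith
  rw [sqrt_le_left (by nlinarith)]
  have h1 : pairPQ m d ≤ (1 - m ^ 2 - d ^ 2) ^ 2 := by
    rw [pairPQ_eq]; nlinarith [mul_nonneg (sq_nonneg m) (sq_nonneg d)]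
  refine h1.trans (pow_le_pow_left₀ ?_ (by nlinarith) 2)
  linarith [sq_lt_one_sub_sq hm hd hmd]

/-- (1) the average `artanh` is at most `m / sqrt PQ` -/
theorem avgArtanh_le {m d : ℝ} (hm : 0 ≤ m) (hd : 0 ≤ d) (hmd : m + d < 1) :
    (artanh (m + d) + artanh (m - d)) / 2 ≤ m / sqrt (pairPQ m d) := by
  obtain ⟨⟨a1, a2⟩, b1, b2⟩ := pair_bounds hm hd hmd
  obtain ⟨p1, p2⟩ := one_sub_sq_pos_pair hm hd hmd
  have h0 : 0 ≤ artanh (m + d) + artanh (m - d) := by
    have := gapDer_nonneg hm hd hmd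
    have := artanh_nonneg hm
    unfold gapDer at *
    linarith
  have h := self_le_sinh_iff.2 h0
  have e : sinh (artanh (m + d) + artanh (m - d)) = 2 * (m / sqrt (pairPQ m d)) := by
    rw [pairPQ, sqrt_mul p1.le, sinh_add, sinh_artanh ⟨a1, a2⟩, cosh_artanh ⟨a1, a2⟩,
      sinh_artanh ⟨b1, b2⟩, cosh_artanh ⟨b1, b2⟩]
    have := sqrt_pos.2 p1
    have := sqrt_pos.2 p2
    field_simp
    ring
  linarith

lemma hasDerivAt_phibar_mean {m d : ℝ} (hm : 0 ≤ m) (hd : 0 ≤ d) (hmd : m + d < 1) :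
    HasDerivAt (fun x => (phi (x + d) + phi (x - d)) / 2)
      ((artanh (m + d) + artanh (m - d)) / 2) m := by
  obtain ⟨⟨a1, a2⟩, b1, b2⟩ := pair_bounds hm hd hmd
  refine ((((hasDerivAt_phi a1 a2).comp m ((hasDerivAt_id m).add_const d)).add
    ((hasDerivAt_phi b1 b2).comp m ((hasDerivAt_id m).sub_const d))).div_const 2).congr_deriv ?_
  ring

lemma hasDerivAt_gapPhi_mean {m d : ℝ} (hm : 0 ≤ m) (hd : 0 ≤ d) (hmd : m + d < 1) :
    HasDerivAt (fun x => gapPhi x d) (gapDer m d) m := by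
  refine HasDerivAt.congr_deriv (show HasDerivAt (fun x => gapPhi x d) _ m from
    (hasDerivAt_phibar_mean hm hd hmd).sub
      (hasDerivAt_phi (show -1 < m by linarith) (by linarith))) rfl

lemma hasDerivAt_kerMD_mean {m d : ℝ} (hm : 0 ≤ m) (hd : 0 ≤ d) (hmd : m + d < 1) :
    HasDerivAt (fun x => kerMD x d) (2 * m * d ^ 2 / pairPQ m d) m := by
  obtain ⟨⟨a1, a2⟩, b1, b2⟩ := pair_bounds hm hd hmd
  obtain ⟨p1, p2⟩ := one_sub_sq_pos_pair hm hd hmd
  have h1 := (hasDerivAt_artanh' a1 a2).comp m ((hasDerivAt_id m).add_const d)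
  have h2 := (hasDerivAt_artanh' b1 b2).comp m ((hasDerivAt_id m).sub_const d)
  have : HasDerivAt (fun x => d * halfDiff x d) (2 * m * d ^ 2 / pairPQ m d) m := by
    refine HasDerivAt.congr_deriv (show HasDerivAt (fun x => d * halfDiff x d) _ m from
      ((h1.sub h2).div_const 2).const_mul d) ?_
    unfold pairPQ; field_simp; ring
  simpa only [kerMD_eq] using this

/-- the common step of the two monotonicity lemmas: with `u = 1 / sqrt PQ` -/
lemma mono_step {m d c C K : ℝ} (hm : 0 ≤ m) (hd : 0 ≤ d) (hmd : m + d < 1) (hC : 0 ≤ C)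
    (hq : ∀ u : ℝ, 1 / (1 - d ^ 2) ≤ u → 0 ≤ 2 * c * d ^ 2 * u ^ 2 - C * u + K) :
    C * ((artanh (m + d) + artanh (m - d)) / 2) ≤ c * (2 * m * d ^ 2 / pairPQ m d) + K * m := by
  have hP := pairPQ_pos hm hd hmd
  set S := sqrt (pairPQ m d) with hS
  have hS0 : 0 < S := sqrt_pos.2 hP
  have hS2 : S ^ 2 = pairPQ m d := sq_sqrt hP.le
  have hu := hq (1 / S) (one_div_le_one_div_of_le hS0 (sqrt_pairPQ_le hm hd hmd))
  have h1 := mul_le_mul_of_nonneg_left (avgArtanh_le hm hd hmd) hC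
  have h2 := mul_nonneg hm hu
  rw [← hS] at h1
  rw [← hS2]
  have e : m * (2 * c * d ^ 2 * (1 / S) ^ 2 - C * (1 / S) + K)
      = c * (2 * m * d ^ 2 / S ^ 2) + K * m - C * (m / S) := by field_simp; ring
  rw [e] at h2
  linarith

/-- (2) -/
theorem mono_one {m d c l C : ℝ} (hm : 0 ≤ m) (hd : 0 ≤ d) (hmd : m + d < 1)
    (hc : c ∈ Icc (0 : ℝ) 1) (hl : 0 ≤ l) (hC : 0 ≤ C)
    (hq : ∀ u : ℝ, 1 / (1 - d ^ 2) ≤ u →
      0 ≤ 2 * c * d ^ 2 * u ^ 2 - C * u + ((1 - c) * l + C)) :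
    c * kerMD 0 d - C * gapPhi 0 d ≤ (1 - c) * l * phi m + c * kerMD m d - C * gapPhi m d := by
  refine le_of_hasDerivAt_le (f := fun _ => c * kerMD 0 d - C * gapPhi 0 d)
    (g := fun x => (1 - c) * l * phi x + c * kerMD x d - C * gapPhi x d) (f' := fun _ => 0)
    (g' := fun x => (1 - c) * l * artanh x + c * (2 * x * d ^ 2 / pairPQ x d) - C * gapDer x d) hm
    (fun x _ => hasDerivAt_const x _) (fun x hx => ?_) (by simp) fun x hx => ?_
  · have hxd : x + d < 1 := by linarith [hx.2]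
    exact (((hasDerivAt_phi (show -1 < x by linarith [hx.1]) (by linarith [hx.1])).const_mul _).add
      ((hasDerivAt_kerMD_mean hx.1 hd hxd).const_mul c)).sub
      ((hasDerivAt_gapPhi_mean hx.1 hd hxd).const_mul C)
  · have hxd : x + d < 1 := by linarith [hx.2]
    have h1 := mono_step hx.1.le hd hxd hC hq
    have h2 := mul_le_mul_of_nonneg_left (le_artanh hx.1.le (by linarith))
      (show 0 ≤ (1 - c) * l + C from add_nonneg (mul_nonneg (sub_nonneg.2 hc.2) hl) hC)
    unfold gapDer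
    nlinarith

/-- (3) -/
theorem mono_two {m d c C K : ℝ} (hm : 0 ≤ m) (hd : 0 ≤ d) (hmd : m + d < 1) (hC : 0 ≤ C)
    (hq : ∀ u : ℝ, 1 / (1 - d ^ 2) ≤ u → 0 ≤ 2 * c * d ^ 2 * u ^ 2 - C * u + K) :
    c * kerMD 0 d - C * phi d
      ≤ c * kerMD m d - C * ((phi (m + d) + phi (m - d)) / 2) + K / 2 * m ^ 2 := by
  refine le_of_hasDerivAt_le (f := fun _ => c * kerMD 0 d - C * phi d)
    (g := fun x => c * kerMD x d - C * ((phi (x + d) + phi (x - d)) / 2) + K / 2 * x ^ 2)
    (f' := fun _ => 0)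
    (g' := fun x => c * (2 * x * d ^ 2 / pairPQ x d)
      - C * ((artanh (x + d) + artanh (x - d)) / 2) + K * x) hm
    (fun x _ => hasDerivAt_const x _) (fun x hx => ?_)
    (by simp [phi_neg]) fun x hx => ?_
  · have hxd : x + d < 1 := by linarith [hx.2]
    exact ((((hasDerivAt_kerMD_mean hx.1 hd hxd).const_mul c).sub
      ((hasDerivAt_phibar_mean hx.1 hd hxd).const_mul C)).add
      ((hasDerivAt_pow 2 x).const_mul (K / 2))).congr_deriv (by push_cast; ring)
  · linarith [mono_step hx.1.le hd (by linarith [hx.2] : x + d < 1) hC hq]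

/-- (4) a quadratic is nonnegative to the right of `u0` -/
theorem quad_nonneg {a b K u0 u : ℝ} (ha : 0 ≤ a) (hb : b ≤ 2 * a * u0 ∨ b ^ 2 ≤ 4 * a * K)
    (h0 : 0 ≤ a * u0 ^ 2 - b * u0 + K) (hu : u0 ≤ u) : 0 ≤ a * u ^ 2 - b * u + K := by
  rcases hb with hb | hb
  · have h1 : b ≤ a * (u + u0) := by nlinarith [mul_le_mul_of_nonneg_left hu ha]
    nlinarith [mul_nonneg (sub_nonneg.2 hu) (sub_nonneg.2 h1)]
  · rcases ha.lt_or_eq with ha | ha
    · have : 0 ≤ 4 * a * (a * u ^ 2 - b * u + K) := by nlinarith [sq_nonneg (2 * a * u - b)]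
      exact nonneg_of_mul_nonneg_right this (by linarith)
    · subst ha
      obtain rfl : b = 0 := pow_eq_zero_iff two_ne_zero |>.1
        (le_antisymm (by linarith) (sq_nonneg b))
      linarith

lemma avgArtanh_secant {m₁ m₂ d : ℝ} (hm₁ : 0 < m₁) (h12 : m₁ ≤ m₂) (hd : 0 ≤ d)
    (hmd : m₂ + d < 1) :
    (artanh (m₁ + d) + artanh (m₁ - d)) / 2 / m₁
      ≤ (artanh (m₂ + d) + artanh (m₂ - d)) / 2 / m₂ := by
  set g := fun x => (artanh (x + d) + artanh (x - d)) / 2 with hg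
  have hder : ∀ x ∈ Icc (0 : ℝ) m₂, HasDerivAt g (pairF x d) x := by
    intro x hx
    obtain ⟨⟨a1, a2⟩, b1, b2⟩ := pair_bounds hx.1 hd (show x + d < 1 by linarith [hx.2])
    refine (((hasDerivAt_artanh' a1 a2).comp x ((hasDerivAt_id x).add_const d)).add
      ((hasDerivAt_artanh' b1 b2).comp x ((hasDerivAt_id x).sub_const d))).div_const 2
      |>.congr_deriv ?_
    unfold pairF; ring
  have hF : ∀ x ∈ Icc (0 : ℝ) m₂, HasDerivAt (fun x => pairF x d)
      ((x + d) / (1 - (x + d) ^ 2) ^ 2 + (x - d) / (1 - (x - d) ^ 2) ^ 2) x := by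
    intro x hx
    obtain ⟨p1, p2⟩ := one_sub_sq_pos_pair hx.1 hd (show x + d < 1 by linarith [hx.2])
    have a := (hasDerivAt_const x (1 : ℝ)).div
      ((((hasDerivAt_id x).add_const d).pow 2).const_sub 1) p1.ne'
    have b := (hasDerivAt_const x (1 : ℝ)).div
      ((((hasDerivAt_id x).sub_const d).pow 2).const_sub 1) p2.ne'
    refine HasDerivAt.congr_deriv (show HasDerivAt (fun x => pairF x d) _ x from
      (a.add b).div_const 2) ?_
    simp only [Pi.pow_apply, id_eq]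
    push_cast
    ring
  -- `x * g' x - g x` increases from `0`
  have hsec : ∀ x ∈ Icc (0 : ℝ) m₂, g x ≤ x * pairF x d := by
    intro x hx
    refine le_of_hasDerivAt_le (f := g) (g := fun t => t * pairF t d) hx.1
      (fun t ht => hder t ⟨ht.1, ht.2.trans hx.2⟩)
      (fun t ht => (hasDerivAt_id t).mul (hF t ⟨ht.1, ht.2.trans hx.2⟩))
      (le_of_eq (by
        simp only [hg, zero_add, zero_sub, zero_mul]
        rw [artanh_eq (by linarith) (by linarith [hx.1, hx.2]),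
          artanh_eq (by linarith [hx.1, hx.2]) (by linarith)]
        ring_nf)) fun t ht => ?_
    have htd : t + d < 1 := by linarith [ht.2, hx.2]
    obtain ⟨p1, p2⟩ := one_sub_sq_pos_pair ht.1.le hd htd
    have : 0 ≤ (t + d) / (1 - (t + d) ^ 2) ^ 2 + (t - d) / (1 - (t - d) ^ 2) ^ 2 := by
      rw [div_add_div _ _ (by positivity) (by positivity)]
      refine div_nonneg ?_ (by positivity)
      have h := pow_le_pow_left₀ p1.le
        (show 1 - (t + d) ^ 2 ≤ 1 - (t - d) ^ 2 by nlinarith [mul_nonneg ht.1.le hd]) 2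
      nlinarith [mul_le_mul_of_nonneg_left h (show 0 ≤ t + d by linarith [ht.1]),
        mul_nonneg ht.1.le (sq_nonneg (1 - (t + d) ^ 2))]
    simp only [id_eq, one_mul]
    exact le_add_of_nonneg_right (mul_nonneg ht.1.le this)
  have key : MonotoneOn (fun x => g x / x) (Icc m₁ m₂) := by
    have hd' : ∀ x ∈ Icc m₁ m₂,
        HasDerivAt (fun x => g x / x) ((pairF x d * x - g x * 1) / x ^ 2) x := fun x hx =>
      (hder x ⟨hm₁.le.trans hx.1, hx.2⟩).div (hasDerivAt_id x) (hm₁.trans_le hx.1).ne'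
    apply monotoneOn_of_hasDerivWithinAt_nonneg (convex_Icc m₁ m₂)
      (fun x hx => (hd' x hx).continuousAt.continuousWithinAt)
      (fun x hx => (hd' x (interior_subset hx)).hasDerivWithinAt)
    intro x hx
    have hx' := interior_subset hx
    exact div_nonneg (by linarith [hsec x ⟨hm₁.le.trans hx'.1, hx'.2⟩]) (sq_nonneg x)
  exact key ⟨le_rfl, h12⟩ ⟨h12, le_rfl⟩ h12

/-- (5) for fixed `d` the average of `phi` is convex in `m ^ 2` -/
theorem convexOn_phibar_sq {d : ℝ} (hd : 0 ≤ d) (hd1 : d ≤ 1) :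
    ConvexOn ℝ (Icc 0 ((1 - d) ^ 2))
      (fun M => (phi (sqrt M + d) + phi (sqrt M - d)) / 2) := by
  have hc : Continuous fun M => (phi (sqrt M + d) + phi (sqrt M - d)) / 2 :=
    ((continuous_phi.comp (continuous_sqrt.add continuous_const)).add
      (continuous_phi.comp (continuous_sqrt.sub continuous_const))).div_const 2
  have hpos : ∀ M ∈ Ioo 0 ((1 - d) ^ 2), 0 < sqrt M ∧ sqrt M + d < 1 := by
    intro M hM
    refine ⟨sqrt_pos.2 hM.1, ?_⟩
    have := (sqrt_lt' (lt_of_le_of_ne (sub_nonneg.2 hd1) fun h => by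
      rw [← h] at hM; simp at hM)).2 hM.2
    linarith
  have hder : ∀ M ∈ Ioo 0 ((1 - d) ^ 2),
      HasDerivAt (fun M => (phi (sqrt M + d) + phi (sqrt M - d)) / 2)
        ((artanh (sqrt M + d) + artanh (sqrt M - d)) / 2 / sqrt M / 2) M := by
    intro M hM
    obtain ⟨h1, h2⟩ := hpos M hM
    refine ((hasDerivAt_phibar_mean h1.le hd h2).comp M
      (hasDerivAt_sqrt hM.1.ne')).congr_deriv ?_
    ring
  refine MonotoneOn.convexOn_of_deriv (convex_Icc _ _) hc.continuousOn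
    (fun M hM => ?_) fun M hM N hN hMN => ?_
  · rw [interior_Icc] at hM
    exact (hder M hM).differentiableAt.differentiableWithinAt
  · rw [interior_Icc] at hM hN
    rw [(hder M hM).deriv, (hder N hN).deriv]
    exact div_le_div_of_nonneg_right
      (avgArtanh_secant (hpos M hM).1 (sqrt_le_sqrt hMN) hd (hpos N hN).2) zero_le_two

/-- (5) `phi (sqrt M)` is convex in `M` -/
theorem convexOn_phi_sqrt : ConvexOn ℝ (Icc 0 1) (fun M => phi (sqrt M)) := by
  have h := convexOn_phibar_sq (le_refl (0 : ℝ)) zero_le_one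
  simpa [add_self_div_two] using h

/-- (5) tangent lines of `M ↦ phi (sqrt M)` -/
theorem phi_sqrt_tangent {mp M : ℝ} (hp : 0 < mp) (hp1 : mp < 1) (hM : M ∈ Icc (0 : ℝ) 1) :
    phi mp + artanh mp / (2 * mp) * (M - mp ^ 2) ≤ phi (sqrt M) := by
  have hs : sqrt (mp ^ 2) = mp := sqrt_sq hp.le
  have hmem : mp ^ 2 ∈ Icc (0 : ℝ) 1 := ⟨sq_nonneg mp, by nlinarith⟩
  have hd : HasDerivAt (fun M => phi (sqrt M)) (artanh mp / (2 * mp)) (mp ^ 2) := by
    have h := (hasDerivAt_phi (show -1 < mp by linarith) hp1)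
    rw [← hs] at h
    refine ((h.comp (mp ^ 2) (hasDerivAt_sqrt (pow_pos hp 2).ne'))).congr_deriv ?_
    rw [hs]; ring
  rcases lt_trichotomy M (mp ^ 2) with h | h | h
  · have := convexOn_phi_sqrt.slope_le_of_hasDerivAt hM hmem h hd
    simp only [slope_def_field, hs] at this
    rw [div_le_iff₀ (sub_pos.2 h)] at this
    linarith
  · subst h; simp [hs]
  · have := convexOn_phi_sqrt.le_slope_of_hasDerivAt hmem hM h hd
    simp only [slope_def_field, hs] at this
    rw [le_div_iff₀ (sub_pos.2 h)] at this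
    linarith

/-- (6) `gapPhi m d / d ^ 2` is nondecreasing in `d` -/
theorem gap_div_sq_mono {m d d₁ : ℝ} (hm : 0 ≤ m) (hd : 0 ≤ d) (hdd : d ≤ d₁)
    (hmd : m + d₁ ≤ 1) : d₁ ^ 2 * gapPhi m d ≤ d ^ 2 * gapPhi m d₁ := by
  rcases hd.lt_or_eq with hd0 | rfl
  swap
  · simp
  have hsecond : ∀ t, 0 ≤ t → m + t < 1 → halfDiff m t ≤ t * pairF m t := by
    intro t ht hmt
    have hle : ∀ s ∈ Icc 0 t, 0 ≤ s ∧ m + s < 1 := fun s hs => ⟨hs.1, by linarith [hs.2]⟩
    have hG : ∀ s ∈ Icc 0 t, HasDerivAt (halfDiff m)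
        (((1 - m) / ((1 - m) ^ 2 - s ^ 2) + (1 + m) / ((1 + m) ^ 2 - s ^ 2)) / 2) s := fun s hs =>
      (hasDerivAt_halfDiff hm hs.1 (hle s hs).2).congr_deriv
        (pairF_eq_fractions hm hs.1 (hle s hs).2)
    have hFd : ∀ s ∈ Icc 0 t, HasDerivAt
        (fun s => s * (((1 - m) / ((1 - m) ^ 2 - s ^ 2) + (1 + m) / ((1 + m) ^ 2 - s ^ 2)) / 2))
        (((1 - m) / ((1 - m) ^ 2 - s ^ 2) + (1 + m) / ((1 + m) ^ 2 - s ^ 2)) / 2
          + s * ((2 * s * (1 - m) / ((1 - m) ^ 2 - s ^ 2) ^ 2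
            + 2 * s * (1 + m) / ((1 + m) ^ 2 - s ^ 2) ^ 2) / 2)) s := by
      intro s hs
      obtain ⟨s0, s1⟩ := hle s hs
      have h1 : 0 < (1 - m) ^ 2 - s ^ 2 := by nlinarith
      have h2 : 0 < (1 + m) ^ 2 - s ^ 2 := by nlinarith
      have a := (hasDerivAt_const s (1 - m)).div
        ((hasDerivAt_pow 2 s).const_sub ((1 - m) ^ 2)) h1.ne'
      have b := (hasDerivAt_const s (1 + m)).div
        ((hasDerivAt_pow 2 s).const_sub ((1 + m) ^ 2)) h2.ne'
      refine ((hasDerivAt_id s).mul ((a.add b).div_const 2)).congr_deriv ?_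
      simp only [id_eq, Pi.add_apply, Pi.div_apply]
      push_cast
      ring
    have := le_of_hasDerivAt_le ht hG hFd (by simp) fun s hs => by
      obtain ⟨s0, s1⟩ := hle s ⟨hs.1.le, hs.2.le⟩
      have := hs.1
      have h1 : 0 < 1 - m := by linarith
      refine le_add_of_nonneg_right ?_
      positivity
    rwa [← pairF_eq_fractions hm ht hmt] at this
  have hfirst : ∀ t, 0 ≤ t → m + t < 1 → 2 * gapPhi m t ≤ t * halfDiff m t := fun t ht hmt =>
    le_of_hasDerivAt_le (f := fun s => 2 * gapPhi m s) (g := fun s => s * halfDiff m s)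
      (g' := fun s => halfDiff m s + s * pairF m s) ht
      (fun s hs => (hasDerivAt_gapPhi hm hs.1 (by linarith [hs.2])).const_mul 2)
      (fun s hs => ((hasDerivAt_id s).mul
        (hasDerivAt_halfDiff hm hs.1 (by linarith [hs.2]))).congr_deriv (by simp only [id_eq]; ring))
      (by simp) fun s hs => by linarith [hsecond s hs.1.le (by linarith [hs.2])]
  have hlt : ∀ t ∈ Ico d d₁, t ^ 2 * gapPhi m d ≤ d ^ 2 * gapPhi m t := by
    intro t ht
    have hmt : ∀ s ∈ Icc d t, m + s < 1 := fun s hs => by linarith [hs.2, ht.2]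
    have hd' : ∀ s ∈ Icc d t, HasDerivAt (fun s => gapPhi m s / s ^ 2)
        ((halfDiff m s * s ^ 2 - gapPhi m s * (2 * s)) / (s ^ 2) ^ 2) s := fun s hs =>
      ((hasDerivAt_gapPhi hm (hd.trans hs.1) (hmt s hs)).div (hasDerivAt_pow 2 s)
        (pow_pos (hd0.trans_le hs.1) 2).ne').congr_deriv (by push_cast; ring)
    have key : MonotoneOn (fun s => gapPhi m s / s ^ 2) (Icc d t) := by
      apply monotoneOn_of_hasDerivWithinAt_nonneg (convex_Icc d t)
        (fun s hs => (hd' s hs).continuousAt.continuousWithinAt)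
        (fun s hs => (hd' s (interior_subset hs)).hasDerivWithinAt)
      intro s hs
      have hs' := interior_subset hs
      refine div_nonneg ?_ (sq_nonneg _)
      nlinarith [hfirst s (hd.trans hs'.1) (hmt s hs'), hd.trans hs'.1]
    have := key ⟨le_rfl, ht.1⟩ ⟨ht.1, le_rfl⟩ ht.1
    rw [div_le_div_iff₀ (pow_pos hd0 2) (pow_pos (hd0.trans_le ht.1) 2)] at this
    linarith
  rcases hdd.lt_or_eq with h | h
  · have hcl : IsClosed {t : ℝ | t ^ 2 * gapPhi m d ≤ d ^ 2 * gapPhi m t} :=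
      isClosed_le (by fun_prop) (continuous_const.mul (((continuous_phi.comp
        (continuous_const.add continuous_id)).add (continuous_phi.comp
        (continuous_const.sub continuous_id))).div_const 2 |>.sub continuous_const))
    have := hcl.closure_subset_iff.2 (show Ico d d₁ ⊆ _ from hlt)
    rw [closure_Ico h.ne] at this
    exact this ⟨hdd, le_rfl⟩
  · subst h; exact le_rfl

end Vale.Agent.P322
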