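import Vale.Agent.P322.Scalar.CoverGlue
import Vale.Agent.P322.Scalar.Box.Tables

/-!
The corner part `dc ≤ d ≤ s` of both hypotheses. At mean zero the bound is monotone in the half
difference and vanishes at `d = s`; away from mean zero it is monotone in the mean.
-/

namespace Vale.Agent.P322

open Real Set

namespace Corner

/-- The bound at mean zero is antitone when its slope is nonpositive at both ends. -/
lemma antitone_slope {μ c C a d s : ℝ} (ha : 0 ≤ a) (had : a ≤ d) (hds : d ≤ s) (hs : s < 1)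
    (hC : 0 ≤ C)
    (hi : μ + c * (artanh a + a / (1 - a ^ 2)) - C * artanh a ≤ 0)
    (hii : μ + c * (artanh s + s / (1 - s ^ 2)) - C * artanh s ≤ 0) :
    μ * s + c * (s * artanh s) - C * phi s ≤ μ * d + c * (d * artanh d) - C * phi d := by
  have hD : ∀ t ∈ Icc a s, HasDerivAt (fun t => μ + c * (artanh t + t / (1 - t ^ 2)) - C * artanh t)
      ((2 * c - C + C * t ^ 2) / (1 - t ^ 2) ^ 2) t := by
    intro t ht
    have h1 : -1 < t := by linarith [ht.1]
    have h2 : t < 1 := by linarith [ht.2]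
    have hq := one_sub_sq_pos h1 h2
    have hA := hasDerivAt_artanh' h1 h2
    have hf := (hasDerivAt_id' t).div ((hasDerivAt_pow 2 t).const_sub 1) hq.ne'
    refine ((((hA.add hf).const_mul c).const_add μ).sub (hA.const_mul C)).congr_deriv ?_
    push_cast
    field_simp
    ring
  have hneg : ∀ t ∈ Icc a s, μ + c * (artanh t + t / (1 - t ^ 2)) - C * artanh t ≤ 0 := by
    intro t ht
    rcases le_total (2 * c - C + C * t ^ 2) 0 with h | h
    · refine le_trans ?_ hi
      refine le_of_hasDerivAt_le (f := fun t => μ + c * (artanh t + t / (1 - t ^ 2)) - C * artanh t)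
        (a := a) (b := t) (g := fun _ => μ + c * (artanh a + a / (1 - a ^ 2)) - C * artanh a)
        ht.1 (fun x hx => hD x ⟨hx.1, hx.2.trans ht.2⟩) (fun x _ => hasDerivAt_const x _) le_rfl ?_
      intro x hx
      have hx2 := mul_le_mul_of_nonneg_left
        (pow_le_pow_left₀ (ha.trans hx.1.le) hx.2.le 2) hC
      exact div_nonpos_of_nonpos_of_nonneg (by linarith) (sq_nonneg _)
    · refine le_trans ?_ hii
      refine le_of_hasDerivAt_le (f := fun _ => μ + c * (artanh t + t / (1 - t ^ 2)) - C * artanh t)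
        (g := fun t => μ + c * (artanh t + t / (1 - t ^ 2)) - C * artanh t) (a := t) (b := s)
        ht.2 (fun x _ => hasDerivAt_const x _) (fun x hx => hD x ⟨ht.1.trans hx.1, hx.2⟩) le_rfl ?_
      intro x hx
      have hx2 := mul_le_mul_of_nonneg_left
        (pow_le_pow_left₀ (ha.trans ht.1) hx.1.le 2) hC
      exact div_nonneg (by linarith) (sq_nonneg _)
  refine le_of_hasDerivAt_le (f := fun t => μ * t + c * (t * artanh t) - C * phi t)
    (g := fun _ => μ * d + c * (d * artanh d) - C * phi d) hds (fun t ht => ?_)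
    (fun t _ => hasDerivAt_const t _) le_rfl
    (fun t ht => hneg t ⟨had.trans ht.1.le, ht.2.le⟩)
  have h1 : -1 < t := by linarith [ht.1]
  have h2 : t < 1 := by linarith [ht.2]
  refine ((((hasDerivAt_id' t).const_mul μ).add
    (((hasDerivAt_id' t).mul (hasDerivAt_artanh' h1 h2)).const_mul c)).sub
    ((hasDerivAt_phi h1 h2).const_mul C)).congr_deriv ?_
  ring

/-- the slope coefficient of the antisymmetric-pair line at `s` -/
noncomputable def mu (s : ℝ) : ℝ := artanh s + lamFun s * (ent s / s)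

/-- The bound at mean zero is nonnegative on `[a, s]`. -/
lemma zero_mean {c C a d s : ℝ} (ha : 0 ≤ a) (had : a ≤ d) (hds : d ≤ s) (hs₀ : 0 < s) (hs : s < 1)
    (hC : 0 ≤ C) (hi : (1 - c) * mu s + c * (artanh a + a / (1 - a ^ 2)) - C * artanh a ≤ 0)
    (hii : (1 - c) * mu s + c * (artanh s + s / (1 - s ^ 2)) - C * artanh s ≤ 0) :
    s * artanh s + (1 - c) * lamFun s * ent s
      ≤ (1 - c) * mu s * d + c * (d * artanh d) + C * (phi s - phi d) := by
  have h := antitone_slope ha had hds hs hC hi hii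
  have e : mu s * s = s * artanh s + lamFun s * ent s := by
    unfold mu; field_simp
  linear_combination h - (1 - c) * e

/-- Common lower bound of the right hand side in the corner. -/
lemma rhs_ge {m d s H c C w₀ : ℝ} (hm : 0 ≤ m) (hd : 0 ≤ d) (hmd : m + d < 1) (hH : 0 < H)
    (hH' : H ≤ (ent (m + d) + ent (m - d)) / 2) (hs : s ∈ Ioo (0 : ℝ) 1)
    (hc : c ∈ Icc (0 : ℝ) 1) (hw₀ : w₀ ≤ min (1 / 2) (d ^ 2)) (hC : C ≤ c * w₀ + 2) :
    (1 - c) * (mu s * d - lamFun s * H) + c * kerMD m d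
        + C * ((ent (m + d) + ent (m - d)) / 2 - H)
      ≤ max (meanBound (m + d) (m - d) H) (pairBound d H) + avgBound (m + d) (m - d) H := by
  have hg : 0 < 1 - m ^ 2 - d ^ 2 := by linarith [sq_lt_one_sub_sq hm hd hmd]
  have hx : (ent (m + d) + ent (m - d)) / 2 - H < log 2 := by
    have := ent_le_log_two (show -1 ≤ m + d by linarith) hmd.le
    have := ent_le_log_two (show -1 ≤ m - d by linarith) (show m - d ≤ 1 by linarith)
    linarith
  have hw : w₀ ≤ min (1 / 2) (d ^ 2 / (1 - m ^ 2)) := by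
    refine hw₀.trans (min_le_min_left _ ?_)
    exact le_div_self (sq_nonneg d) (one_sub_sq_pos (by linarith) (by linarith))
      (by linarith [sq_nonneg m])
  have h := combine (c := c) (f := 1) (k := 2) (b := 0) (L₂ := 0) (C := C) (w₀ := w₀) hm hd hmd
    hH hH' (pairBound_line hd hH hs le_rfl le_rfl) le_rfl hw
    (curve_line_one (by linarith) hx (left_mem_Ico.2 zero_lt_one) zero_le_two
      (by rw [kap_zero]) (by simp))
    (mul_nonneg hg.le (curve_nonneg (div_pos hH hg))) hc ⟨zero_le_one, le_rfl⟩ (by linarith)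
  unfold mu
  linarith

open Vale.Agent.P322.Num

/-- the coefficient of the deficit -/
def coef (c dc : ℚ) : ℚ := 2 + c * min (1 / 2) (dc ^ 2)

/-- the conditions at mean zero -/
def okSlope (w : Box.Row) (c : ℚ) : Bool :=
  decide (0 < w.s0 ∧ w.s0 < 1 ∧ 0 < w.s1 ∧ w.s1 < 1 ∧ 0 ≤ w.dc ∧ w.dc < 1 ∧ 0 ≤ c ∧ c ≤ 1
    ∧ 0 < nfunLo w.s1
    ∧ (1 - c) * (atHi w.s1 + lamHi w.s1 * (entHi w.s1 / w.s1))
        + c * (atHi w.dc + w.dc / (1 - w.dc ^ 2)) ≤ coef c w.dc * atLo w.dc
    ∧ (1 - coef c w.dc) * atLo w.s0 + (1 - c) * (lamHi w.s1 * (entHi w.s0 / w.s0))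
        + c * (w.s1 / (1 - w.s1 ^ 2)) ≤ 0)

/-- the condition of monotonicity in the mean -/
def okQuad (dc c K : ℚ) : Bool :=
  decide ((coef c dc ≤ 2 * (2 * c * dc ^ 2) * (1 / (1 - dc ^ 2))
      ∨ coef c dc ^ 2 ≤ 4 * (2 * c * dc ^ 2) * K)
    ∧ 0 ≤ 2 * c * dc ^ 2 * (1 / (1 - dc ^ 2)) ^ 2 - coef c dc * (1 / (1 - dc ^ 2)) + K)

/-- check of a row for the first hypothesis -/
def okOne : Box.Row × ℚ → Bool
  | (w, c) => okSlope w c && okQuad w.dc c ((1 - c) * lamLo w.s0 + coef c w.dc)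

/-- check of a row for the second hypothesis -/
def okTwo : Box.Row × ℚ × ℚ → Bool
  | (w, c, r) => okSlope w c && okQuad w.dc c (2 * (r * atLo r + kapLo r * entLo r))
      && decide (0 < r ∧ r < 1 ∧ 0 ≤ entLo r ∧ 0 < w.dc
        ∧ entHi w.s0 / (2 * w.dc - w.dc ^ 2) ≤ entLo r)

lemma coef_cast {c dc : ℚ} :
    ((coef c dc : ℚ) : ℝ) = 2 + (c : ℝ) * min (1 / 2) ((dc : ℝ) ^ 2) := by
  simp [coef, Rat.cast_min]

lemma slope_sound {w : Box.Row} {c : ℚ} (h : okSlope w c = true) {d s : ℝ}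
    (hd : (w.dc : ℝ) ≤ d) (h0 : (w.s0 : ℝ) ≤ s) (h1 : s ≤ w.s1) (hds : d ≤ s) :
    (c : ℝ) ∈ Icc (0 : ℝ) 1 ∧ 0 ≤ d ∧ s ∈ Ioo (0 : ℝ) 1
      ∧ min (1 / 2) ((w.dc : ℝ) ^ 2) ≤ min (1 / 2) (d ^ 2) ∧ 0 ≤ (coef c w.dc : ℝ)
      ∧ s * artanh s + (1 - (c : ℝ)) * lamFun s * ent s
        ≤ (1 - (c : ℝ)) * mu s * d + (c : ℝ) * (d * artanh d)
          + (coef c w.dc : ℝ) * (phi s - phi d) := by
  simp only [okSlope, decide_eq_true_eq] at h
  obtain ⟨a0, a0', a1, a1', e0, e1, c0, c1, hn, n1, n2⟩ := h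
  have A0 : (0 : ℝ) < w.s0 := by exact_mod_cast a0
  have A1 : (w.s1 : ℝ) < 1 := by exact_mod_cast a1'
  have E0 : (0 : ℝ) ≤ w.dc := by exact_mod_cast e0
  have C0 : (0 : ℝ) ≤ c := by exact_mod_cast c0
  have C1 : (c : ℝ) ≤ 1 := by exact_mod_cast c1
  have hs : s ∈ Ioo (0 : ℝ) 1 := ⟨A0.trans_le h0, h1.trans_lt A1⟩
  have S1 : (w.s1 : ℝ) ∈ Ioo (0 : ℝ) 1 := ⟨hs.1.trans_le h1, A1⟩
  have hC : 1 ≤ (coef c w.dc : ℝ) := by
    rw [coef_cast]
    linarith [mul_nonneg C0 (le_min (show (0 : ℝ) ≤ 1 / 2 by norm_num) (sq_nonneg (w.dc : ℝ)))]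
  have hl := lamFun_monotoneOn ⟨hs.1.le, hs.2⟩ ⟨S1.1.le, S1.2⟩ h1
  have hlH := le_lamHi (s := w.s1) (by linarith) a1' hn
  have hl0 := lamFun_nonneg (show -1 < s by linarith [hs.1]) hs.2
  refine ⟨⟨C0, C1⟩, E0.trans hd, hs, min_le_min_left _ (pow_le_pow_left₀ E0 hd 2), by linarith,
    zero_mean E0 hd hds hs.1 hs.2 (by linarith) ?_ ?_⟩
  · have hmu : mu s ≤ (atHi w.s1 : ℝ) + (lamHi w.s1 : ℝ) * ((entHi w.s1 : ℝ) / w.s1) := by
      refine (pair_tangent_param S1 hs).trans (add_le_add (le_atHi (by linarith) a1') ?_)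
      exact mul_le_mul (hl.trans hlH)
        (div_le_div_of_nonneg_right (le_entHi (by linarith) a1') S1.1.le)
        (div_nonneg (ent_pos (show -1 < (w.s1 : ℝ) by linarith [S1.1]) S1.2).le S1.1.le)
        (hl0.trans (hl.trans hlH))
    have hA := le_atHi (s := w.dc) (by linarith) e1
    have hB := atLo_le (s := w.dc) (by linarith) e1
    rify at n1
    linarith [mul_le_mul_of_nonneg_left hmu (sub_nonneg.2 C1), mul_le_mul_of_nonneg_left hA C0,
      mul_le_mul_of_nonneg_left hB (show (0 : ℝ) ≤ coef c w.dc by linarith)]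
  · have hA : (atLo w.s0 : ℝ) ≤ artanh s :=
      (atLo_le (by linarith) a0').trans (artanh_le_artanh (by linarith) hs.2 h0)
    have hx : lamFun s * (ent s / s) ≤ (lamHi w.s1 : ℝ) * ((entHi w.s0 : ℝ) / w.s0) := by
      refine mul_le_mul (hl.trans hlH) ?_ (div_nonneg
        (ent_pos (show -1 < s by linarith [hs.1]) hs.2).le hs.1.le) (hl0.trans (hl.trans hlH))
      refine le_trans ?_ (div_le_div_of_nonneg_right (le_entHi (by linarith) a0') A0.le)
      exact rat_strictAntiOn.antitoneOn ⟨A0, by linarith [hs.2]⟩ hs h0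
    have hq : s / (1 - s ^ 2) ≤ (w.s1 : ℝ) / (1 - (w.s1 : ℝ) ^ 2) :=
      div_le_div₀ S1.1.le h1 (one_sub_sq_pos (by linarith [S1.1]) S1.2)
        (by linarith [pow_le_pow_left₀ hs.1.le h1 2])
    rify at n2
    have := mul_le_mul_of_nonneg_left hA (sub_nonneg.2 hC)
    unfold mu
    linarith [mul_le_mul_of_nonneg_left hx (sub_nonneg.2 C1), mul_le_mul_of_nonneg_left hq C0]

lemma quad_sound {dc c K : ℚ} (h : okQuad dc c K = true) (hc : 0 ≤ c) (h0 : 0 ≤ dc)
    {d K' : ℝ} (hd : (dc : ℝ) ≤ d) (hd1 : d < 1) (hK : (K : ℝ) ≤ K') :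
    ∀ u : ℝ, 1 / (1 - d ^ 2) ≤ u →
      0 ≤ 2 * (c : ℝ) * d ^ 2 * u ^ 2 - (coef c dc : ℝ) * u + K' := by
  intro u hu
  simp only [okQuad, decide_eq_true_eq] at h
  obtain ⟨h1, h2⟩ := h
  rify at h1 h2 hc h0
  have hq := one_sub_sq_pos (show -1 < d by linarith) hd1
  have hsq := pow_le_pow_left₀ h0 hd 2
  have := quad_nonneg (a := 2 * (c : ℝ) * (dc : ℝ) ^ 2) (b := (coef c dc : ℝ)) (K := (K : ℝ))
    (mul_nonneg (mul_nonneg zero_le_two hc) (sq_nonneg _)) h1 h2
    ((one_div_le_one_div_of_le hq (by linarith)).trans hu)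
  linarith [mul_le_mul_of_nonneg_left hsq (mul_nonneg hc (sq_nonneg u))]

end Corner

open Corner Vale.Agent.P322.Num

/-- the parameter `c` on each row of the corner table of the first hypothesis -/
def cornerCsOne : List ℚ := [
  9686 / 10000, 9629 / 10000, 9486 / 10000, 9443 / 10000, 94 / 100,
  9071 / 10000, 89 / 100, 8743 / 10000, 8457 / 10000, 8286 / 10000,
  8114 / 10000, 78 / 100, 7771 / 10000, 77 / 100, 7257 / 10000,
  7 / 10, 6814 / 10000, 6457 / 10000, 6229 / 10000, 5829 / 10000,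
  5614 / 10000, 5357 / 10000, 4986 / 10000, 4557 / 10000, 43 / 100,
  4271 / 10000, 4114 / 10000, 38 / 100, 3643 / 10000, 3271 / 10000,
  2857 / 10000, 26 / 100, 2214 / 10000, 2 / 10, 1829 / 10000]

/-- the parameters `(c, r)` on each row of the corner table of the second hypothesis -/
def cornerCsTwo : List (ℚ × ℚ) := [
  (2371 / 10000, 83906 / 100000), (2143 / 10000, 864234 / 1000000), (2014 / 10000, 885354 / 1000000),
  (1929 / 10000, 893846 / 1000000), (1857 / 10000, 903519 / 1000000), (1771 / 10000, 910707 / 1000000),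
  (1657 / 10000, 918182 / 1000000), (1514 / 10000, 928758 / 1000000), (1457 / 10000, 937483 / 1000000),
  (14 / 100, 943847 / 1000000), (1371 / 10000, 946656 / 1000000), (13 / 100, 949607 / 1000000),
  (1271 / 10000, 952139 / 1000000), (1229 / 10000, 954705 / 1000000), (1214 / 10000, 956537 / 1000000),
  (1071 / 10000, 958484 / 1000000), (9571 / 100000, 962631 / 1000000), (8571 / 100000, 967339 / 1000000),
  (7863 / 100000, 971399 / 1000000), (7114 / 100000, 974954 / 1000000), (6127 / 100000, 978076 / 1000000),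
  (5385 / 100000, 981439 / 1000000), (4726 / 100000, 984286 / 1000000), (4134 / 100000, 986711 / 1000000),
  (3623 / 100000, 988734 / 1000000), (3166 / 100000, 990466 / 1000000), (2831 / 100000, 991937 / 1000000),
  (2756 / 100000, 992703 / 1000000), (2184 / 100000, 993458 / 1000000), (1758 / 100000, 994959 / 1000000),
  (1411 / 100000, 996119 / 1000000), (1132 / 100000, 997009 / 1000000), (905 / 100000, 997699 / 1000000),
  (7229 / 1000000, 998229 / 1000000), (6107 / 1000000, 998639 / 1000000), (4879 / 1000000, 998949 / 1000000),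
  (4077 / 1000000, 999189 / 1000000)]

/-- the rows with their parameters -/
def cornerParOne : List (Box.Row × ℚ) := cornerTableOne.zip cornerCsOne

/-- the rows with their parameters -/
def cornerParTwo : List (Box.Row × ℚ × ℚ) := cornerTableTwo.zip cornerCsTwo

lemma cornerParOne_fst : cornerParOne.map Prod.fst = cornerTableOne :=
  List.map_fst_zip (by decide)

lemma cornerParTwo_fst : cornerParTwo.map Prod.fst = cornerTableTwo :=
  List.map_fst_zip (by decide)

lemma cornerParOne_ok : cornerParOne.all okOne = true := by decide +kernel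

lemma cornerParTwo_ok : cornerParTwo.all okTwo = true := by decide +kernel

theorem cornerOne : CornerOne cornerTableOne := by
  intro w hw m d s ⟨hm, hd, hmd, _, hs91, hH, hg⟩ h0 h1 hdc
  rw [← cornerParOne_fst] at hw
  obtain ⟨⟨w', c⟩, hp, rfl⟩ := List.mem_map.1 hw
  have hk := List.all_eq_true.1 cornerParOne_ok _ hp
  simp only [okOne, Bool.and_eq_true] at hk
  obtain ⟨k1, k2⟩ := hk
  have k1' := k1
  simp only [okSlope, decide_eq_true_eq] at k1'
  obtain ⟨a0, a0', -, -, e0, -, c0, -, -⟩ := k1'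
  have hs0 : (0 : ℝ) < w'.s0 := by exact_mod_cast a0
  have hds := diff_le_param_one hm hd hmd (hs0.le.trans h0) hg
  obtain ⟨hc, -, hs, hw₀, hC0, hz⟩ := slope_sound k1 hdc h0 h1 hds
  have hH' : ent s - phi m ≤ (ent (m + d) + ent (m - d)) / 2 := by
    unfold gapPhi at hg
    simp only [ent]
    linarith
  have hR := rhs_ge (C := (coef c w'.dc : ℝ)) hm hd hmd hH hH' hs hc hw₀ (le_of_eq (by rw [coef_cast]; ring))
  have hl : (lamLo w'.s0 : ℝ) ≤ lamFun s :=
    (lamLo_le (by linarith) a0').trans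
      (lamFun_monotoneOn ⟨hs0.le, by linarith [hs.2]⟩ ⟨hs.1.le, hs.2⟩ h0)
  have hm1 := mono_one hm hd hmd hc (lamFun_nonneg (by linarith [hs.1]) hs.2) hC0
    (quad_sound k2 c0 e0 hdc (by linarith) (by
      have := mul_le_mul_of_nonneg_left hl (sub_nonneg.2 hc.2)
      rify at this ⊢
      linarith))
  have e2 : kerMD 0 d = d * artanh d := by
    simp only [kerMD_eq, halfDiff, zero_add, zero_sub]
    rw [artanh_eq (show -1 < -d by linarith) (by linarith [hs.2]),
      artanh_eq (show -1 < d by linarith) (by linarith [hs.2])]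
    ring_nf
  have e3 : gapPhi 0 d = phi d := by simp [gapPhi, phi_neg]
  rw [e2, e3] at hm1
  have hx : (ent (m + d) + ent (m - d)) / 2 - (ent s - phi m) = phi s - gapPhi m d := by
    simp only [ent, gapPhi]; ring
  rw [hx] at hR
  show ScalarCase gOne m d (ent s - phi m)
  refine le_trans (le_of_eq ?_) (le_trans ?_ hR) (b := s * artanh s)
  · rw [gOne, sub_add_cancel, curve_ent hs.1.le hs.2]
  · linarith

theorem cornerTwo : CornerTwo cornerTableTwo := by
  intro w hw m d s ⟨hm, hd, hmd, _, _, hH'⟩ h0 h1 hdc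
  rw [← cornerParTwo_fst] at hw
  obtain ⟨⟨w', c, r⟩, hp, rfl⟩ := List.mem_map.1 hw
  have hk := List.all_eq_true.1 cornerParTwo_ok _ hp
  simp only [okTwo, Bool.and_eq_true, decide_eq_true_eq] at hk
  obtain ⟨⟨k1, k2⟩, r0, r1, er, e0, n⟩ := hk
  have k1' := k1
  simp only [okSlope, decide_eq_true_eq] at k1'
  obtain ⟨a0, a0', -, -, -, -, c0, -, -⟩ := k1'
  have hs0 : (0 : ℝ) < w'.s0 := by exact_mod_cast a0
  have hds := diff_le_param_two hm hd hmd (hs0.le.trans h0) hH'
  obtain ⟨hc, -, hs, hw₀, hC0, hz⟩ := slope_sound k1 hdc h0 h1 hds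
  have hH := ent_pos (show -1 < s by linarith [hs.1]) hs.2
  have hR := rhs_ge (C := (coef c w'.dc : ℝ)) hm hd hmd hH hH' hs hc hw₀ (le_of_eq (by rw [coef_cast]; ring))
  have R0 : (0 : ℝ) < r := by exact_mod_cast r0
  have R1 : (r : ℝ) < 1 := by exact_mod_cast r1
  have hTh : (r : ℝ) * (atLo r : ℝ) + (kapLo r : ℝ) * (entLo r : ℝ)
      ≤ (r : ℝ) * artanh (r : ℝ) + kap (r : ℝ) * ent (r : ℝ) :=
    add_le_add (mul_le_mul_of_nonneg_left (atLo_le (by linarith) r1) R0.le)
      (mul_le_mul (kapLo_le r0 r1) (entLo_le (by linarith) r1) (by exact_mod_cast er)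
        (by linarith [two_le_kap R0.le R1]))
  have hm1 := mono_two hm hd hmd hC0
    (quad_sound (K' := 2 * ((r : ℝ) * artanh (r : ℝ) + kap (r : ℝ) * ent (r : ℝ))) k2 c0 e0.le hdc
      (by linarith) (by push_cast; linarith))
  have e2 : kerMD 0 d = d * artanh d := by
    simp only [kerMD_eq, halfDiff, zero_add, zero_sub]
    rw [artanh_eq (show -1 < -d by linarith) (by linarith [hs.2]),
      artanh_eq (show -1 < d by linarith) (by linarith [hs.2])]
    ring_nf
  rw [e2] at hm1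
  have hx : (ent (m + d) + ent (m - d)) / 2 - ent s
      = phi s - (phi (m + d) + phi (m - d)) / 2 := by
    simp only [ent]; ring
  rw [hx] at hR
  have hle : ent s / (1 - m ^ 2) ≤ ent (r : ℝ) := by
    have E0 : (0 : ℝ) < w'.dc := by exact_mod_cast e0
    have hq : 2 * (w'.dc : ℝ) - (w'.dc : ℝ) ^ 2 ≤ 1 - m ^ 2 := by
      nlinarith [pow_le_pow_left₀ hm (show m ≤ 1 - (w'.dc : ℝ) by linarith) 2]
    have hq0 : 0 < 2 * (w'.dc : ℝ) - (w'.dc : ℝ) ^ 2 := by
      nlinarith [hdc, hds, hs.2]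
    rify at n
    refine le_trans ?_ (n.trans (entLo_le (by linarith) r1))
    exact div_le_div₀ (le_trans hH.le ((ent_strictAntiOn.antitoneOn
        ⟨hs0.le, by linarith [hs.2]⟩ ⟨hs.1.le, hs.2.le⟩ h0).trans (le_entHi (by linarith) a0')))
      ((ent_strictAntiOn.antitoneOn ⟨hs0.le, by linarith [hs.2]⟩ ⟨hs.1.le, hs.2.le⟩ h0).trans
        (le_entHi (by linarith) a0')) hq0 hq
  have hG := gTwo_le_sub hm (show m < 1 by linarith) hH ⟨R0.le, R1⟩ hle
  rw [curve_ent hs.1.le hs.2] at hG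
  show gTwo m (ent s) ≤ _
  linarith

end Vale.Agent.P322
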