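import Vale.Agent.P322.Scalar.Pair

/-!
The scalar inequality for the first hypothesis when the information level `log 2 - (H + phi m)`
is at most `4/25`. The function `t ↦ curve (log 2 - t) - 2 t - 2 t ^ 2 / 3 - t ^ 3` is concave
there and vanishes at zero, hence is subadditive and nonpositive.
-/

namespace Vale.Agent.P322.Low

open Real Set

lemma hasDerivAt_odd7 (t : ℝ) :
    HasDerivAt (fun t : ℝ => t + t ^ 3 / 3 + t ^ 5 / 5 + t ^ 7 / 7)
      (1 + t ^ 2 + t ^ 4 + t ^ 6) t := by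
  have := ((((hasDerivAt_id' t).add ((hasDerivAt_pow 3 t).div_const 3)).add
    ((hasDerivAt_pow 5 t).div_const 5)).add ((hasDerivAt_pow 7 t).div_const 7))
  refine this.congr_deriv ?_
  norm_num

lemma hasDerivAt_one_sub_sq (t : ℝ) :
    HasDerivAt (fun t : ℝ => 1 - t ^ 2) (-(2 * t)) t := by
  simpa using (hasDerivAt_pow 2 t).const_sub 1

/-- lower Taylor bound for `artanh` -/
lemma artanh_lower {x : ℝ} (h₀ : 0 ≤ x) (h₁ : x < 1) :
    x + x ^ 3 / 3 + x ^ 5 / 5 + x ^ 7 / 7 ≤ artanh x := by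
  set g := fun t : ℝ => artanh t - (t + t ^ 3 / 3 + t ^ 5 / 5 + t ^ 7 / 7) with hg
  have hd : ∀ t ∈ Ico (0 : ℝ) 1,
      HasDerivAt g (1 / (1 - t ^ 2) - (1 + t ^ 2 + t ^ 4 + t ^ 6)) t := fun t ht =>
    (hasDerivAt_artanh' (by linarith [ht.1]) ht.2).sub (hasDerivAt_odd7 t)
  have key : MonotoneOn g (Ico 0 1) := by
    apply monotoneOn_of_hasDerivWithinAt_nonneg (convex_Ico 0 1)
      (fun t ht => (hd t ht).continuousAt.continuousWithinAt)
      (fun t ht => (hd t (interior_subset ht)).hasDerivWithinAt)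
    intro t ht
    rw [interior_Ico] at ht
    rw [sub_nonneg, le_div_iff₀ (one_sub_sq_pos (by linarith [ht.1]) ht.2)]
    nlinarith [pow_nonneg ht.1.le 8]
  have := key ⟨le_rfl, zero_lt_one⟩ ⟨h₀, h₁⟩ h₀
  simp [hg] at this
  linarith

/-- upper Taylor bound for `artanh` -/
lemma artanh_upper {x : ℝ} (h₀ : 0 ≤ x) (h₁ : x < 1) :
    artanh x ≤ x + x ^ 3 / 3 + x ^ 5 / 5 + x ^ 7 / (7 * (1 - x ^ 2)) := by
  set g := fun t : ℝ => t + t ^ 3 / 3 + t ^ 5 / 5 + t ^ 7 / (7 * (1 - t ^ 2)) - artanh t with hg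
  have hd : ∀ t ∈ Ico (0 : ℝ) 1, HasDerivAt g (2 * t ^ 8 / (7 * (1 - t ^ 2) ^ 2)) t := by
    intro t ht
    have hq := one_sub_sq_pos (by linarith [ht.1]) ht.2
    have := ((((hasDerivAt_id' t).add ((hasDerivAt_pow 3 t).div_const 3)).add
      ((hasDerivAt_pow 5 t).div_const 5)).add ((hasDerivAt_pow 7 t).div
        ((hasDerivAt_one_sub_sq t).const_mul 7) (mul_pos (by norm_num) hq).ne')).sub
          (hasDerivAt_artanh' (by linarith [ht.1]) ht.2)
    refine this.congr_deriv ?_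
    norm_num
    field_simp
    ring
  have key : MonotoneOn g (Ico 0 1) := by
    apply monotoneOn_of_hasDerivWithinAt_nonneg (convex_Ico 0 1)
      (fun t ht => (hd t ht).continuousAt.continuousWithinAt)
      (fun t ht => (hd t (interior_subset ht)).hasDerivWithinAt)
    intro t ht
    rw [interior_Ico] at ht
    have := ht.1
    positivity
  have := key ⟨le_rfl, zero_lt_one⟩ ⟨h₀, h₁⟩ h₀
  simp [hg] at this
  linarith

/-- lower Taylor bound for `phi` -/
lemma phi_lower {x : ℝ} (h₀ : 0 ≤ x) (h₁ : x < 1) : x ^ 2 / 2 + x ^ 4 / 12 ≤ phi x := by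
  set g := fun t : ℝ => phi t - (t ^ 2 / 2 + t ^ 4 / 12) with hg
  have hd : ∀ t ∈ Ico (0 : ℝ) 1, HasDerivAt g (artanh t - (t + t ^ 3 / 3)) t := by
    intro t ht
    have := (hasDerivAt_phi (by linarith [ht.1]) ht.2).sub
      (((hasDerivAt_pow 2 t).div_const 2).add ((hasDerivAt_pow 4 t).div_const 12))
    refine this.congr_deriv ?_
    norm_num
    ring
  have key : MonotoneOn g (Ico 0 1) := by
    apply monotoneOn_of_hasDerivWithinAt_nonneg (convex_Ico 0 1)
      (fun t ht => (hd t ht).continuousAt.continuousWithinAt)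
      (fun t ht => (hd t (interior_subset ht)).hasDerivWithinAt)
    intro t ht
    rw [interior_Ico] at ht
    have := artanh_lower ht.1.le ht.2
    have := pow_nonneg ht.1.le 5
    have := pow_nonneg ht.1.le 7
    linarith
  have := key ⟨le_rfl, zero_lt_one⟩ ⟨h₀, h₁⟩ h₀
  simp [hg] at this
  linarith

lemma phi_mono {x y : ℝ} (h₀ : 0 ≤ x) (hxy : x ≤ y) (h₁ : y ≤ 1) : phi x ≤ phi y := by
  have := ent_strictAntiOn.antitoneOn ⟨h₀, hxy.trans h₁⟩ ⟨h₀.trans hxy, h₁⟩ hxy
  unfold ent at this; linarith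

/-- the end of the range, `phi top = 4/25` -/
noncomputable def top : ℝ := entInv (log 2 - 4 / 25)

lemma top_facts : 0 ≤ top ∧ top < 1 ∧ phi top = 4 / 25 ∧ top ^ 2 ≤ 8 / 25 := by
  have h2 := Real.log_two_gt_d9
  have h0 : 0 < log 2 - 4 / 25 := by linarith
  have hm : top ∈ Ico (0 : ℝ) 1 := entInv_mem h0 (by linarith)
  have he : ent top = log 2 - 4 / 25 := ent_entInv h0.le (by linarith)
  have hp : phi top = 4 / 25 := by unfold ent at he; linarith
  refine ⟨hm.1, hm.2, hp, ?_⟩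
  have := phi_lower hm.1 hm.2
  nlinarith [pow_nonneg hm.1 4]

lemma exists_phi_eq {t : ℝ} (h₀ : 0 ≤ t) (h₁ : t ≤ 4 / 25) : ∃ r ∈ Icc 0 top, phi r = t := by
  obtain ⟨t0, -, tp, -⟩ := top_facts
  have h := intermediate_value_Icc t0 continuous_phi.continuousOn
  rw [phi_zero, tp] at h
  exact h ⟨h₀, h₁⟩

lemma poly_nonneg {z : ℝ} (h₀ : 0 ≤ z) (h₁ : z ≤ 8 / 25) :
    7 * (1 - z) * (4 / 3 + 8 * z / 15 + z ^ 2 / 5) + (1 + z) * z ^ 2 ≤
      7 * ((4 / 3 + 3 * z + z ^ 2 / 2) * (1 - z) ^ 3 *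
        (1 + z / 3 + z ^ 2 / 5 + z ^ 3 / 7) ^ 3) := by
  have h : 0 ≤ z * (119 / 15 - 2561 / 90 * z + 5513 / 405 * z ^ 2 + 1091 / 675 * z ^ 3
      - 28 / 15 * z ^ 4 + 1212179 / 141750 * z ^ 5 - 5186 / 7875 * z ^ 6
      - 22126 / 23625 * z ^ 7 - 979 / 6125 * z ^ 8 - 12479 / 12250 * z ^ 9
      - 2449 / 6125 * z ^ 10 - 493 / 3675 * z ^ 11 - 18 / 245 * z ^ 12 - 1 / 98 * z ^ 13) := by
    refine mul_nonneg h₀ ?_
    have hz1 : z ≤ 1 := by linarith
    have b : ∀ k : ℕ, z ^ k ≤ (8 / 25) ^ k := fun k => pow_le_pow_left₀ h₀ h₁ k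
    have := pow_nonneg h₀ 3
    have := pow_nonneg h₀ 5
    have := b 4
    have := b 6
    have := b 7
    have := b 8
    have := b 9
    have := b 10
    have := b 11
    have := b 12
    have := b 13
    have hq : 18 / 100 ≤ 119 / 15 - 2561 / 90 * z + 5513 / 405 * z ^ 2 := by
      nlinarith [mul_nonneg (sub_nonneg.2 h₁) (show (0 : ℝ) ≤ 2561 / 90 - 5513 / 405 * (z + 8 / 25) by linarith)]
    norm_num at *
    linarith
  linarith

lemma kap_deriv_le {r : ℝ} (h₀ : 0 < r) (h₁ : r < 1) (h₂ : r ^ 2 ≤ 8 / 25) :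
    (1 + r ^ 2) * artanh r - r ≤
      (4 / 3 + 6 * phi r) * (1 - r ^ 2) ^ 2 * artanh r ^ 3 := by
  set z := r ^ 2 with hz
  have hz0 : 0 ≤ z := sq_nonneg r
  have hz1 : 0 < 1 - z := by linarith
  set S := 1 + z / 3 + z ^ 2 / 5 + z ^ 3 / 7 with hS
  set B := 4 / 3 + 8 * z / 15 + z ^ 2 / 5 + (1 + z) * z ^ 2 / (7 * (1 - z)) with hB
  have hl : r * S ≤ artanh r := by
    have := artanh_lower h₀.le h₁
    refine le_trans (le_of_eq ?_) this
    rw [hS, hz]; ring
  have hu : (1 + z) * artanh r - r ≤ r * z * B := by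
    have := mul_le_mul_of_nonneg_left (artanh_upper h₀.le h₁) (show 0 ≤ 1 + z by linarith)
    have e : (1 + z) * (r + r ^ 3 / 3 + r ^ 5 / 5 + r ^ 7 / (7 * (1 - r ^ 2))) - r = r * z * B := by
      rw [hB, hz]; field_simp; ring
    linarith
  have hf : 4 / 3 + 3 * z + z ^ 2 / 2 ≤ 4 / 3 + 6 * phi r := by
    have := phi_lower h₀.le h₁
    have : r ^ 4 = z ^ 2 := by rw [hz]; ring
    linarith
  have hp : B ≤ (4 / 3 + 3 * z + z ^ 2 / 2) * (1 - z) ^ 2 * S ^ 3 := by
    have := poly_nonneg hz0 h₂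
    have e : B = (7 * (1 - z) * (4 / 3 + 8 * z / 15 + z ^ 2 / 5) + (1 + z) * z ^ 2) /
        (7 * (1 - z)) := by rw [hB]; field_simp
    rw [e, div_le_iff₀ (by positivity)]
    refine this.trans (le_of_eq ?_)
    rw [hS]; ring
  refine hu.trans ((mul_le_mul_of_nonneg_left hp (mul_nonneg h₀.le hz0)).trans ?_)
  have hS0 : 0 ≤ r * S := mul_nonneg h₀.le (by positivity)
  calc r * z * ((4 / 3 + 3 * z + z ^ 2 / 2) * (1 - z) ^ 2 * S ^ 3)
      = (4 / 3 + 3 * z + z ^ 2 / 2) * (1 - z) ^ 2 * (r * S) ^ 3 := by rw [hz]; ring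
    _ ≤ _ := by
        refine mul_le_mul (mul_le_mul_of_nonneg_right hf (sq_nonneg _))
          (pow_le_pow_left₀ hS0 hl 3) (pow_nonneg hS0 3) ?_
        exact mul_nonneg (by linarith [phi_nonneg (show -1 ≤ r by linarith) h₁.le]) (sq_nonneg _)

/-- derivative of the corrected curve with respect to its argument, in the parameter -/
noncomputable def slope (r : ℝ) : ℝ := kap r - 2 - 4 / 3 * phi r - 3 * phi r ^ 2

lemma slope_zero : slope 0 = 0 := by simp [slope, kap_zero]

lemma hasDerivAt_slope {r : ℝ} (h₀ : 0 < r) (h₁ : r < 1) :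
    HasDerivAt slope (((1 + r ^ 2) * artanh r - r) / ((1 - r ^ 2) * artanh r) ^ 2
      - (4 / 3 + 6 * phi r) * artanh r) r := by
  have hp := hasDerivAt_phi (show -1 < r by linarith) h₁
  have h := (((hasDerivAt_kap_aux h₀ h₁).sub_const 2).sub (hp.const_mul (4 / 3))).sub
    ((hp.pow 2).const_mul 3)
  have e : slope =ᶠ[nhds r] fun t => 1 + t / ((1 - t ^ 2) * artanh t) - 2 - 4 / 3 * phi t
      - 3 * phi t ^ 2 := by
    filter_upwards [Ioi_mem_nhds h₀] with t ht
    rw [slope, kap_of_pos ht]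
  refine (h.congr_of_eventuallyEq ?_).congr_deriv ?_
  · exact e.trans (Filter.Eventually.of_forall fun t => by simp)
  · norm_num; ring

lemma slope_antitone : AntitoneOn slope (Icc 0 top) := by
  obtain ⟨-, t1, -, t2⟩ := top_facts
  have key : AntitoneOn slope (Ioc 0 top) := by
    apply antitoneOn_of_hasDerivWithinAt_nonpos (convex_Ioc 0 top)
      (fun t ht => (hasDerivAt_slope ht.1 (ht.2.trans_lt t1)).continuousAt.continuousWithinAt)
      (fun t ht => (hasDerivAt_slope (interior_subset ht).1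
        ((interior_subset ht).2.trans_lt t1)).hasDerivWithinAt)
    intro t ht
    obtain ⟨h0, hle⟩ := interior_subset ht
    have h1 : t < 1 := hle.trans_lt t1
    have hA := artanh_pos ⟨h0, h1⟩
    have hq := one_sub_sq_pos (show -1 < t by linarith) h1
    rw [sub_nonpos, div_le_iff₀ (by positivity)]
    refine (kap_deriv_le h0 h1 (le_trans (pow_le_pow_left₀ h0.le hle 2) t2)).trans (le_of_eq ?_)
    ring
  intro x hx y hy hxy
  rcases hx.1.lt_or_eq with h | h
  · exact key ⟨h, hx.2⟩ ⟨h.trans_le hxy, hy.2⟩ hxy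
  subst h
  rw [slope_zero]
  rcases hy.1.lt_or_eq with hy0 | hy0
  swap
  · rw [← hy0, slope_zero]
  refine le_of_forall_pos_le_add fun δ hδ => ?_
  set ε := min y (min (1 / 2) (δ / 2)) with hε
  have he0 : 0 < ε := lt_min hy0 (lt_min (by norm_num) (by positivity))
  have he1 : ε ≤ 1 / 2 := (min_le_right _ _).trans (min_le_left _ _)
  have he2 : ε ≤ δ / 2 := (min_le_right _ _).trans (min_le_right _ _)
  have h := key ⟨he0, (min_le_left _ _).trans hy.2⟩ ⟨hy0, hy.2⟩ (min_le_left _ _)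
  have hq := one_sub_sq_pos (show -1 < ε by linarith) (by linarith)
  have hk : kap ε ≤ 1 + 1 / (1 - ε ^ 2) := by
    rw [kap_of_pos he0]
    refine add_le_add le_rfl ?_
    rw [div_le_div_iff₀ (mul_pos hq (artanh_pos ⟨he0, by linarith⟩)) hq, one_mul]
    rw [mul_comm]
    exact mul_le_mul_of_nonneg_left (le_artanh he0.le (by linarith)) hq.le
  have hk2 : 1 / (1 - ε ^ 2) ≤ 1 + δ := by
    rw [div_le_iff₀ hq]; nlinarith [mul_le_mul he1 he2 he0.le (by norm_num : (0 : ℝ) ≤ 1 / 2)]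
  have := phi_nonneg (show -1 ≤ ε by linarith) (by linarith)
  have hs : slope ε ≤ δ := by unfold slope; nlinarith
  linarith

/-- the corrected curve, in the parameter -/
noncomputable def corr (r : ℝ) : ℝ := r * artanh r - 2 * phi r - 2 / 3 * phi r ^ 2 - phi r ^ 3

lemma corr_tangent {r s : ℝ} (hr : r ∈ Icc 0 top) (hs : s ∈ Icc 0 top) :
    corr r ≤ corr s + slope s * (phi r - phi s) := by
  obtain ⟨-, t1, -, -⟩ := top_facts
  set F := fun t => corr t - slope s * phi t with hF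
  have hd : ∀ t ∈ Icc 0 top, HasDerivAt F
      (artanh t + t / (1 - t ^ 2) - artanh t * (2 + 4 / 3 * phi t + 3 * phi t ^ 2)
        - slope s * artanh t) t := by
    intro t ht
    have h0 : -1 < t := by linarith [ht.1]
    have h1 : t < 1 := ht.2.trans_lt t1
    have hp := hasDerivAt_phi h0 h1
    have := (((((hasDerivAt_id t).mul (hasDerivAt_artanh' h0 h1)).sub (hp.const_mul 2)).sub
      ((hp.pow 2).const_mul (2 / 3))).sub (hp.pow 3)).sub (hp.const_mul (slope s))
    refine this.congr_deriv ?_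
    norm_num; ring
  have heq : ∀ t, 0 < t → t ≤ top →
      artanh t + t / (1 - t ^ 2) - artanh t * (2 + 4 / 3 * phi t + 3 * phi t ^ 2)
        - slope s * artanh t = artanh t * (slope t - slope s) := by
    intro t h0 ht
    have h1 : t < 1 := ht.trans_lt t1
    have hA := artanh_pos ⟨h0, h1⟩
    have hq := one_sub_sq_pos (show -1 < t by linarith) h1
    rw [show slope t = kap t - 2 - 4 / 3 * phi t - 3 * phi t ^ 2 from rfl, kap_of_pos h0]
    field_simp; ring
  suffices F r ≤ F s by simp only [hF] at this; linarith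
  rcases le_total r s with h | h
  · have key : MonotoneOn F (Icc 0 s) := by
      apply monotoneOn_of_hasDerivWithinAt_nonneg (convex_Icc 0 s)
        (fun t ht => (hd t ⟨ht.1, ht.2.trans hs.2⟩).continuousAt.continuousWithinAt)
        (fun t ht => (hd t ⟨(interior_subset ht).1,
          (interior_subset ht).2.trans hs.2⟩).hasDerivWithinAt)
      intro t ht
      rw [interior_Icc] at ht
      rw [heq t ht.1 (ht.2.le.trans hs.2)]
      exact mul_nonneg (artanh_nonneg ht.1.le)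
        (sub_nonneg.2 (slope_antitone ⟨ht.1.le, ht.2.le.trans hs.2⟩ hs ht.2.le))
    exact key ⟨hr.1, h⟩ ⟨hs.1, le_rfl⟩ h
  · have key : AntitoneOn F (Icc s top) := by
      apply antitoneOn_of_hasDerivWithinAt_nonpos (convex_Icc s top)
        (fun t ht => (hd t ⟨hs.1.trans ht.1, ht.2⟩).continuousAt.continuousWithinAt)
        (fun t ht => (hd t ⟨hs.1.trans (interior_subset ht).1,
          (interior_subset ht).2⟩).hasDerivWithinAt)
      intro t ht
      rw [interior_Icc] at ht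
      have h0 : 0 < t := hs.1.trans_lt ht.1
      rw [heq t h0 ht.2.le]
      exact mul_nonpos_of_nonneg_of_nonpos (artanh_nonneg h0.le)
        (sub_nonpos.2 (slope_antitone hs ⟨h0.le, ht.2.le⟩ ht.1.le))
    exact key ⟨le_rfl, hs.2⟩ ⟨h, hr.2⟩ h

/-- the corrected curve -/
noncomputable def gcor (t : ℝ) : ℝ := curve (log 2 - t) - 2 * t - 2 / 3 * t ^ 2 - t ^ 3

lemma gcor_phi {r : ℝ} (hr : r ∈ Icc 0 top) : gcor (phi r) = corr r := by
  rw [gcor, show log 2 - phi r = ent r from rfl,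
    curve_ent hr.1 (hr.2.trans_lt top_facts.2.1)]
  rfl

lemma gcor_nonpos {t : ℝ} (h₀ : 0 ≤ t) (h₁ : t ≤ 4 / 25) : gcor t ≤ 0 := by
  obtain ⟨r, hr, rfl⟩ := exists_phi_eq h₀ h₁
  rw [gcor_phi hr]
  have := corr_tangent hr ⟨le_rfl, top_facts.1⟩
  simpa [corr, slope_zero] using this

lemma gcor_subadd {x y : ℝ} (hx : 0 ≤ x) (hy : 0 ≤ y) (hP : x + y ≤ 4 / 25) :
    gcor (x + y) ≤ gcor x + gcor y := by
  rcases (add_nonneg hx hy).lt_or_eq with h | h
  swap
  · obtain ⟨rfl, rfl⟩ := (add_eq_zero_iff_of_nonneg hx hy).1 h.symm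
    simp [gcor, curve_eq_zero]
  have aux : ∀ x y : ℝ, 0 ≤ x → 0 ≤ y → x + y ≤ 4 / 25 → 0 < x + y →
      x / (x + y) * gcor (x + y) ≤ gcor x := by
    intro x y hx hy hP h
    obtain ⟨s, hs, es⟩ := exists_phi_eq hx (by linarith)
    obtain ⟨r, hr, er⟩ := exists_phi_eq (add_nonneg hx hy) hP
    have h1 := corr_tangent hr hs
    have h2 := corr_tangent (r := 0) ⟨le_rfl, top_facts.1⟩ hs
    rw [← gcor_phi hr, ← gcor_phi hs, er, es] at h1
    rw [← gcor_phi hs, es] at h2
    simp [corr] at h2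
    rw [div_mul_eq_mul_div, div_le_iff₀ h]
    have a := mul_le_mul_of_nonneg_left h1 hx
    have b := mul_le_mul_of_nonneg_left h2 hy
    linarith
  have a := aux x y hx hy hP h
  have b := aux y x hy hx (by linarith) (by linarith)
  rw [add_comm y x] at b
  have e : x / (x + y) * gcor (x + y) + y / (x + y) * gcor (x + y) = gcor (x + y) := by
    field_simp
  linarith

/-- The quantitative subadditivity of `t ↦ curve (log 2 - t)`. -/
lemma curve_split {x y : ℝ} (hx : 0 ≤ x) (hy : 0 ≤ y) (hP : x + y ≤ 4 / 25) :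
    curve (log 2 - (x + y)) - curve (log 2 - x) - curve (log 2 - y) ≤
        (4 / 3 + 3 * (x + y)) * (x * y) ∧
      curve (log 2 - y) ≤ 2 * y + (4 / 3 + 3 * (x + y)) / 2 * y ^ 2 := by
  have a := gcor_subadd hx hy hP
  have b := gcor_nonpos hy (by linarith)
  simp only [gcor] at a b
  constructor
  · linarith
  · have : y * y ^ 2 ≤ 3 / 2 * (x + y) * y ^ 2 :=
      mul_le_mul_of_nonneg_right (by linarith) (sq_nonneg y)
    linarith

lemma scalar_core {x y w K Lx Ly LP mu : ℝ} (hx : 0 ≤ x) (hy : 0 ≤ y) (hP : x + y ≤ 4 / 25)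
    (hmu : mu ≤ 136 / 75) (hmu0 : 0 ≤ mu) (hK4 : 4 * y ≤ K + w) (hLyK : Ly ≤ K)
    (hsub : LP - Lx - Ly ≤ mu * (x * y)) (hLy : Ly ≤ 2 * y + mu / 2 * y ^ 2) :
    LP ≤ K + w * x + Lx := by
  rcases le_total (mu * y) w with h | h
  · have := mul_le_mul_of_nonneg_right h hx
    linarith
  · have hq : (2 - mu) * y ≤ 2 * y - w := by linarith
    have h1 : (mu * y - w) * x ≤ (2 * y - w) * x :=
      mul_le_mul_of_nonneg_right (by nlinarith) hx
    have h2 : mu / 2 * y ^ 2 ≤ (2 * y - w) * (1 - x) := by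
      have h3 : mu / 2 * y ≤ (2 - mu) * (1 - x) := by
        have : mu / 2 * y ≤ mu / 2 * (4 / 25) :=
          mul_le_mul_of_nonneg_left (by linarith) (by linarith)
        have : (2 - mu) * (21 / 25) ≤ (2 - mu) * (1 - x) :=
          mul_le_mul_of_nonneg_left (by linarith) (by linarith)
        linarith
      have a := mul_le_mul_of_nonneg_right hq (show 0 ≤ 1 - x by linarith)
      have b := mul_le_mul_of_nonneg_right h3 hy
      linarith
    linarith

end Vale.Agent.P322.Low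

namespace Vale.Agent.P322

open Real Set Low

/-- The scalar inequality at low information. -/
theorem scalar_low {m d H : ℝ} (hm : 0 ≤ m) (hd : 0 ≤ d) (hmd : m + d < 1) (_hH : 0 < H)
    (hH' : H ≤ (ent (m + d) + ent (m - d)) / 2) (hlow : log 2 - (H + phi m) ≤ 4 / 25) :
    ScalarCase gOne m d H := by
  have hφ := phi_nonneg (show -1 ≤ m by linarith) (by linarith)
  have hy0 : 0 ≤ gapPhi m d := le_trans
    (div_nonneg (div_nonneg (sq_nonneg d) (by nlinarith)) two_pos.le) (sq_div_le_gapPhi hm hd hmd)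
  set x := log 2 - (phi (m + d) + phi (m - d)) / 2 - H with hx
  have hx0 : 0 ≤ x := by rw [hx]; unfold ent at hH'; linarith
  have hA : curve (log 2 - x) ≤ avgBound (m + d) (m - d) H := by
    rw [hx, avgBound]
    refine le_trans (le_of_eq ?_) (le_max_left _ _)
    congr 1; ring
  have hsum : x + gapPhi m d = log 2 - (H + phi m) := by rw [hx, gapPhi]; ring
  have hK := meanBound_ge hm hd hmd hH'
  have h4 := four_gap_le hm hd hmd
  have hLy := curve_gap_le_kerMD hm hd hmd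
  obtain ⟨hs, hyb⟩ := curve_split hx0 hy0 (by linarith)
  have hw : min (1 / 2) (d ^ 2 / (1 - m ^ 2)) = d ^ 2 / (1 - m ^ 2) := by
    refine min_eq_right ?_
    have := sq_div_le_gapPhi hm hd hmd
    linarith
  have key := scalar_core (K := kerMD m d) (w := d ^ 2 / (1 - m ^ 2)) hx0 hy0 (by linarith)
    (by linarith) (by linarith) h4 hLy hs hyb
  rw [hw, show (ent (m + d) + ent (m - d)) / 2 - H = x by rw [hx]; unfold ent; ring] at hK
  rw [hsum, show log 2 - (log 2 - (H + phi m)) = H + phi m by ring] at key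
  rw [ScalarCase, gOne]
  linarith [le_max_left (meanBound (m + d) (m - d) H) (pairBound d H)]

end Vale.Agent.P322
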