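import Vale.Agent.P322.Scalar.Mono
import Vale.Agent.P322.Scalar.Lines
import Vale.Agent.P322.Scalar.Num
import Vale.Agent.P322.Scalar.Low
import Vale.Agent.P322.Scalar.Switch

/-!
The scalar inequality for the first hypothesis on the slice of small half-differences.

The curve tangent at `s` reduces it to `kap s * gapPhi m d ≤ max (meanBound ..) (pairBound d H)`.
Below a pivot `d'` the pair term is compared through its values at `d'`; above the pivot the mean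
term is used and compared with its value at the left end of the piece.
-/

namespace Vale.Agent.P322

open Real Set

/-- `artanh z * ent z / z` is antitone -/
lemma artanh_rat_antitoneOn : AntitoneOn (fun z => artanh z * ent z / z) (Ioo 0 1) := by
  have hd : ∀ z ∈ Ioo (0 : ℝ) 1, HasDerivAt (fun z => artanh z * ent z / z)
      (((1 / (1 - z ^ 2) * ent z + artanh z * -artanh z) * z - artanh z * ent z * 1) / z ^ 2) z :=
    fun z hz => ((hasDerivAt_artanh' (by linarith [hz.1]) hz.2).mul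
      (hasDerivAt_ent (by linarith [hz.1]) hz.2)).div (hasDerivAt_id z) hz.1.ne'
  apply antitoneOn_of_hasDerivWithinAt_nonpos (convex_Ioo _ _)
    (fun z hz => (hd z hz).continuousAt.continuousWithinAt)
    (fun z hz => (hd z (interior_subset hz)).hasDerivWithinAt)
  intro z hz
  rw [interior_Ioo] at hz
  obtain ⟨h0, h1⟩ := hz
  have he := one_sub_sq_pos (show -1 < z by linarith) h1
  have hE := ent_pos (show -1 < z by linarith) h1
  have hA := artanh_pos ⟨h0, h1⟩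
  refine div_nonpos_of_nonpos_of_nonneg ?_ (sq_nonneg z)
  suffices h : ent z * (z / (1 - z ^ 2) - artanh z) ≤ artanh z ^ 2 * z by
    rw [mul_sub, mul_div_assoc'] at h
    have e : 1 / (1 - z ^ 2) * ent z * z = ent z * z / (1 - z ^ 2) := by ring
    linarith
  rcases le_or_gt z (77 / 100) with hz7 | hz7
  · have hser := Low.artanh_lower h0.le h1
    have hA' : z + z ^ 3 / 3 ≤ artanh z := by
      have : 0 ≤ z ^ 5 / 5 + z ^ 7 / 7 := by positivity
      linarith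
    have h2 : z / (1 - z ^ 2) - artanh z ≤ z ^ 3 * (2 / 3 + z ^ 2 / (1 - z ^ 2)) := by
      have e : z / (1 - z ^ 2) - (z + z ^ 3 / 3) = z ^ 3 * (2 / 3 + z ^ 2 / (1 - z ^ 2)) := by
        field_simp; ring
      linarith
    have hent : ent z ≤ 694 / 1000 - z ^ 2 / 2 := by
      have := half_sq_le_phi h0.le h1
      have := Real.log_two_lt_d9
      unfold ent
      linarith
    have hu : z ^ 2 ≤ (77 / 100) ^ 2 := pow_le_pow_left₀ h0.le hz7 2
    have hP : (694 / 1000 - z ^ 2 / 2) * (2 / 3 + z ^ 2 / (1 - z ^ 2)) ≤ 1 := by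
      have e : 2 / 3 + z ^ 2 / (1 - z ^ 2) = (2 / 3 + z ^ 2 / 3) / (1 - z ^ 2) := by
        field_simp; ring
      rw [e, mul_div_assoc', div_le_one he]
      nlinarith [mul_nonneg (sq_nonneg z) (sub_nonneg.2 hu)]
    calc ent z * (z / (1 - z ^ 2) - artanh z)
        ≤ ent z * (z ^ 3 * (2 / 3 + z ^ 2 / (1 - z ^ 2))) := mul_le_mul_of_nonneg_left h2 hE.le
      _ ≤ (694 / 1000 - z ^ 2 / 2) * (z ^ 3 * (2 / 3 + z ^ 2 / (1 - z ^ 2))) :=
          mul_le_mul_of_nonneg_right hent (by positivity)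
      _ = z ^ 3 * ((694 / 1000 - z ^ 2 / 2) * (2 / 3 + z ^ 2 / (1 - z ^ 2))) := by ring
      _ ≤ z ^ 3 * 1 := mul_le_mul_of_nonneg_left hP (by positivity)
      _ ≤ artanh z ^ 2 * z := by
          have h3 := pow_le_pow_left₀ h0.le (le_artanh h0.le h1) 2
          have := mul_le_mul_of_nonneg_right h3 h0.le
          linarith
  · have hAv : 99 / 100 ≤ artanh z := by
      have := Low.artanh_lower h0.le h1
      have a3 := pow_le_pow_left₀ (by norm_num) hz7.le 3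
      have a5 := pow_le_pow_left₀ (by norm_num) hz7.le 5
      have a7 := pow_le_pow_left₀ (by norm_num) hz7.le 7
      linarith
    have hent : ent z ≤ (1 - z) * (artanh z + 1 / (1 + z)) := by
      rw [Num.ent_eq_log (by linarith) h1]
      have e1 : log ((1 - z) / 2) = log ((1 + z) / 2) - 2 * artanh z := by
        rw [artanh_eq (by linarith) h1, log_div (by linarith) two_ne_zero,
          log_div (by linarith) two_ne_zero]
        ring
      have e2 := Real.one_sub_inv_le_log_of_pos (show 0 < (1 + z) / 2 by linarith)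
      rw [e1]
      have e3 : 1 - ((1 + z) / 2)⁻¹ = -((1 - z) / (1 + z)) := by field_simp; ring
      rw [e3] at e2
      have e4 : (1 - z) * (artanh z + 1 / (1 + z)) = (1 - z) * artanh z + (1 - z) / (1 + z) := by
        ring
      linarith
    set v := artanh z * (1 + z) with hv
    have hv' : 170 / 100 ≤ v := by
      have := mul_le_mul hAv (show 177 / 100 ≤ 1 + z by linarith) (by norm_num) hA.le
      linarith
    calc ent z * (z / (1 - z ^ 2) - artanh z) ≤ ent z * (z / (1 - z ^ 2)) := by gcongr; linarith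
      _ ≤ (1 - z) * (artanh z + 1 / (1 + z)) * (z / (1 - z ^ 2)) :=
          mul_le_mul_of_nonneg_right hent (div_nonneg h0.le he.le)
      _ = z * ((v + 1) / (1 + z) ^ 2) := by
          rw [hv]; field_simp; ring
      _ ≤ z * artanh z ^ 2 := by
          refine mul_le_mul_of_nonneg_left ?_ h0.le
          rw [div_le_iff₀ (by positivity)]
          have : v + 1 ≤ v ^ 2 := by nlinarith
          rw [hv] at this ⊢
          linarith
      _ = artanh z ^ 2 * z := mul_comm _ _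

/-- `pairBound d H / d ^ 2` decreases in `d` -/
theorem pairBound_sq_antitone {d d' H : ℝ} (hd : 0 < d) (hdd : d ≤ d') (hH : 0 < H) :
    d ^ 2 * pairBound d' H ≤ d' ^ 2 * pairBound d H := by
  have hd' : 0 < d' := hd.trans_le hdd
  obtain ⟨z, hz, ez⟩ := exists_rat_eq (div_pos hH hd)
  obtain ⟨z', hz', ez'⟩ := exists_rat_eq (div_pos hH hd')
  have hle : z ≤ z' := by
    by_contra hc
    have h := rat_strictAntiOn hz' hz (not_le.1 hc)
    simp only at h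
    rw [ez, ez'] at h
    exact not_le.2 h (div_le_div_of_nonneg_left hH.le hd hdd)
  have h := artanh_rat_antitoneOn hz hz' hle
  simp only at h
  rw [mul_div_assoc, mul_div_assoc, ez, ez'] at h
  rw [pairBound_of_pos hd, pairBound_of_pos hd', ← ez, ← ez', ratInv_rat hz, ratInv_rat hz']
  have h2 := mul_le_mul_of_nonneg_left h (show 0 ≤ d * d' * (d * d') / H by positivity)
  have e1 : d * d' * (d * d') / H * (artanh z' * (H / d')) = d ^ 2 * (d' * artanh z') := by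
    field_simp
  have e2 : d * d' * (d * d') / H * (artanh z * (H / d)) = d' ^ 2 * (d * artanh z) := by
    field_simp
  rwa [e1, e2] at h2

namespace Slice

/-- A piece `[ma, mb]` of means. Mode `0`: the pivot is the upper end of the slice; mode `1`: the
pivot is `1 - m`; mode `2`: the pivot is `dd`, and `ds` splits the differences above it. -/
structure Piece where
  mode : ℕ
  mb : ℚ
  mp : ℚ
  z : ℚ
  dd : ℚ
  wc : ℚ
  ds : List ℚ

/-- upper bound for `(phi (m + d) + phi (m - d)) / 2` -/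
def barHi (m d : ℚ) : ℚ := (Num.phiHi (m + d) + Num.phiHi (m - d)) / 2

/-- upper bound for the same quantity at `d = 1 - m` -/
def edgeHi (m : ℚ) : ℚ := (Num.ln2Hi + Num.phiHi (2 * m - 1)) / 2

/-- lower bound for the tangent of `phi` at `mp` -/
def lineLo (mp m : ℚ) : ℚ :=
  Num.phiLo mp + (if mp ≤ m then Num.atLo mp else Num.atHi mp) * (m - mp)

/-- lower bound for the slope of the pair line at `z` -/
def slopeLo (z : ℚ) : ℚ := Num.atLo z + Num.lamLo z * (Num.entLo z / z)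

/-- the expression which has to be nonnegative at both ends of a piece -/
def value (E K : ℚ) (p : Piece) (m d bar : ℚ) : ℚ :=
  slopeLo p.z * d - Num.lamHi p.z * E + (Num.lamHi p.z + K) * lineLo p.mp m - K * bar

/-- side conditions of a piece -/
def okBase (ma : ℚ) (p : Piece) : Bool :=
  decide (0 ≤ ma ∧ ma < p.mb ∧ p.mb < 1 ∧ 0 < p.mp ∧ p.mp < 1 ∧ 0 < p.z ∧ p.z < 1
    ∧ 0 < Num.nfunLo p.z ∧ 0 ≤ Num.lamLo p.z ∧ 0 ≤ Num.entLo p.z)

/-- check with a fixed pivot -/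
def okFix (E K ma : ℚ) (p : Piece) (d : ℚ) : Bool :=
  decide (0 < d ∧ p.mb + d < 1 ∧ -1 < ma - d
    ∧ 0 ≤ value E K p ma d (barHi ma d) ∧ 0 ≤ value E K p p.mb d (barHi p.mb d))

/-- check with the pivot `1 - m` -/
def okEdge (E K ma : ℚ) (p : Piece) : Bool :=
  decide (0 < ma ∧ 0 ≤ value E K p ma (1 - ma) (edgeHi ma)
    ∧ 0 ≤ value E K p p.mb (1 - p.mb) (edgeHi p.mb))

/-- lower bound for `kerMD` -/
def kerLo (m d : ℚ) : ℚ := d * (Num.atLo (m + d) - Num.atHi (m - d)) / 2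

/-- upper bound for `gapPhi`, also at the edge -/
def gapHi (m d : ℚ) : ℚ := (if m + d < 1 then barHi m d else edgeHi m) - Num.phiLo m

/-- one step of differences -/
def okStep (K P ma wc a b : ℚ) : Bool :=
  decide (0 ≤ a ∧ a ≤ b ∧ 0 < b ∧ ma + a < 1 ∧ ma + b ≤ 1 ∧ -1 < ma - b
    ∧ (K + wc) * gapHi ma b ≤ kerLo ma a + wc * P)

/-- steps up to `d1` or up to the edge -/
def okSteps (K P ma wc d1 : ℚ) : ℚ → List ℚ → Bool
  | a, [] => decide (d1 ≤ a ∨ 1 - ma ≤ a)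
  | a, b :: r => okStep K P ma wc a b && okSteps K P ma wc d1 b r

/-- the conditions for the mean term above a pivot -/
def okTop (K P ma d1 : ℚ) (p : Piece) : Bool :=
  decide (0 < ma ∧ 0 ≤ K ∧ 0 ≤ p.wc ∧ p.wc ≤ 1 / 2 ∧ p.wc * (1 - ma ^ 2) ≤ p.dd ^ 2
    ∧ (K + p.wc) * (((1 - ma ^ 2) ^ 2 - 2 * p.dd ^ 2 * (1 + ma ^ 2) + p.dd ^ 4)
        + (1 - ma ^ 2) ^ 2) ≤ 4 * (1 - ma ^ 2) ^ 2)
  && okSteps K P ma p.wc d1 p.dd p.ds

/-- check of one piece -/
def okPiece (E K P d1 ma : ℚ) (p : Piece) : Bool :=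
  okBase ma p && (if p.mode = 0 then okFix E K ma p d1 else if p.mode = 1 then okEdge E K ma p
    else okFix E K ma p p.dd && okTop K P ma d1 p)

/-- check of a list of pieces, up to a mean with `phi` at least the entropy -/
def okPieces (E K P d1 : ℚ) : ℚ → List Piece → Bool
  | ma, [] => decide (0 ≤ ma ∧ ma < 1 ∧ E ≤ Num.phiLo ma)
  | ma, p :: r => okPiece E K P d1 ma p && okPieces E K P d1 p.mb r

/-- check of one interval of `s` -/
def okSlice (s0 s1 d1 : ℚ) (L : List Piece) : Bool :=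
  decide (0 < s0 ∧ s0 ≤ s1 ∧ s1 < 1 ∧ 0 < Num.atLo s1)
    && okPieces (Num.entHi s0) (Num.kapHi s1) (Num.phiLo s0) d1 0 L

lemma phi_chord {a b t : ℝ} (ha : |a| < 1) (hb : |b| < 1) (ht : t ∈ Icc (0 : ℝ) 1) :
    phi ((1 - t) * a + t * b) ≤ (1 - t) * phi a + t * phi b := by
  set x := (1 - t) * a + t * b with hx
  have hx1 : |x| < 1 := by
    have := convex_Ioo (-1 : ℝ) 1 (abs_lt.1 ha) (abs_lt.1 hb) (sub_nonneg.2 ht.2) ht.1
      (by ring)
    exact abs_lt.2 (by simpa only [smul_eq_mul, ← hx, Set.mem_Ioo] using this)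
  have h1 := ent_le_tangent ha hx1
  have h2 := ent_le_tangent hb hx1
  simp only [ent] at h1 h2
  have k1 := mul_le_mul_of_nonneg_left h1 (sub_nonneg.2 ht.2)
  have k2 := mul_le_mul_of_nonneg_left h2 ht.1
  have : (1 - t) * (artanh x * (a - x)) + t * (artanh x * (b - x)) = 0 := by rw [hx]; ring
  linarith

lemma gapPhi_edge (m : ℝ) : gapPhi m (1 - m) = (log 2 + phi (2 * m - 1)) / 2 - phi m := by
  rw [gapPhi, show m + (1 - m) = 1 by ring, show m - (1 - m) = 2 * m - 1 by ring, phi_one]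

lemma kerMD_mono_d {m a d : ℝ} (hm : 0 ≤ m) (ha : 0 ≤ a) (had : a ≤ d) (hmd : m + d < 1) :
    kerMD m a ≤ kerMD m d := by
  rw [kerMD_eq, kerMD_eq]
  refine mul_le_mul had ?_ (halfDiff_nonneg hm ha (by linarith)) (ha.trans had)
  unfold halfDiff
  have h1 := artanh_le_artanh (show -1 < m + a by linarith) hmd (by linarith)
  have h2 := artanh_le_artanh (show -1 < m - d by linarith) (show m - a < 1 by linarith)
    (by linarith)
  linarith

lemma gapPhi_nonneg' {m b : ℝ} (hm : 0 ≤ m) (hm1 : m < 1) (hb : 0 < b) (hmb : m + b ≤ 1) :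
    0 ≤ gapPhi m b := by
  have h := gap_div_sq_mono (d := b / 2) (d₁ := b) hm (by linarith) (by linarith) hmb
  have h0 := gapPhi_nonneg hm (show 0 ≤ b / 2 by linarith) (by linarith)
  nlinarith [mul_nonneg (sq_nonneg b) h0, sq_pos_of_pos hb]

lemma gapPhi_mono_d {m d b : ℝ} (hm : 0 ≤ m) (hd : 0 ≤ d) (hdb : d ≤ b) (hb : 0 < b)
    (hmb : m + b ≤ 1) (hm1 : m < 1) : gapPhi m d ≤ gapPhi m b := by
  have h := gap_div_sq_mono hm hd hdb hmb
  have h0 := gapPhi_nonneg' hm hm1 hb hmb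
  refine le_of_mul_le_mul_left (h.trans ?_) (pow_pos hb 2)
  exact mul_le_mul_of_nonneg_right (pow_le_pow_left₀ hd hdb 2) h0

/-- the goal of a piece -/
def Good (K : ℚ) (m d H : ℝ) : Prop :=
  (K : ℝ) * gapPhi m d ≤ max (meanBound (m + d) (m - d) H) (pairBound d H)

lemma of_pivot {K : ℝ} {m d d' H : ℝ} (hm : 0 ≤ m) (hd : 0 ≤ d) (hdd : d ≤ d')
    (hmd : m + d' ≤ 1) (hK : 0 ≤ K) (hH : 0 < H) (h : K * gapPhi m d' ≤ pairBound d' H) :
    K * gapPhi m d ≤ pairBound d H := by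
  rcases hd.lt_or_eq with hd0 | rfl
  · have hd' : 0 < d' := hd0.trans_le hdd
    have h1 := gap_div_sq_mono hm hd hdd hmd
    have h2 := pairBound_sq_antitone hd0 hdd hH
    refine le_of_mul_le_mul_left ?_ (pow_pos hd' 2)
    calc d' ^ 2 * (K * gapPhi m d) = K * (d' ^ 2 * gapPhi m d) := by ring
      _ ≤ K * (d ^ 2 * gapPhi m d') := mul_le_mul_of_nonneg_left h1 hK
      _ = d ^ 2 * (K * gapPhi m d') := by ring
      _ ≤ d ^ 2 * pairBound d' H := mul_le_mul_of_nonneg_left h (sq_nonneg d)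
      _ ≤ _ := h2
  · simp [pairBound_zero]

/-- interpolation between the two ends of a piece -/
lemma pair_piece {E K : ℚ} {p : Piece} {ma : ℚ} {m d' da db : ℝ} {qa qb : ℚ}
    (hbase : okBase ma p = true) (hma : (ma : ℝ) ≤ m) (hmb : m ≤ p.mb) (hK : 0 ≤ K)
    {H : ℝ} (hH : 0 < H) (hHE : H ≤ (E : ℝ) - phi m) (hd' : 0 ≤ d')
    (hlin : ∀ t : ℝ, t ∈ Icc (0 : ℝ) 1 → m = (1 - t) * ma + t * p.mb →
      d' = (1 - t) * da + t * db ∧
        (phi (m + d') + phi (m - d')) / 2 ≤ (1 - t) * qa + t * qb)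
    {ea eb : ℚ} (hea : (ea : ℝ) = da) (heb : (eb : ℝ) = db)
    (hva : 0 ≤ value E K p ma ea qa) (hvb : 0 ≤ value E K p p.mb eb qb) :
    (K : ℝ) * gapPhi m d' ≤ pairBound d' H := by
  simp only [okBase, decide_eq_true_eq] at hbase
  obtain ⟨hma0, hab, hmb1, hp0, hp1, hz0, hz1, hN, hlam, hent⟩ := hbase
  have hp0R : (0 : ℝ) < (p.mp : ℝ) := by exact_mod_cast hp0
  have hp1R : (p.mp : ℝ) < 1 := by exact_mod_cast hp1
  have hz0R : (0 : ℝ) < (p.z : ℝ) := by exact_mod_cast hz0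
  have hz1R : (p.z : ℝ) < 1 := by exact_mod_cast hz1
  have hma0R : (0 : ℝ) ≤ (ma : ℝ) := by exact_mod_cast hma0
  have hmb1R : (p.mb : ℝ) < 1 := by exact_mod_cast hmb1
  have habR : (ma : ℝ) < (p.mb : ℝ) := by exact_mod_cast hab
  have hu : (slopeLo p.z : ℝ) ≤ artanh (p.z : ℝ) + lamFun p.z * (ent (p.z : ℝ) / p.z) := by
    have a1 := Num.atLo_le (s := p.z) (by linarith) hz1
    have a2 := Num.lamLo_le (s := p.z) (by linarith) hz1
    have a3 := Num.entLo_le (s := p.z) (by linarith) hz1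
    have hl0 : (0 : ℝ) ≤ (Num.lamLo p.z : ℝ) := by exact_mod_cast hlam
    have he0 : (0 : ℝ) ≤ (Num.entLo p.z : ℝ) := by exact_mod_cast hent
    rw [slopeLo]
    push_cast
    refine add_le_add a1 (mul_le_mul a2 (div_le_div_of_nonneg_right a3 hz0R.le) ?_ ?_)
    · exact div_nonneg he0 hz0R.le
    · exact lamFun_nonneg (by linarith) hz1R
  have hl := Num.le_lamHi (s := p.z) (by linarith) hz1 hN
  have hl0 : (0 : ℝ) ≤ (Num.lamHi p.z : ℝ) :=
    (lamFun_nonneg (by linarith) hz1R).trans hl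
  refine le_trans ?_ (pairBound_line hd' hH ⟨hz0R, hz1R⟩ hu hl)
  have hline : ∀ x : ℚ, (lineLo p.mp x : ℝ) ≤ phi (p.mp : ℝ) + artanh (p.mp : ℝ) * ((x : ℝ) - p.mp) := by
    intro x
    have a1 := Num.phiLo_le (s := p.mp) (by linarith) hp1
    rw [lineLo]
    push_cast
    refine add_le_add a1 ?_
    split_ifs with h
    · exact mul_le_mul_of_nonneg_right (Num.atLo_le (by linarith) hp1)
        (sub_nonneg.2 (by exact_mod_cast h))
    · exact mul_le_mul_of_nonpos_right (Num.le_atHi (by linarith) hp1)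
        (sub_nonpos.2 (by exact_mod_cast (not_le.1 h).le))
  set t := (m - ma) / ((p.mb : ℝ) - ma) with ht
  have ht01 : t ∈ Icc (0 : ℝ) 1 := ⟨div_nonneg (by linarith) (by linarith),
    (div_le_one (by linarith)).2 (by linarith)⟩
  have hm : m = (1 - t) * ma + t * p.mb := by
    have : t * ((p.mb : ℝ) - ma) = m - ma := div_mul_cancel₀ _ (by linarith)
    linarith
  obtain ⟨hdt, hbar⟩ := hlin t ht01 hm
  have htan : phi (p.mp : ℝ) + artanh (p.mp : ℝ) * (m - p.mp) ≤ phi m := by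
    have h := ent_le_tangent (x := m) (c := (p.mp : ℝ)) (abs_lt.2 ⟨by linarith, by linarith⟩)
      (abs_lt.2 ⟨by linarith, hp1R⟩)
    simp only [ent] at h
    linarith
  have va : (0 : ℝ) ≤ ((value E K p ma ea qa : ℚ) : ℝ) := by exact_mod_cast hva
  have vb : (0 : ℝ) ≤ ((value E K p p.mb eb qb : ℚ) : ℝ) := by exact_mod_cast hvb
  simp only [value] at va vb
  push_cast at va vb
  rw [hea] at va
  rw [heb] at vb
  set l := (Num.lamHi p.z : ℝ)
  set u := (slopeLo p.z : ℝ)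
  have hKR : (0 : ℝ) ≤ (K : ℝ) := by exact_mod_cast hK
  have la := mul_le_mul_of_nonneg_left (hline ma) (add_nonneg hl0 hKR)
  have lb := mul_le_mul_of_nonneg_left (hline p.mb) (add_nonneg hl0 hKR)
  have sa := mul_le_mul_of_nonneg_left la (sub_nonneg.2 ht01.2)
  have sb := mul_le_mul_of_nonneg_left lb ht01.1
  have ta := mul_nonneg (sub_nonneg.2 ht01.2) va
  have tb := mul_nonneg ht01.1 vb
  have hb' := mul_le_mul_of_nonneg_left hbar hKR
  have ht' := mul_le_mul_of_nonneg_left htan (add_nonneg hl0 hKR)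
  have hh := mul_le_mul_of_nonneg_left hHE hl0
  rw [hdt] at hb' ⊢
  rw [hm] at hh ht' hb' ⊢
  simp only [gapPhi]
  linarith

lemma okFix_sound {E K ma : ℚ} {p : Piece} {dq : ℚ} (hbase : okBase ma p = true)
    (h : okFix E K ma p dq = true) (hK : 0 ≤ K) {m d H : ℝ} (hma : (ma : ℝ) ≤ m) (hmb : m ≤ p.mb)
    (hd : 0 ≤ d) (hdd : d ≤ (dq : ℝ)) (hH : 0 < H) (hHE : H ≤ (E : ℝ) - phi m) :
    Good K m d H := by
  simp only [okFix, decide_eq_true_eq] at h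
  obtain ⟨hd0, hb1, hlo, va, vb⟩ := h
  have hb' := hbase
  simp only [okBase, decide_eq_true_eq] at hb'
  have hm0 : (0 : ℝ) ≤ m := le_trans (by exact_mod_cast hb'.1) hma
  have hd0R : (0 : ℝ) < (dq : ℝ) := by exact_mod_cast hd0
  have hb1R : (p.mb : ℝ) + (dq : ℝ) < 1 := by exact_mod_cast hb1
  have hloR : (-1 : ℝ) < (ma : ℝ) - (dq : ℝ) := by exact_mod_cast hlo
  refine le_trans ?_ (le_max_right _ _)
  refine of_pivot hm0 hd hdd (by linarith) (by exact_mod_cast hK) hH ?_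
  refine pair_piece hbase hma hmb hK hH hHE hd0R.le (fun t ht hm => ⟨?_, ?_⟩) rfl rfl va vb
  · ring
  · have ha1 : |(ma : ℝ) + dq| < 1 := abs_lt.2 ⟨by linarith, by linarith⟩
    have ha2 : |(ma : ℝ) - dq| < 1 := abs_lt.2 ⟨by linarith, by linarith⟩
    have hb1' : |(p.mb : ℝ) + dq| < 1 := abs_lt.2 ⟨by linarith, by linarith⟩
    have hb2' : |(p.mb : ℝ) - dq| < 1 := abs_lt.2 ⟨by linarith, by linarith⟩
    have c1 := phi_chord ha1 hb1' ht
    have c2 := phi_chord ha2 hb2' ht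
    rw [show (1 - t) * ((ma : ℝ) + dq) + t * ((p.mb : ℝ) + dq) = m + dq by rw [hm]; ring] at c1
    rw [show (1 - t) * ((ma : ℝ) - dq) + t * ((p.mb : ℝ) - dq) = m - dq by rw [hm]; ring] at c2
    have qa : (phi ((ma : ℝ) + dq) + phi ((ma : ℝ) - dq)) / 2 ≤ (barHi ma dq : ℝ) := by
      have a := Num.le_phiHi (s := ma + dq) (by linarith [hb'.1]) (by linarith [hb'.2.1, hb1])
      have b := Num.le_phiHi (s := ma - dq) hlo (by linarith [hb'.2.1, hb1])
      rw [barHi]; push_cast at a b ⊢; linarith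
    have qb : (phi ((p.mb : ℝ) + dq) + phi ((p.mb : ℝ) - dq)) / 2 ≤ (barHi p.mb dq : ℝ) := by
      have a := Num.le_phiHi (s := p.mb + dq) (by linarith [hb'.1, hb'.2.1]) hb1
      have b := Num.le_phiHi (s := p.mb - dq) (by linarith [hb'.2.1]) (by linarith [hb'.2.2.1])
      rw [barHi]; push_cast at a b ⊢; linarith
    have := mul_le_mul_of_nonneg_left qa (sub_nonneg.2 ht.2)
    have := mul_le_mul_of_nonneg_left qb ht.1
    linarith

lemma okEdge_sound {E K ma : ℚ} {p : Piece} (hbase : okBase ma p = true)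
    (h : okEdge E K ma p = true) (hK : 0 ≤ K) {m d H : ℝ} (hma : (ma : ℝ) ≤ m) (hmb : m ≤ p.mb)
    (hd : 0 ≤ d) (hmd : m + d < 1) (hH : 0 < H) (hHE : H ≤ (E : ℝ) - phi m) :
    Good K m d H := by
  simp only [okEdge, decide_eq_true_eq] at h
  obtain ⟨hma0, va, vb⟩ := h
  have hb' := hbase
  simp only [okBase, decide_eq_true_eq] at hb'
  have hma0R : (0 : ℝ) < (ma : ℝ) := by exact_mod_cast hma0
  have habR : (ma : ℝ) < (p.mb : ℝ) := by exact_mod_cast hb'.2.1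
  have hmb1R : (p.mb : ℝ) < 1 := by exact_mod_cast hb'.2.2.1
  refine le_trans ?_ (le_max_right _ _)
  refine of_pivot (d' := 1 - m) (by linarith) hd (by linarith) (by linarith)
    (by exact_mod_cast hK) hH ?_
  refine pair_piece (da := 1 - (ma : ℝ)) (db := 1 - (p.mb : ℝ)) hbase hma hmb hK hH hHE
    (by linarith) (fun t ht hm => ⟨?_, ?_⟩) (by push_cast; ring) (by push_cast; ring) va vb
  · rw [hm]; ring
  · have c := phi_chord (a := 2 * (ma : ℝ) - 1) (b := 2 * (p.mb : ℝ) - 1)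
      (abs_lt.2 ⟨by linarith, by linarith⟩) (abs_lt.2 ⟨by linarith, by linarith⟩) ht
    rw [show (1 - t) * (2 * (ma : ℝ) - 1) + t * (2 * (p.mb : ℝ) - 1) = 2 * m - 1 by
      rw [hm]; ring] at c
    rw [show m + (1 - m) = 1 by ring, show m - (1 - m) = 2 * m - 1 by ring, phi_one]
    have a := Num.le_phiHi (s := 2 * ma - 1) (by linarith) (by linarith [hb'.2.1, hb'.2.2.1])
    have b := Num.le_phiHi (s := 2 * p.mb - 1) (by linarith [hb'.2.1]) (by linarith [hb'.2.2.1])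
    have := Num.le_ln2Hi
    have qa : (log 2 + phi (2 * (ma : ℝ) - 1)) / 2 ≤ (edgeHi ma : ℝ) := by
      rw [edgeHi]; push_cast at a ⊢; linarith
    have qb : (log 2 + phi (2 * (p.mb : ℝ) - 1)) / 2 ≤ (edgeHi p.mb : ℝ) := by
      rw [edgeHi]; push_cast at b ⊢; linarith
    have := mul_le_mul_of_nonneg_left qa (sub_nonneg.2 ht.2)
    have := mul_le_mul_of_nonneg_left qb ht.1
    linarith

lemma okStep_sound {K P ma wc a b : ℚ} (h : okStep K P ma wc a b = true) (hma0 : 0 < ma)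
    (hK : 0 ≤ K) (hwc : 0 ≤ wc) {d : ℝ} (hda : (a : ℝ) ≤ d) (hdb : d ≤ (b : ℝ))
    (hd1 : (ma : ℝ) + d < 1) :
    ((K : ℝ) + wc) * gapPhi ma d ≤ kerMD ma d + (wc : ℝ) * P := by
  simp only [okStep, decide_eq_true_eq] at h
  obtain ⟨ha0, hab, hb0, hma_a, hma_b, hlo, hv⟩ := h
  have hma0R : (0 : ℝ) < (ma : ℝ) := by exact_mod_cast hma0
  have ha0R : (0 : ℝ) ≤ (a : ℝ) := by exact_mod_cast ha0
  have hb0R : (0 : ℝ) < (b : ℝ) := by exact_mod_cast hb0
  have hbR : (ma : ℝ) + (b : ℝ) ≤ 1 := by exact_mod_cast hma_b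
  have h1 : gapPhi (ma : ℝ) d ≤ gapPhi (ma : ℝ) b :=
    gapPhi_mono_d hma0R.le (ha0R.trans hda) hdb hb0R hbR (by linarith)
  have h2 : gapPhi (ma : ℝ) b ≤ (gapHi ma b : ℝ) := by
    have p1 := Num.phiLo_le (s := ma) (by linarith) (by linarith)
    unfold gapHi
    split_ifs with hlt
    · have x := Num.le_phiHi (s := ma + b) (by linarith) hlt
      have y := Num.le_phiHi (s := ma - b) hlo (by linarith)
      rw [gapPhi, barHi]; push_cast at x y ⊢; linarith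
    · have e : b = 1 - ma := by linarith
      have x := Num.le_phiHi (s := 2 * ma - 1) (by linarith) (by linarith)
      have := Num.le_ln2Hi
      subst e
      push_cast
      rw [gapPhi_edge, edgeHi]; push_cast at x ⊢; linarith
  have h3 : (kerLo ma a : ℝ) ≤ kerMD ma d := by
    refine le_trans ?_ (kerMD_mono_d hma0R.le ha0R hda hd1)
    have x := Num.atLo_le (s := ma + a) (by linarith) hma_a
    have y := Num.le_atHi (s := ma - a) (by linarith) (by linarith)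
    rw [kerLo, kerMD_eq, halfDiff]
    push_cast at x y ⊢
    rw [mul_div_assoc]
    exact mul_le_mul_of_nonneg_left (by linarith) ha0R
  have hvR : ((K : ℝ) + wc) * (gapHi ma b : ℝ) ≤ (kerLo ma a : ℝ) + (wc : ℝ) * P := by
    exact_mod_cast hv
  have hc : (0 : ℝ) ≤ (K : ℝ) + wc := by exact_mod_cast add_nonneg hK hwc
  linarith [mul_le_mul_of_nonneg_left (h1.trans h2) hc]

lemma okSteps_sound {K P ma wc d1 : ℚ} (hma0 : 0 < ma) (hK : 0 ≤ K) (hwc : 0 ≤ wc) :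
    ∀ (L : List ℚ) (a : ℚ), okSteps K P ma wc d1 a L = true → ∀ d : ℝ, (a : ℝ) ≤ d →
      d ≤ (d1 : ℝ) → (ma : ℝ) + d < 1 →
      ((K : ℝ) + wc) * gapPhi ma d ≤ kerMD ma d + (wc : ℝ) * P ∨ d = (a : ℝ) := by
  intro L
  induction L with
  | nil =>
    intro a h d had hd1 hmd
    simp only [okSteps, decide_eq_true_eq] at h
    rcases h with h | h
    · have : (d1 : ℝ) ≤ (a : ℝ) := by exact_mod_cast h
      exact Or.inr (le_antisymm (hd1.trans this) had)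
    · have : (1 : ℝ) - ma ≤ (a : ℝ) := by exact_mod_cast h
      linarith
  | cons b r ih =>
    intro a h d had hd1 hmd
    simp only [okSteps, Bool.and_eq_true] at h
    rcases le_or_gt d (b : ℝ) with hdb | hdb
    · exact Or.inl (okStep_sound h.1 hma0 hK hwc had hdb hmd)
    · rcases ih b h.2 d hdb.le hd1 hmd with h' | h'
      · exact Or.inl h'
      · linarith

lemma okTop_sound {K P ma d1 : ℚ} {p : Piece} (h : okTop K P ma d1 p = true) (hdd0 : 0 ≤ p.dd)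
    {m d H : ℝ} (hma : (ma : ℝ) ≤ m) (hd : (p.dd : ℝ) < d) (hd1 : d ≤ (d1 : ℝ))
    (hmd : m + d < 1)
    (hH' : H ≤ (ent (m + d) + ent (m - d)) / 2)
    (hx : (P : ℝ) - gapPhi m d ≤ (ent (m + d) + ent (m - d)) / 2 - H) :
    Good K m d H := by
  simp only [okTop, Bool.and_eq_true, decide_eq_true_eq] at h
  obtain ⟨⟨hma0, hK, hw0, hw2, hwD, hcond⟩, hsteps⟩ := h
  have hma0R : (0 : ℝ) < (ma : ℝ) := by exact_mod_cast hma0
  have hdR : (0 : ℝ) ≤ (p.dd : ℝ) := by exact_mod_cast hdd0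
  have hd0 : (0 : ℝ) ≤ d := hdR.trans hd.le
  have hm0 : (0 : ℝ) ≤ m := by linarith
  have hKR : (0 : ℝ) ≤ (K : ℝ) := by exact_mod_cast hK
  have hw0R : (0 : ℝ) ≤ (p.wc : ℝ) := by exact_mod_cast hw0
  rcases okSteps_sound hma0 hK hw0 p.ds p.dd hsteps d hd.le hd1 (by linarith) with hs | hs
  swap
  · linarith
  have hcondR : ((K : ℝ) + p.wc) * (((1 - (ma : ℝ) ^ 2) ^ 2 - 2 * (p.dd : ℝ) ^ 2 * (1 + (ma : ℝ) ^ 2)
      + (p.dd : ℝ) ^ 4) + (1 - (ma : ℝ) ^ 2) ^ 2) ≤ 4 * (1 - (ma : ℝ) ^ 2) ^ 2 := by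
    exact_mod_cast hcond
  have hPQ : ((1 - (ma : ℝ) ^ 2) ^ 2 - 2 * d ^ 2 * (1 + (ma : ℝ) ^ 2) + d ^ 4)
      ≤ ((1 - (ma : ℝ) ^ 2) ^ 2 - 2 * (p.dd : ℝ) ^ 2 * (1 + (ma : ℝ) ^ 2) + (p.dd : ℝ) ^ 4) := by
    have h1 : (p.dd : ℝ) ^ 2 ≤ d ^ 2 := pow_le_pow_left₀ hdR hd.le 2
    have h2 : d ^ 2 ≤ 1 := by nlinarith
    nlinarith [mul_nonneg (sub_nonneg.2 h1) (show 0 ≤ 2 * (1 + (ma : ℝ) ^ 2) - d ^ 2 - (p.dd : ℝ) ^ 2 by
      nlinarith)]
  have hmono := kerMD_sub_gap_mono (c := (K : ℝ) + p.wc) hma0R.le hma hd0 hmd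
    (le_trans (mul_le_mul_of_nonneg_left (by linarith) (add_nonneg hKR hw0R)) hcondR)
  have hwmin : (p.wc : ℝ) ≤ min (1 / 2) (d ^ 2 / (1 - m ^ 2)) := by
    have hm1 := one_sub_sq_pos (show -1 < m by linarith) (by linarith)
    have hw2R : ((p.wc : ℚ) : ℝ) ≤ ((1 / 2 : ℚ) : ℝ) := by exact_mod_cast hw2
    push_cast at hw2R
    refine le_min hw2R ((le_div_iff₀ hm1).2 ?_)
    have h1 : (p.wc : ℝ) * (1 - (ma : ℝ) ^ 2) ≤ (p.dd : ℝ) ^ 2 := by exact_mod_cast hwD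
    have h2 : (ma : ℝ) ^ 2 ≤ m ^ 2 := pow_le_pow_left₀ hma0R.le hma 2
    have h3 : (p.dd : ℝ) ^ 2 ≤ d ^ 2 := pow_le_pow_left₀ hdR hd.le 2
    nlinarith
  refine le_trans ?_ (le_max_left _ _)
  refine le_trans ?_ (meanBound_ge hm0 hd0 hmd hH')
  have hx0 : 0 ≤ (ent (m + d) + ent (m - d)) / 2 - H := sub_nonneg.2 hH'
  have k1 := mul_le_mul_of_nonneg_right hwmin hx0
  have k2 := mul_le_mul_of_nonneg_left hx hw0R
  linarith

lemma okPieces_sound {E K P d1 : ℚ} (hK : 0 ≤ K) :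
    ∀ (L : List Piece) (ma : ℚ), okPieces E K P d1 ma L = true →
      ∀ m d H : ℝ, (ma : ℝ) ≤ m → 0 ≤ d → m + d < 1 → d ≤ (d1 : ℝ) → 0 < H →
      H ≤ (E : ℝ) - phi m → H ≤ (ent (m + d) + ent (m - d)) / 2 →
      (P : ℝ) - gapPhi m d ≤ (ent (m + d) + ent (m - d)) / 2 - H → Good K m d H := by
  intro L
  induction L with
  | nil =>
    intro ma h m d H hma hd hmd _ hH hHE _ _
    simp only [okPieces, decide_eq_true_eq] at h
    have h0 : (0 : ℝ) ≤ (ma : ℝ) := by exact_mod_cast h.1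
    have h1 : (E : ℝ) ≤ (Num.phiLo ma : ℝ) := by exact_mod_cast h.2.2
    have h2 := Num.phiLo_le (s := ma) (by linarith [h.1]) h.2.1
    have h3 : phi (ma : ℝ) ≤ phi m := by
      rcases hma.lt_or_eq with hlt | heq
      · have := ent_strictAntiOn ⟨h0, by exact_mod_cast h.2.1.le⟩
          ⟨h0.trans hma, by linarith⟩ hlt
        simp only [ent] at this
        linarith
      · rw [heq]
    linarith
  | cons p r ih =>
    intro ma h m d H hma hd hmd hd1 hH hHE hH' hx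
    simp only [okPieces, Bool.and_eq_true] at h
    rcases le_or_gt m (p.mb : ℝ) with hmb | hmb
    · have hp := h.1
      simp only [okPiece, Bool.and_eq_true] at hp
      obtain ⟨hbase, hmode⟩ := hp
      split_ifs at hmode with e0 e1
      · exact okFix_sound hbase hmode hK hma hmb hd hd1 hH hHE
      · exact okEdge_sound hbase hmode hK hma hmb hd hmd hH hHE
      · rw [Bool.and_eq_true] at hmode
        rcases le_or_gt d (p.dd : ℝ) with hdd | hdd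
        · exact okFix_sound hbase hmode.1 hK hma hmb hd hdd hH hHE
        · have h0 := hmode.1
          simp only [okFix, decide_eq_true_eq] at h0
          exact okTop_sound hmode.2 h0.1.le hma hdd hd1 hmd hH' hx
    · exact ih p.mb h.2 m d H hmb.le hd hmd hd1 hH hHE hH' hx

/-- soundness of the check of one interval of `s` -/
theorem okSlice_sound {s0 s1 d1 : ℚ} {L : List Piece} (h : okSlice s0 s1 d1 L = true)
    {m d s : ℝ} (hm : 0 ≤ m) (hd : 0 ≤ d) (hmd : m + d < 1) (hs0 : (s0 : ℝ) ≤ s)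
    (hs1 : s ≤ (s1 : ℝ)) (hd1 : d ≤ (d1 : ℝ)) (hH : 0 < ent s - phi m)
    (hg : gapPhi m d ≤ phi s) : ScalarCase gOne m d (ent s - phi m) := by
  simp only [okSlice, Bool.and_eq_true, decide_eq_true_eq] at h
  obtain ⟨⟨h0, h01, h1, hat⟩, hp⟩ := h
  have hs0R : (0 : ℝ) < (s0 : ℝ) := by exact_mod_cast h0
  have hs1R : (s1 : ℝ) < 1 := by exact_mod_cast h1
  have hs : s ∈ Ico (0 : ℝ) 1 := ⟨by linarith, by linarith⟩
  have hkap : kap s ≤ (Num.kapHi s1 : ℝ) :=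
    (kap_monotoneOn hs ⟨by linarith, hs1R⟩ hs1).trans (Num.le_kapHi (h0.trans_le h01) h1 hat)
  have hkap0 : 0 ≤ kap s := le_trans zero_le_two (two_le_kap hs.1 hs.2)
  have hK : (0 : ℚ) ≤ Num.kapHi s1 := by exact_mod_cast hkap0.trans hkap
  have hent : ent s ≤ ent (s0 : ℝ) :=
    ent_strictAntiOn.antitoneOn ⟨hs0R.le, by linarith⟩ ⟨hs.1, hs.2.le⟩ hs0
  have hE : ent s - phi m ≤ (Num.entHi s0 : ℝ) - phi m := by
    have := Num.le_entHi (s := s0) (by linarith) (lt_of_le_of_lt h01 h1)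
    linarith
  have hbar : (ent (m + d) + ent (m - d)) / 2 - (ent s - phi m) = phi s - gapPhi m d := by
    simp only [ent, gapPhi]; ring
  have hH' : ent s - phi m ≤ (ent (m + d) + ent (m - d)) / 2 := by linarith
  have hP : (Num.phiLo s0 : ℝ) ≤ phi s := by
    have := Num.phiLo_le (s := s0) (by linarith) (lt_of_le_of_lt h01 h1)
    simp only [ent] at hent
    linarith
  have hgood := okPieces_sound hK L 0 hp m d (ent s - phi m) (by exact_mod_cast hm) hd hmd hd1 hH hE hH'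
    (by rw [hbar]; linarith)
  have hgap := gapPhi_nonneg hm hd hmd
  have hcur : curve (ent s - phi m + (phi (m + d) + phi (m - d)) / 2)
      ≤ avgBound (m + d) (m - d) (ent s - phi m) := le_max_left _ _
  have htan := curve_tangent (H := ent s + gapPhi m d)
    (by linarith [ent_pos (show -1 < s by linarith [hs.1]) hs.2]) hs
  have e : ent s - phi m + (phi (m + d) + phi (m - d)) / 2 = ent s + gapPhi m d := by
    simp only [gapPhi]; ring
  rw [e] at hcur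
  unfold ScalarCase gOne
  rw [sub_add_cancel, curve_ent hs.1 hs.2]
  have := mul_le_mul_of_nonneg_right hkap hgap
  unfold Good at hgood
  linarith

/-- pieces for `s` in `[0.55, 0.593]` -/
def pieces0 : List Piece := [
  ⟨0, (1/10 : ℚ), (1/20 : ℚ), (9/40 : ℚ), 0, 0, []⟩,
  ⟨0, (99/500 : ℚ), (149/1000 : ℚ), (47/200 : ℚ), 0, 0, []⟩,
  ⟨0, (73/250 : ℚ), (49/200 : ℚ), (49/200 : ℚ), 0, 0, []⟩,
  ⟨0, (19/50 : ℚ), (42/125 : ℚ), (13/50 : ℚ), 0, 0, []⟩,
  ⟨0, (231/500 : ℚ), (421/1000 : ℚ), (11/40 : ℚ), 0, 0, []⟩,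
  ⟨0, (67/125 : ℚ), (499/1000 : ℚ), (3/10 : ℚ), 0, 0, []⟩,
  ⟨0, (299/500 : ℚ), (567/1000 : ℚ), (33/100 : ℚ), 0, 0, []⟩,
  ⟨0, (81/125 : ℚ), (623/1000 : ℚ), (9/25 : ℚ), 0, 0, []⟩,
  ⟨0, (171/250 : ℚ), (333/500 : ℚ), (79/200 : ℚ), 0, 0, []⟩,
  ⟨0, (353/500 : ℚ), (139/200 : ℚ), (21/50 : ℚ), 0, 0, []⟩,
  ⟨2, (737/1000 : ℚ), (721/1000 : ℚ), (87/200 : ℚ), (17/100 : ℚ), (36/625 : ℚ), [(1709/10000 : ℚ), (1717/10000 : ℚ), (69/400 : ℚ), (1733/10000 : ℚ), (87/500 : ℚ), (1747/10000 : ℚ), (1753/10000 : ℚ), (1759/10000 : ℚ), (353/2000 : ℚ), (1771/10000 : ℚ), (111/625 : ℚ), (1781/10000 : ℚ), (893/5000 : ℚ), (1791/10000 : ℚ), (449/2500 : ℚ), (9/50 : ℚ)]⟩,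
  ⟨2, (773/1000 : ℚ), (151/200 : ℚ), (23/50 : ℚ), (4/25 : ℚ), (7/125 : ℚ), [(807/5000 : ℚ), (407/2500 : ℚ), (1641/10000 : ℚ), (827/5000 : ℚ), (833/5000 : ℚ), (839/5000 : ℚ), (169/1000 : ℚ), (851/5000 : ℚ), (857/5000 : ℚ), (863/5000 : ℚ), (1737/10000 : ℚ), (437/2500 : ℚ), (1759/10000 : ℚ), (1771/10000 : ℚ), (1783/10000 : ℚ), (359/2000 : ℚ), (9/50 : ℚ)]⟩,
  ⟨2, (33/40 : ℚ), (799/1000 : ℚ), (97/200 : ℚ), (7/50 : ℚ), (243/5000 : ℚ), [(177/1250 : ℚ), (179/1250 : ℚ), (1447/10000 : ℚ), (731/5000 : ℚ), (1477/10000 : ℚ), (373/2500 : ℚ), (1507/10000 : ℚ), (761/5000 : ℚ), (1537/10000 : ℚ), (97/625 : ℚ), (1567/10000 : ℚ), (1583/10000 : ℚ), (1599/10000 : ℚ), (101/625 : ℚ), (817/5000 : ℚ), (1653/10000 : ℚ), (1673/10000 : ℚ), (339/2000 : ℚ), (1719/10000 : ℚ), (349/2000 : ℚ), (887/5000 : ℚ), (9/50 : ℚ)]⟩,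
  ⟨2, (111/125 : ℚ), (107/125 : ℚ), (14/25 : ℚ), (11/100 : ℚ), (189/5000 : ℚ), [(1117/10000 : ℚ), (567/5000 : ℚ), (1151/10000 : ℚ), (73/625 : ℚ), (237/2000 : ℚ), (601/5000 : ℚ), (1219/10000 : ℚ), (1237/10000 : ℚ), (157/1250 : ℚ), (319/2500 : ℚ), (1297/10000 : ℚ), (33/250 : ℚ), (269/2000 : ℚ), (1373/10000 : ℚ), (281/2000 : ℚ), (1443/10000 : ℚ), (93/625 : ℚ), (309/2000 : ℚ), (81/500 : ℚ), (431/2500 : ℚ), (7/40 : ℚ)]⟩,
  ⟨1, (37/40 : ℚ), (453/500 : ℚ), (3/4 : ℚ), 0, 0, []⟩]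

/-- pieces for `s` in `[0.593, 0.654]` -/
def pieces1 : List Piece := [
  ⟨0, (51/500 : ℚ), (51/1000 : ℚ), (6/25 : ℚ), 0, 0, []⟩,
  ⟨0, (101/500 : ℚ), (19/125 : ℚ), (49/200 : ℚ), 0, 0, []⟩,
  ⟨0, (3/10 : ℚ), (251/1000 : ℚ), (51/200 : ℚ), 0, 0, []⟩,
  ⟨0, (197/500 : ℚ), (347/1000 : ℚ), (27/100 : ℚ), 0, 0, []⟩,
  ⟨0, (121/250 : ℚ), (439/1000 : ℚ), (29/100 : ℚ), 0, 0, []⟩,
  ⟨0, (57/100 : ℚ), (527/1000 : ℚ), (8/25 : ℚ), 0, 0, []⟩,
  ⟨0, (13/20 : ℚ), (61/100 : ℚ), (73/200 : ℚ), 0, 0, []⟩,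
  ⟨0, (361/500 : ℚ), (343/500 : ℚ), (87/200 : ℚ), 0, 0, []⟩,
  ⟨0, (777/1000 : ℚ), (749/1000 : ℚ), (27/50 : ℚ), 0, 0, []⟩,
  ⟨0, (799/1000 : ℚ), (197/250 : ℚ), (5/8 : ℚ), 0, 0, []⟩,
  ⟨2, (859/1000 : ℚ), (829/1000 : ℚ), (127/200 : ℚ), (7/50 : ℚ), (271/5000 : ℚ), [(1411/10000 : ℚ), (711/5000 : ℚ), (1433/10000 : ℚ), (361/2500 : ℚ), (91/625 : ℚ), (367/2500 : ℚ), (37/250 : ℚ), (1493/10000 : ℚ), (753/5000 : ℚ), (19/125 : ℚ), (307/2000 : ℚ), (1551/10000 : ℚ), (98/625 : ℚ), (1587/10000 : ℚ), (201/1250 : ℚ), (1631/10000 : ℚ), (829/5000 : ℚ), (169/1000 : ℚ), (108/625 : ℚ), (111/625 : ℚ), (9/50 : ℚ)]⟩,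
  ⟨1, (227/250 : ℚ), (883/1000 : ℚ), (19/25 : ℚ), 0, 0, []⟩]

/-- pieces for `s` in `[0.654, 0.74]` -/
def pieces2 : List Piece := [
  ⟨0, (1/10 : ℚ), (1/20 : ℚ), (31/100 : ℚ), 0, 0, []⟩,
  ⟨0, (1/5 : ℚ), (3/20 : ℚ), (63/200 : ℚ), 0, 0, []⟩,
  ⟨0, (149/500 : ℚ), (249/1000 : ℚ), (13/40 : ℚ), 0, 0, []⟩,
  ⟨0, (393/1000 : ℚ), (69/200 : ℚ), (7/20 : ℚ), 0, 0, []⟩,
  ⟨0, (97/200 : ℚ), (439/1000 : ℚ), (3/8 : ℚ), 0, 0, []⟩,
  ⟨0, (287/500 : ℚ), (529/1000 : ℚ), (21/50 : ℚ), 0, 0, []⟩,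
  ⟨0, (659/1000 : ℚ), (77/125 : ℚ), (97/200 : ℚ), 0, 0, []⟩,
  ⟨0, (729/1000 : ℚ), (347/500 : ℚ), (59/100 : ℚ), 0, 0, []⟩,
  ⟨0, (759/1000 : ℚ), (93/125 : ℚ), (139/200 : ℚ), 0, 0, []⟩,
  ⟨2, (99/125 : ℚ), (31/40 : ℚ), (151/200 : ℚ), (41/200 : ℚ), (991/10000 : ℚ), [(2059/10000 : ℚ), (207/1000 : ℚ), (2083/10000 : ℚ), (1049/5000 : ℚ), (529/2500 : ℚ), (2139/10000 : ℚ), (271/1250 : ℚ), (11/50 : ℚ)]⟩,
  ⟨2, (103/125 : ℚ), (101/125 : ℚ), (19/25 : ℚ), (7/40 : ℚ), (821/10000 : ℚ), [(879/5000 : ℚ), (221/1250 : ℚ), (1779/10000 : ℚ), (112/625 : ℚ), (113/625 : ℚ), (1827/10000 : ℚ), (1851/10000 : ℚ), (941/5000 : ℚ), (481/2500 : ℚ), (124/625 : ℚ), (1037/5000 : ℚ), (26/125 : ℚ)]⟩,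
  ⟨1, (219/250 : ℚ), (17/20 : ℚ), (163/200 : ℚ), 0, 0, []⟩]

/-- pieces for `s` in `[0.74, 0.793]` -/
def pieces3 : List Piece := [
  ⟨0, (163/1000 : ℚ), (81/1000 : ℚ), (23/50 : ℚ), 0, 0, []⟩,
  ⟨0, (81/250 : ℚ), (243/1000 : ℚ), (19/40 : ℚ), 0, 0, []⟩,
  ⟨0, (481/1000 : ℚ), (201/500 : ℚ), (53/100 : ℚ), 0, 0, []⟩,
  ⟨0, (619/1000 : ℚ), (11/20 : ℚ), (127/200 : ℚ), 0, 0, []⟩,
  ⟨0, (86/125 : ℚ), (653/1000 : ℚ), (157/200 : ℚ), 0, 0, []⟩,
  ⟨2, (357/500 : ℚ), (701/1000 : ℚ), (33/40 : ℚ), (57/200 : ℚ), (771/5000 : ℚ), [(2859/10000 : ℚ), (2871/10000 : ℚ), (361/1250 : ℚ), (182/625 : ℚ), (737/2500 : ℚ), (3/10 : ℚ)]⟩,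
  ⟨1, (763/1000 : ℚ), (369/500 : ℚ), (41/50 : ℚ), 0, 0, []⟩,
  ⟨1, (817/1000 : ℚ), (79/100 : ℚ), (177/200 : ℚ), 0, 0, []⟩]

/-- pieces for `s` in `[0.793, 0.858]` -/
def pieces4 : List Piece := [
  ⟨0, (21/200 : ℚ), (13/250 : ℚ), (101/200 : ℚ), 0, 0, []⟩,
  ⟨0, (53/250 : ℚ), (79/500 : ℚ), (51/100 : ℚ), 0, 0, []⟩,
  ⟨0, (13/40 : ℚ), (67/250 : ℚ), (21/40 : ℚ), 0, 0, []⟩,
  ⟨0, (9/20 : ℚ), (387/1000 : ℚ), (14/25 : ℚ), 0, 0, []⟩,
  ⟨0, (593/1000 : ℚ), (521/1000 : ℚ), (13/20 : ℚ), 0, 0, []⟩,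
  ⟨0, (699/1000 : ℚ), (323/500 : ℚ), (83/100 : ℚ), 0, 0, []⟩,
  ⟨1, (767/1000 : ℚ), (733/1000 : ℚ), (181/200 : ℚ), 0, 0, []⟩]

/-- pieces for `s` in `[0.858, 0.91]` -/
def pieces5 : List Piece := [
  ⟨0, (9/500 : ℚ), (9/1000 : ℚ), (59/100 : ℚ), 0, 0, []⟩,
  ⟨0, (37/1000 : ℚ), (27/1000 : ℚ), (59/100 : ℚ), 0, 0, []⟩,
  ⟨0, (3/50 : ℚ), (6/125 : ℚ), (119/200 : ℚ), 0, 0, []⟩,
  ⟨0, (89/1000 : ℚ), (37/500 : ℚ), (119/200 : ℚ), 0, 0, []⟩,
  ⟨0, (63/500 : ℚ), (107/1000 : ℚ), (119/200 : ℚ), 0, 0, []⟩,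
  ⟨0, (173/1000 : ℚ), (149/1000 : ℚ), (3/5 : ℚ), 0, 0, []⟩,
  ⟨0, (59/250 : ℚ), (51/250 : ℚ), (61/100 : ℚ), 0, 0, []⟩,
  ⟨0, (323/1000 : ℚ), (279/1000 : ℚ), (63/100 : ℚ), 0, 0, []⟩,
  ⟨0, (221/500 : ℚ), (191/500 : ℚ), (133/200 : ℚ), 0, 0, []⟩,
  ⟨0, (611/1000 : ℚ), (263/500 : ℚ), (147/200 : ℚ), 0, 0, []⟩,
  ⟨0, (171/250 : ℚ), (647/1000 : ℚ), (183/200 : ℚ), 0, 0, []⟩]

lemma check0 : okSlice (55 / 100) (593 / 1000) (18 / 100) pieces0 = true := by decide +kernel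
lemma check1 : okSlice (593 / 1000) (654 / 1000) (18 / 100) pieces1 = true := by decide +kernel
lemma check2 : okSlice (654 / 1000) (74 / 100) (22 / 100) pieces2 = true := by decide +kernel
lemma check3 : okSlice (74 / 100) (793 / 1000) (30 / 100) pieces3 = true := by decide +kernel
lemma check4 : okSlice (793 / 1000) (858 / 1000) (30 / 100) pieces4 = true := by decide +kernel
lemma check5 : okSlice (858 / 1000) (91 / 100) (30 / 100) pieces5 = true := by decide +kernel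

end Slice

open Slice in
/-- the first hypothesis on the slice `d ≤ d₁ s` -/
theorem scalar_one_slice {m d s : ℝ} (hm : 0 ≤ m) (hd : 0 ≤ d) (hmd : m + d < 1) (hs : 0 ≤ s)
    (hs' : s < 91 / 100) (hphi : 4 / 25 < phi s) (hH : 0 < ent s - phi m)
    (hg : gapPhi m d ≤ phi s)
    (hdd : d ≤ 18 / 100 ∨ (654 / 1000 ≤ s ∧ d ≤ 22 / 100) ∨ (74 / 100 ≤ s ∧ d ≤ 30 / 100)) :
    ScalarCase gOne m d (ent s - phi m) := by
  have h55 : (55 / 100 : ℝ) ≤ s := by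
    by_contra hc
    have h1 : phi s ≤ phi (55 / 100 : ℝ) := by
      have := ent_strictAntiOn.antitoneOn ⟨hs, by linarith⟩ (by norm_num) (not_le.1 hc).le
      simp only [ent] at this
      linarith
    have h2 := Num.le_phiHi (s := (55 / 100 : ℚ)) (by norm_num) (by norm_num)
    have h3 : (Num.phiHi (55 / 100) : ℝ) ≤ 4 / 25 := by
      have : Num.phiHi (55 / 100) ≤ 4 / 25 := by decide +kernel
      have h4 : ((Num.phiHi (55 / 100) : ℚ) : ℝ) ≤ ((4 / 25 : ℚ) : ℝ) := by exact_mod_cast this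
      push_cast at h4
      exact h4
    push_cast at h2
    linarith
  rcases le_or_gt (74 / 100) s with a | a
  · have hd3 : d ≤ 30 / 100 := by rcases hdd with h | ⟨-, h⟩ | ⟨-, h⟩ <;> linarith
    rcases le_or_gt s (793 / 1000) with b | b
    · exact okSlice_sound check3 hm hd hmd (by push_cast; linarith) (by push_cast; linarith)
        (by push_cast; linarith) hH hg
    rcases le_or_gt s (858 / 1000) with c | c
    · exact okSlice_sound check4 hm hd hmd (by push_cast; linarith) (by push_cast; linarith)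
        (by push_cast; linarith) hH hg
    · exact okSlice_sound check5 hm hd hmd (by push_cast; linarith) (by push_cast; linarith)
        (by push_cast; linarith) hH hg
  rcases le_or_gt (654 / 1000) s with b | b
  · have hd2 : d ≤ 22 / 100 := by rcases hdd with h | ⟨-, h⟩ | ⟨h', -⟩ <;> linarith
    exact okSlice_sound check2 hm hd hmd (by push_cast; linarith) (by push_cast; linarith)
      (by push_cast; linarith) hH hg
  have hd1 : d ≤ 18 / 100 := by rcases hdd with h | ⟨h', -⟩ | ⟨h', -⟩ <;> linarith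
  rcases le_or_gt s (593 / 1000) with c | c
  · exact okSlice_sound check0 hm hd hmd (by push_cast; linarith) (by push_cast; linarith)
      (by push_cast; linarith) hH hg
  · exact okSlice_sound check1 hm hd hmd (by push_cast; linarith) (by push_cast; linarith)
      (by push_cast; linarith) hH hg

end Vale.Agent.P322
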