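import Vale.Agent.P322.Scalar.Defs
import Vale.Agent.P322.Scalar.Switch

/-!
The scalar inequality for the second hypothesis when the half difference `d` is small (table `smallTwoTable`, and `d ≤ 2 / 5` throughout).
-/

namespace Vale.Agent.P322

open Real Set

/-- `artanh r * ent r / r` is nonincreasing on `(0,1)`. -/
lemma artanh_mul_rat_antitoneOn :
    AntitoneOn (fun r => artanh r * (ent r / r)) (Ioo 0 1) := by
  have hd : ∀ r ∈ Ioo (0 : ℝ) 1, HasDerivAt (fun r => artanh r * (ent r / r))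
      (1 / (1 - r ^ 2) * (ent r / r) + artanh r * ((-artanh r * r - ent r * 1) / r ^ 2)) r := by
    intro r hr
    have h1 : -1 < r := by linarith [hr.1]
    exact (hasDerivAt_artanh' h1 hr.2).mul
      ((hasDerivAt_ent h1 hr.2).div (hasDerivAt_id r) hr.1.ne')
  apply antitoneOn_of_hasDerivWithinAt_nonpos (convex_Ioo 0 1)
    (fun r hr => (hd r hr).continuousAt.continuousWithinAt)
    (fun r hr => (hd r (interior_subset hr)).hasDerivWithinAt)
  intro r hr
  rw [interior_Ioo] at hr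
  obtain ⟨h0, h1⟩ := hr
  have hq := one_sub_sq_pos (show -1 < r by linarith) h1
  have hA := le_artanh h0.le h1
  have hN := nfun_eq (show -1 < r by linarith) h1
  set δ := log (2 / (1 + r)) with hδ
  have hδ1 : δ ≤ (1 - r) / (1 + r) := by
    refine (log_le_sub_one_of_pos (by positivity)).trans (le_of_eq ?_)
    field_simp
    ring
  have hNA : nfun r = artanh r + δ := by
    rw [nfun, hδ, artanh_eq (by linarith) h1, log_div two_ne_zero (by linarith),
      show (1 : ℝ) - r ^ 2 = (1 + r) * (1 - r) by ring, log_mul (by linarith) (by linarith)]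
    ring
  set A := artanh r
  have he : ent r = A + δ - r * A := by linarith
  have hb : 0 < (1 + r) * A + 1 - 2 * r := by nlinarith
  -- the key inequality `r * ent r ≤ (1 - r ^ 2) * A * nfun r`
  have hC : (1 - r ^ 2) * A ≤ r := artanh_mul_one_sub_sq_le h0.le h1
  have hδ2 : δ * (1 + r) ≤ 1 - r := (le_div_iff₀ (by linarith)).1 hδ1
  have hE : 0 ≤ A * ((1 + r) * A + 1 - 2 * r) * (1 + r) - r := by
    have t1 : r * (1 - r + r ^ 2) ≤ A * ((1 + r) * A + 1 - 2 * r) :=
      mul_le_mul hA (by nlinarith) (by nlinarith) (h0.le.trans hA)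
    nlinarith [mul_le_mul_of_nonneg_right t1 (show (0 : ℝ) ≤ 1 + r by linarith), pow_nonneg h0.le 4]
  have key : r * ent r ≤ (1 - r ^ 2) * A * (A + δ) := by
    have : (1 + r) * (r * ent r - (1 - r ^ 2) * A * (A + δ)) ≤ 0 := by
      rw [he]
      nlinarith [mul_le_mul_of_nonneg_left hδ2 (sub_nonneg.2 hC),
        mul_nonneg (show (0 : ℝ) ≤ 1 - r by linarith) hE]
    nlinarith
  have : 1 / (1 - r ^ 2) * (ent r / r) + A * ((-A * r - ent r * 1) / r ^ 2) =
      (r * ent r - (1 - r ^ 2) * A * (A + δ)) / ((1 - r ^ 2) * r ^ 2) := by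
    rw [he]
    field_simp
    ring
  rw [this]
  exact div_nonpos_of_nonpos_of_nonneg (by linarith) (by positivity)

lemma pairBound_nonneg {d H : ℝ} (hd : 0 ≤ d) (hH : 0 < H) : 0 ≤ pairBound d H := by
  rcases hd.lt_or_eq with h | h
  · rw [pairBound_of_pos h]
    exact mul_nonneg hd (artanh_nonneg (ratInv_mem (div_pos hH h)).1.le)
  · subst h; rw [pairBound_zero]

lemma gbar_pos {m d : ℝ} (hm : 0 ≤ m) (hd : 0 ≤ d) (hmd : m + d < 1) :
    0 < 1 - m ^ 2 - d ^ 2 := by nlinarith

/-- the second term of `avgBound`, in `(m, d)` coordinates -/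
lemma curve_le_avgBound (m d H : ℝ) :
    (1 - m ^ 2 - d ^ 2) * curve (H / (1 - m ^ 2 - d ^ 2)) ≤ avgBound (m + d) (m - d) H := by
  refine le_trans (le_of_eq ?_) (le_max_right _ _)
  rw [show ((1 - (m + d) ^ 2) + (1 - (m - d) ^ 2)) / 2 = 1 - m ^ 2 - d ^ 2 by ring]

/-- The perspective of `curve` is convex: the increment over `d ^ 2` is largest at `m = 0`. -/
theorem gTwo_sub_avg_le {m d H : ℝ} (hm : 0 ≤ m) (hd : 0 ≤ d) (hmd : m + d < 1) (hH : 0 < H) :
    gTwo m H - (1 - m ^ 2 - d ^ 2) * curve (H / (1 - m ^ 2 - d ^ 2)) ≤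
      curve H - (1 - d ^ 2) * curve (H / (1 - d ^ 2)) := by
  rcases eq_or_lt_of_le (add_nonneg (sq_nonneg m) (sq_nonneg d)) with h0 | h0
  · obtain rfl : m = 0 := by nlinarith
    simp [gTwo]
  set g := 1 - m ^ 2 - d ^ 2 with hgdef
  have hg : 0 < g := gbar_pos hm hd hmd
  have he : 0 < 1 - m ^ 2 := by nlinarith
  have hD : 0 < 1 - d ^ 2 := by nlinarith
  set a := m ^ 2 / (m ^ 2 + d ^ 2) with ha
  set b := d ^ 2 / (m ^ 2 + d ^ 2) with hb
  have hab : a + b = 1 := by rw [ha, hb, ← add_div, div_self h0.ne']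
  have ha0 : 0 ≤ a := div_nonneg (sq_nonneg m) h0.le
  have hb0 : 0 ≤ b := div_nonneg (sq_nonneg d) h0.le
  have e1 : 1 - m ^ 2 = a * g + b * 1 := by rw [ha, hb, hgdef]; field_simp; ring
  have e2 : 1 - d ^ 2 = b * g + a * 1 := by rw [ha, hb, hgdef]; field_simp; ring
  have conv : ∀ x y : ℝ, 0 ≤ x → 0 ≤ y → x + y = 1 → 0 < x * g + y * 1 →
      (x * g + y * 1) * curve (H / (x * g + y * 1)) ≤ x * (g * curve (H / g)) + y * curve H := by
    intro x y hx hy hxy hz
    have h1 : x * g / (x * g + y * 1) + y * 1 / (x * g + y * 1) = 1 := by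
      rw [← add_div, div_self hz.ne']
    have h := curve_convexOn.2 (div_pos hH hg : H / g ∈ Ioi 0) (show H ∈ Ioi 0 from hH)
      (div_nonneg (mul_nonneg hx hg.le) hz.le) (div_nonneg (by linarith) hz.le) h1
    simp only [smul_eq_mul] at h
    set Z := x * g + y * 1
    have e3 : x * g / Z * (H / g) + y * 1 / Z * H = H / Z := by
      have : x * g / Z * (H / g) + y * 1 / Z * H = (x + y) * H / Z := by
        field_simp
      rw [this, hxy, one_mul]
    rw [e3] at h
    refine (mul_le_mul_of_nonneg_left h hz.le).trans (le_of_eq ?_)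
    field_simp
  have h1 := conv a b ha0 hb0 hab (e1 ▸ he)
  have h2 := conv b a hb0 ha0 (by linarith) (e2 ▸ hD)
  rw [← e1] at h1
  rw [← e2] at h2
  unfold gTwo
  have h3 : (a + b) * (g * curve (H / g)) + (a + b) * curve H = g * curve (H / g) + curve H := by
    rw [hab]; ring
  linarith

/-- The increment over `d ^ 2` is at most `d ^ 2` times the tangent intercept at `entInv H`. -/
theorem gTwo_sub_avg_le_theta {m d H σ : ℝ} (hm : 0 ≤ m) (hd : 0 ≤ d) (hmd : m + d < 1)
    (hH : 0 < H) (hσ : σ ∈ Ico (0 : ℝ) 1) (hσH : ent σ = H) :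
    gTwo m H - (1 - m ^ 2 - d ^ 2) * curve (H / (1 - m ^ 2 - d ^ 2)) ≤
      d ^ 2 * (σ * artanh σ + kap σ * ent σ) := by
  refine (gTwo_sub_avg_le hm hd hmd hH).trans ?_
  have hD : 0 < 1 - d ^ 2 := by nlinarith
  have ht := mul_le_mul_of_nonneg_left (curve_tangent (div_pos hH hD) hσ) hD.le
  rw [mul_sub, show (1 - d ^ 2) * (kap σ * (H / (1 - d ^ 2) - ent σ)) =
    kap σ * H - (1 - d ^ 2) * (kap σ * ent σ) by field_simp] at ht
  rw [show curve H = σ * artanh σ from hσH ▸ curve_ent hσ.1 hσ.2, ← hσH] at *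
  nlinarith

/-- A lower bound for `pairBound` which is quadratic in `d`. -/
theorem pair_ge_sq {d dT H Th r : ℝ} (hd : 0 ≤ d) (hdT : d ≤ dT) (hH : 0 < H) (hTh : 0 < Th)
    (hr : r ∈ Ico (0 : ℝ) 1) (hA : dT * Th ≤ artanh r) (he : Th * H ≤ ent r) :
    d ^ 2 * Th ≤ pairBound d H := by
  rcases hd.lt_or_eq with hdp | hd0
  · rw [pairBound_of_pos hdp]
    set p := ratInv (H / d)
    have hp : p ∈ Ioo (0 : ℝ) 1 := ratInv_mem (div_pos hH hdp)
    have e : ent p / p = H / d := rat_ratInv (div_pos hH hdp)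
    rw [div_eq_div_iff hp.1.ne' hdp.ne'] at e
    suffices d * Th ≤ artanh p by nlinarith [mul_le_mul_of_nonneg_left this hdp.le]
    by_contra hc
    rw [not_le] at hc
    have h1 : d * Th ≤ dT * Th := mul_le_mul_of_nonneg_right hdT hTh.le
    have hpr : p ≤ r := by
      by_contra hh
      have := artanh_le_artanh (show (-1 : ℝ) < r by linarith [hr.1]) hp.2 (not_le.1 hh).le
      linarith
    have h2 : ent r ≤ ent p :=
      ent_strictAntiOn.antitoneOn ⟨hp.1.le, hp.2.le⟩ ⟨hr.1, hr.2.le⟩ hpr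
    have h3 := le_artanh hp.1.le hp.2
    have h4 : d * Th * H ≤ p * H := by
      nlinarith [mul_le_mul_of_nonneg_left (he.trans h2) hdp.le]
    have h5 : d * Th ≤ p := le_of_mul_le_mul_right h4 hH
    linarith
  · subst hd0
    simp [pairBound_zero]

/-- A sharper quadratic lower bound, from the monotonicity of `artanh r * ent r / r`. -/
theorem pair_ge_sq' {d dT H Th r : ℝ} (hd : 0 ≤ d) (hdT : d ≤ dT) (hH : 0 < H) (hTh : 0 ≤ Th)
    (hr : r ∈ Ioo (0 : ℝ) 1) (hA : dT * Th ≤ artanh r) (he : r * H ≤ dT * ent r) :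
    d ^ 2 * Th ≤ pairBound d H := by
  rcases hd.lt_or_eq with hdp | hd0
  · have hdT0 : 0 < dT := hdp.trans_le hdT
    set p := ratInv (H / d)
    set p₀ := ratInv (H / dT)
    have hp : p ∈ Ioo (0 : ℝ) 1 := ratInv_mem (div_pos hH hdp)
    have hp₀ : p₀ ∈ Ioo (0 : ℝ) 1 := ratInv_mem (div_pos hH hdT0)
    have e : ent p / p = H / d := rat_ratInv (div_pos hH hdp)
    have e₀ : ent p₀ / p₀ = H / dT := rat_ratInv (div_pos hH hdT0)
    have hpp : p ≤ p₀ := by
      refine (rat_strictAntiOn.le_iff_ge hp₀ hp).1 ?_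
      simp only [e, e₀]
      exact div_le_div_of_nonneg_left hH.le hdp hdT
    have hrp : r ≤ p₀ := by
      refine (rat_strictAntiOn.le_iff_ge hp₀ hr).1 ?_
      simp only [e₀]
      rw [div_le_div_iff₀ hdT0 hr.1]
      linarith
    have h1 := artanh_mul_rat_antitoneOn hp hp₀ hpp
    simp only [e, e₀] at h1
    have h2 := artanh_le_artanh (show (-1 : ℝ) < r by linarith [hr.1]) hp₀.2 hrp
    rw [mul_div_assoc', mul_div_assoc', div_le_div_iff₀ hdT0 hdp] at h1
    have h3 : artanh p₀ * d ≤ artanh p * dT := by nlinarith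
    have h4 : d * Th ≤ artanh p := by
      refine le_of_mul_le_mul_right ?_ hdT0
      nlinarith [mul_le_mul_of_nonneg_left (hA.trans h2) hdp.le]
    rw [pairBound_of_pos hdp]
    nlinarith [mul_le_mul_of_nonneg_left h4 hdp.le]
  · subst hd0
    simp [pairBound_zero]

/-- the second hypothesis from a parameter of `pairBound` -/
theorem scalarCase_gTwo_of_param {m d dT H σ Th r : ℝ} (hm : 0 ≤ m) (hd : 0 ≤ d) (hdT : d ≤ dT)
    (hmd : m + d < 1) (hσ : σ ∈ Ico (0 : ℝ) 1) (hσH : ent σ = H)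
    (hTh : σ * artanh σ + kap σ * ent σ ≤ Th)
    (hr : r ∈ Ioo (0 : ℝ) 1) (hA : dT * Th ≤ artanh r) (he : r * H ≤ dT * ent r) :
    ScalarCase gTwo m d H := by
  have hH : 0 < H := hσH ▸ ent_pos (by linarith [hσ.1]) hσ.2
  have h0 : 0 ≤ σ * artanh σ + kap σ * ent σ := by
    have := two_le_kap hσ.1 hσ.2
    have := ent_pos (show -1 < σ by linarith [hσ.1]) hσ.2
    have := mul_nonneg hσ.1 (artanh_nonneg hσ.1)
    nlinarith
  have h1 := gTwo_sub_avg_le_theta hm hd hmd hH hσ hσH
  have h2 := mul_le_mul_of_nonneg_left hTh (sq_nonneg d)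
  have h3 := pair_ge_sq' hd hdT hH (h0.trans hTh) hr hA he
  have h4 := curve_le_avgBound m d H
  have h5 : pairBound d H ≤ max (meanBound (m + d) (m - d) H) (pairBound d H) := le_max_right _ _
  show gTwo m H ≤ _
  linarith

/-- rows `(s₀, s₁, dT, r)`: on `[s₀, s₁]` the parameter `r` works for all `d ≤ dT` -/
def smallTwoTable : List (ℚ × ℚ × ℚ × ℚ) := [
    (17 / 20, 85900 / 100000, 412 / 1000, 679578 / 1000000),
    (85900 / 100000, 86798 / 100000, 430 / 1000, 704844 / 1000000),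
    (86798 / 100000, 88394 / 100000, 433 / 1000, 719949 / 1000000),
    (88394 / 100000, 89807 / 100000, 466 / 1000, 763111 / 1000000),
    (89807 / 100000, 91057 / 100000, 496 / 1000, 799556 / 1000000),
    (91057 / 100000, 92159 / 100000, 523 / 1000, 830042 / 1000000),
    (92159 / 100000, 93131 / 100000, 547 / 1000, 855373 / 1000000),
    (93131 / 100000, 93986 / 100000, 569 / 1000, 876835 / 1000000),
    (93986 / 100000, 94738 / 100000, 589 / 1000, 894930 / 1000000),
    (94738 / 100000, 95397 / 100000, 608 / 1000, 910530 / 1000000),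
    (95397 / 100000, 95976 / 100000, 624 / 1000, 923172 / 1000000),
    (95976 / 100000, 96483 / 100000, 640 / 1000, 934377 / 1000000),
    (96483 / 100000, 96928 / 100000, 654 / 1000, 943664 / 1000000),
    (96928 / 100000, 97317 / 100000, 668 / 1000, 951856 / 1000000),
    (97317 / 100000, 97657 / 100000, 680 / 1000, 958583 / 1000000),
    (97657 / 100000, 97955 / 100000, 691 / 1000, 964315 / 1000000),
    (97955 / 100000, 98215 / 100000, 702 / 1000, 969358 / 1000000),
    (98215 / 100000, 98442 / 100000, 712 / 1000, 973622 / 1000000),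
    (98442 / 100000, 98641 / 100000, 722 / 1000, 977372 / 1000000),
    (98641 / 100000, 98814 / 100000, 731 / 1000, 980521 / 1000000),
    (98814 / 100000, 98965 / 100000, 739 / 1000, 983171 / 1000000),
    (98965 / 100000, 99098 / 100000, 746 / 1000, 985415 / 1000000),
    (99098 / 100000, 99213 / 100000, 754 / 1000, 987460 / 1000000),
    (99213 / 100000, 99314 / 100000, 761 / 1000, 989179 / 1000000),
    (99314 / 100000, 99401 / 100000, 768 / 1000, 990670 / 1000000),
    (99401 / 100000, 99478 / 100000, 774 / 1000, 991927 / 1000000),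
    (99478 / 100000, 99545 / 100000, 780 / 1000, 993027 / 1000000),
    (99545 / 100000, 99603 / 100000, 785 / 1000, 993938 / 1000000),
    (99603 / 100000, 99654 / 100000, 791 / 1000, 994782 / 1000000),
    (99654 / 100000, 99698 / 100000, 796 / 1000, 995477 / 1000000),
    (99698 / 100000, 99737 / 100000, 800 / 1000, 996062 / 1000000),
    (99737 / 100000, 99771 / 100000, 805 / 1000, 996603 / 1000000),
    (99771 / 100000, 99800 / 100000, 810 / 1000, 997067 / 1000000),
    (99800 / 100000, 99826 / 100000, 814 / 1000, 997458 / 1000000),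
    (99826 / 100000, 99848 / 100000, 818 / 1000, 997793 / 1000000),
    (99848 / 100000, 99868 / 100000, 821 / 1000, 998078 / 1000000),
    (99868 / 100000, 99885 / 100000, 825 / 1000, 998339 / 1000000),
    (99885 / 100000, 99899 / 100000, 830 / 1000, 998569 / 1000000),
    (99899 / 100000, 99912 / 100000, 832 / 1000, 998743 / 1000000),
    (99912 / 100000, 99924 / 100000, 835 / 1000, 998915 / 1000000),
    (99924 / 100000, 1499 / 1500, 840 / 1000, 999070 / 1000000)
]

open Vale.Agent.P322.Num in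
/-- the checker of one row -/
def smallTwoOk : ℚ × ℚ × ℚ × ℚ → Bool
  | (a, b, dT, r) => decide (0 < r ∧ r < 1 ∧ 0 < a ∧ a < 1 ∧ 0 < b ∧ b < 1 ∧ 0 ≤ dT ∧
      0 < atLo b ∧ r * entHi a ≤ dT * entLo r ∧
      dT * (b * atHi b + kapHi b * entHi b) ≤ atLo r)

lemma smallTwoTable_ok : smallTwoTable.all smallTwoOk = true := by decide +kernel

open Vale.Agent.P322.Num in
/-- **Small `d`, second hypothesis**: every row of `smallTwoTable`. -/
theorem scalar_two_small {m d H σ : ℝ} {a b dT r : ℚ} (hrow : (a, b, dT, r) ∈ smallTwoTable)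
    (hm : 0 ≤ m) (hd : 0 ≤ d) (hmd : m + d < 1) (h₁ : (a : ℝ) ≤ σ) (h₂ : σ ≤ (b : ℝ))
    (hdT : d ≤ (dT : ℝ)) (hσH : ent σ = H) : ScalarCase gTwo m d H := by
  have hc := List.all_eq_true.1 smallTwoTable_ok _ hrow
  simp only [smallTwoOk, decide_eq_true_eq] at hc
  obtain ⟨hr0, hr1, ha, ha1, hb, hb1, hdT0, hat, n1, n2⟩ := hc
  have hr0' : (0 : ℝ) < r := by exact_mod_cast hr0
  have hr1' : (r : ℝ) < 1 := by exact_mod_cast hr1
  have ha' : (0 : ℝ) < a := by exact_mod_cast ha
  have ha1' : (a : ℝ) < 1 := by exact_mod_cast ha1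
  have hb0' : (0 : ℝ) < b := by exact_mod_cast hb
  have hb' : (b : ℝ) < 1 := by exact_mod_cast hb1
  have hdT0' : (0 : ℝ) ≤ dT := by exact_mod_cast hdT0
  have hσ : σ ∈ Ico (0 : ℝ) 1 := ⟨by linarith, by linarith⟩
  -- `Theta σ ≤ Theta b`
  have hk := kap_monotoneOn hσ ⟨hb0'.le, hb'⟩ h₂
  have h6 : σ * artanh σ + kap σ * ent σ ≤ b * artanh (b : ℝ) + kap (b : ℝ) * ent (b : ℝ) := by
    refine (curve_tangent_param ⟨hb0'.le, hb'⟩ hσ).trans ?_
    have := mul_le_mul_of_nonneg_right hk (ent_pos (show -1 < (b : ℝ) by linarith) hb').le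
    linarith
  have n1' : (r : ℝ) * (entHi a : ℝ) ≤ (dT : ℝ) * (entLo r : ℝ) := by
    have h := (Rat.cast_le (K := ℝ)).2 n1
    push_cast at h
    exact h
  have n2' : (dT : ℝ) * ((b : ℝ) * (atHi b : ℝ) + (kapHi b : ℝ) * (entHi b : ℝ)) ≤
      (atLo r : ℝ) := by
    have h := (Rat.cast_le (K := ℝ)).2 n2
    push_cast at h
    exact h
  refine scalarCase_gTwo_of_param hm hd hdT hmd hσ hσH h6 ⟨hr0', hr1'⟩ ?_ ?_
  · refine (mul_le_mul_of_nonneg_left (add_le_add
      (mul_le_mul_of_nonneg_left (le_atHi (by linarith) hb1) hb0'.le) ?_) hdT0').trans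
      (n2'.trans (atLo_le (by linarith) hr1))
    exact mul_le_mul (le_kapHi hb hb1 hat) (le_entHi (by linarith) hb1)
      (ent_pos (show -1 < (b : ℝ) by linarith) hb').le
      (le_trans (le_trans zero_le_two (two_le_kap hb0'.le hb')) (le_kapHi hb hb1 hat))
  · rw [← hσH]
    refine le_trans (mul_le_mul_of_nonneg_left ?_ hr0'.le)
      (n1'.trans (mul_le_mul_of_nonneg_left (entLo_le (by linarith) hr1) hdT0'))
    exact (ent_strictAntiOn.antitoneOn ⟨ha'.le, ha1'.le⟩ ⟨hσ.1, hσ.2.le⟩ h₁).trans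
      (le_entHi (by linarith) ha1)

open Vale.Agent.P322.Num in
/-- the tail of the certificate `exists_pair_param` -/
lemma pair_param_tail {σ : ℝ} (h₁ : 19 / 20 ≤ σ) (h₂ : σ < 1) :
    ∃ t ∈ Ioo (0 : ℝ) 1, 5 / 2 * t * ent σ ≤ ent t ∧
      2 / 5 * (σ * artanh σ + kap σ * ent σ) ≤ artanh t := by
  have hnum : 183 / 100 ≤ atLo (19 / 20) ∧ entHi (19 / 20) ≤ 117 / 1000 ∧
      logHi (7 / 2) ≤ 12528 / 10000 ∧ 368 / 100 ≤ logLo 40 := by decide +kernel
  obtain ⟨n1, n2, n3, n4⟩ := hnum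
  have hA : 183 / 100 ≤ artanh σ := by
    have a := atLo_le (s := 19 / 20) (by norm_num) (by norm_num)
    have b := artanh_le_artanh (show (-1 : ℝ) < 19 / 20 by norm_num) h₂ h₁
    rify at n1
    push_cast at a
    linarith
  have hE : ent σ ≤ 117 / 1000 := by
    have a := le_entHi (s := 19 / 20) (by norm_num) (by norm_num)
    have b := ent_strictAntiOn.antitoneOn (show (19 / 20 : ℝ) ∈ Icc (0 : ℝ) 1 by norm_num)
      ⟨by linarith, h₂.le⟩ h₁
    rify at n2
    push_cast at a
    linarith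
  have hc : log (7 / 2 : ℝ) ≤ 12528 / 10000 := by
    have a := le_logHi (x := 7 / 2) (by norm_num)
    rify at n3
    push_cast at a
    linarith
  obtain ⟨z, rfl⟩ : ∃ z, σ = 1 - z := ⟨1 - σ, by ring⟩
  have hz : 0 < z := by linarith
  have hz' : z ≤ 1 / 20 := by linarith
  set l := log (2 / z) with hl
  have hl1 : 368 / 100 ≤ l := by
    have a := logLo_le (x := 40) (by norm_num)
    have b : log 40 ≤ l := log_le_log (by norm_num) (by rw [le_div_iff₀ hz]; linarith)
    rify at n4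
    push_cast at a
    linarith
  have hzl : log (z / 2) = -l := by rw [hl, ← log_inv, inv_div]
  -- entropy near one, from above
  have hup : ent (1 - z) ≤ z / 2 * (l + 1) := by
    rw [ent_eq_log (by linarith) (by linarith), show 1 - (1 - z) = z by ring, hzl]
    have : 1 - ((1 + (1 - z)) / 2)⁻¹ ≤ log ((1 + (1 - z)) / 2) :=
      one_sub_inv_le_log_of_pos (by linarith)
    have h3 := mul_le_mul_of_nonneg_left this (show (0 : ℝ) ≤ (1 + (1 - z)) / 2 by linarith)
    rw [mul_sub, mul_inv_cancel₀ (by linarith : ((1 + (1 - z)) / 2) ≠ 0), mul_one] at h3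
    nlinarith
  -- entropy near one, from below
  have hlow : 7 / 4 * z * ((1 - 7 / 4 * z) + (l - log (7 / 2))) ≤ ent (1 - 7 / 2 * z) := by
    rw [ent_eq_log (by linarith) (by linarith), show 1 - (1 - 7 / 2 * z) = 7 / 2 * z by ring,
      show 7 / 2 * z / 2 = 7 / 2 * (z / 2) by ring, log_mul (by norm_num) (by linarith), hzl]
    have := mul_le_mul_of_nonneg_left
      (log_le_sub_one_of_pos (show (0 : ℝ) < (1 + (1 - 7 / 2 * z)) / 2 by linarith))
      (show (0 : ℝ) ≤ (1 + (1 - 7 / 2 * z)) / 2 by linarith)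
    nlinarith
  refine ⟨1 - 7 / 2 * z, ⟨by linarith, by linarith⟩, ?_, ?_⟩
  · refine le_trans ?_ hlow
    refine (mul_le_mul_of_nonneg_left hup (by linarith)).trans ?_
    have : 0 ≤ (7 / 4 * (1 - 7 / 4 * z + (l - log (7 / 2)))) -
        5 / 4 * (1 - 7 / 2 * z) * (l + 1) := by nlinarith
    nlinarith [mul_nonneg hz.le this]
  · have hl2 : log ((2 - z) / (2 - 7 / 2 * z)) ≤ 7 / 100 := by
      refine (log_le_sub_one_of_pos (div_pos (by linarith) (by linarith))).trans ?_
      rw [sub_le_iff_le_add, div_le_iff₀ (by linarith)]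
      linarith
    have hAr : artanh (1 - z) - 662 / 1000 ≤ artanh (1 - 7 / 2 * z) := by
      rw [artanh_eq (by linarith) (by linarith), artanh_eq (by linarith) (by linarith),
        show 1 - (1 - z) = z by ring, show 1 - (1 - 7 / 2 * z) = 7 / 2 * z by ring,
        log_mul (by norm_num) hz.ne', show 1 + (1 - z) = 2 - z by ring,
        show 1 + (1 - 7 / 2 * z) = 2 - 7 / 2 * z by ring]
      rw [log_div (by linarith) (by linarith)] at hl2
      linarith
    have hl3 : l ≤ 2 * artanh (1 - z) + 1 / 30 := by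
      rw [artanh_eq (by linarith) (by linarith), show 1 - (1 - z) = z by ring,
        show 1 + (1 - z) = 2 * (1 - z / 2) by ring, log_mul two_ne_zero (by linarith), hl,
        log_div two_ne_zero hz.ne']
      have := one_sub_inv_le_log_of_pos (show (0 : ℝ) < 1 - z / 2 by linarith)
      have h4 : (1 - z / 2)⁻¹ ≤ 1 + 1 / 30 := by
        rw [inv_le_iff_one_le_mul₀ (by linarith)]
        linarith
      linarith
    set A := artanh (1 - z)
    have hk : (1 - z) / ((1 - (1 - z) ^ 2) * A) * ent (1 - z) ≤ 67 / 100 := by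
      rw [div_mul_eq_mul_div, div_le_iff₀ (mul_pos (by nlinarith) (by linarith))]
      have he0 := ent_pos (show -1 < 1 - z by linarith) h₂
      have h5 : (1 - z) * ent (1 - z) ≤ z / 2 * (l + 1) := by nlinarith
      have h6 : (1 : ℝ) / 2 * (l + 1) ≤ 67 / 100 * (2 - z) * A := by nlinarith
      nlinarith [mul_le_mul_of_nonneg_left h6 hz.le]
    have hkap : kap (1 - z) * ent (1 - z) ≤ 787 / 1000 := by
      rw [kap_of_pos (by linarith), add_mul, one_mul]
      linarith
    nlinarith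

open Vale.Agent.P322.Num in
/-- **Small `d`, second hypothesis**, `d ≤ 2 / 5` for all `σ ≥ 19 / 20`. -/
theorem scalar_two_small_tail {m d H σ : ℝ} (hm : 0 ≤ m) (hd : 0 ≤ d) (hd' : d ≤ 2 / 5)
    (hmd : m + d < 1) (h₁ : 19 / 20 ≤ σ) (h₂ : σ < 1) (hσH : ent σ = H) :
    ScalarCase gTwo m d H := by
  obtain ⟨t, ht, h3, h4⟩ := pair_param_tail h₁ h₂
  exact scalarCase_gTwo_of_param hm hd hd' hmd ⟨by linarith, h₂⟩ hσH le_rfl ht h4
    (by rw [← hσH]; linarith)

end Vale.Agent.P322
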