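import Vale.Agent.P322.Scalar.TailBase

/-!
The second hypothesis for `entInv H ≥ 1499 / 1500`, in four ranges of `1 - d`.
Throughout `Y = artanh σ ≥ 4`, so `H = ent (tanh Y)` is exponentially small.
-/

namespace Vale.Agent.P322.Tail

open Real Set

/-- the right hand side of the scalar inequality -/
noncomputable def rhs (m d H : ℝ) : ℝ :=
  max (meanBound (m + d) (m - d) H) (pairBound d H) + avgBound (m + d) (m - d) H

lemma two_mul_le_avgBound {m d H : ℝ} (hmd : |m + d| < 1) (hmd' : |m - d| < 1) (hH : 0 < H) :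
    ent (m + d) + ent (m - d) - 2 * H ≤ avgBound (m + d) (m - d) H := by
  rw [abs_lt] at hmd hmd'
  have a := phi_nonneg hmd.1.le hmd.2.le
  have b := phi_nonneg hmd'.1.le hmd'.2.le
  have h := curve_tangent (H := H + (phi (m + d) + phi (m - d)) / 2) (s := 0) (by linarith)
    ⟨le_rfl, zero_lt_one⟩
  simp [kap_zero, ent_zero] at h
  refine le_trans ?_ (le_max_left _ _)
  simp only [ent]
  linarith

lemma persp_le_avgBound (m d H : ℝ) :
    (1 - m ^ 2 - d ^ 2) * curve (H / (1 - m ^ 2 - d ^ 2)) ≤ avgBound (m + d) (m - d) H := by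
  have e2 : ((1 - (m + d) ^ 2) + (1 - (m - d) ^ 2)) / 2 = 1 - m ^ 2 - d ^ 2 := by ring
  rw [← e2]
  exact le_max_right _ _

lemma gbar_pos {m d : ℝ} (hm : 0 ≤ m) (hd : 0 ≤ d) (hmd : m + d < 1) :
    0 < 1 - m ^ 2 - d ^ 2 := by
  nlinarith [mul_nonneg hm hd, mul_lt_mul'' hmd hmd (by linarith) (by linarith)]

/-- the slope at `σ` dominates the one at the parameter of `H / (1 - m ^ 2)` -/
lemma gTwo_sub_le {m d σ : ℝ} (hm : 0 ≤ m) (hd : 0 ≤ d) (hmd : m + d < 1) (hσ : σ ∈ Ioo (0 : ℝ) 1) :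
    gTwo m (ent σ) - (1 - m ^ 2 - d ^ 2) * curve (ent σ / (1 - m ^ 2 - d ^ 2))
      ≤ d ^ 2 * (σ * artanh σ + kap σ * ent σ) := by
  set H := ent σ with hH
  have hH0 : 0 < H := ent_pos (by linarith [hσ.1]) hσ.2
  have hg : 0 < 1 - m ^ 2 := one_sub_sq_pos (by linarith) (by linarith)
  have hgb := gbar_pos hm hd hmd
  have hθ : 0 ≤ σ * artanh σ + kap σ * ent σ := by
    have := two_le_kap hσ.1.le hσ.2
    have := artanh_nonneg hσ.1.le
    have := hσ.1
    positivity
  unfold gTwo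
  by_cases h : log 2 ≤ H / (1 - m ^ 2)
  · rw [curve_eq_zero h, mul_zero]
    have := mul_nonneg hgb.le (curve_nonneg (div_pos hH0 hgb))
    linarith [mul_nonneg (sq_nonneg d) hθ]
  obtain ⟨s, hs, es, e⟩ := exists_curve_eq (div_pos hH0 hg) (not_le.1 h).le
  have h1 := curve_line_two hgb hH0 hs le_rfl le_rfl
  have e1 : (1 - m ^ 2) * curve (H / (1 - m ^ 2)) =
      (1 - m ^ 2) * (s * artanh s + kap s * ent s) - kap s * H := by
    have : (1 - m ^ 2) * ent s = H := by rw [es]; field_simp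
    rw [e]
    linear_combination (-kap s) * this
  suffices hT : s * artanh s + kap s * ent s ≤ σ * artanh σ + kap σ * ent σ by
    have := mul_le_mul_of_nonneg_left hT (sq_nonneg d)
    rw [e1]
    linarith
  rcases (sq_nonneg m).lt_or_eq with hm0 | hm0
  · have a := curve_line_two hg hH0 ⟨hσ.1.le, hσ.2⟩ le_rfl le_rfl
    have b := curve_tangent hH0 hs
    rw [e1] at a
    rw [hH, curve_ent hσ.1.le hσ.2, ← hH] at b
    nlinarith
  · have : s = σ := by
      refine ent_strictAntiOn.injOn ⟨hs.1, hs.2.le⟩ ⟨hσ.1.le, hσ.2.le⟩ ?_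
      rw [es, ← hm0, sub_zero, div_one]
    rw [this]

/-- `d ≤ 1 - 1/Y`: the perspective bound with the crude quadratic error -/
lemma case_small {m d Y : ℝ} (hY : 4 ≤ Y) (hm : 0 ≤ m) (hd : 0 ≤ d) (hmd : m + d < 1)
    (hdY : d ≤ 1 - 1 / Y) : gTwo m (ent (tanh Y)) ≤ rhs m d (ent (tanh Y)) := by
  have hσ := tanh_mem (show 0 < Y by linarith)
  have hs := gTwo_sub_le hm hd hmd hσ
  set H := ent (tanh Y) with hH
  have hH0 : 0 < H := ent_pos (by linarith [hσ.1]) hσ.2
  have hT : tanh Y * artanh (tanh Y) + kap (tanh Y) * ent (tanh Y) = theta Y := rfl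
  rw [hT] at hs
  obtain ⟨hq1, hq2⟩ := q_le hY
  set q := exp (-(2 * Y)) with hq
  have hq0 : 0 < q := exp_pos _
  have hT0 := le_theta (show 2 ≤ Y by linarith)
  have hT1 := theta_le (show 1 ≤ Y by linarith)
  have hTpos : 0 < theta Y := by linarith [show 0 ≤ 1 / (4 * Y) by positivity]
  refine le_trans (show gTwo m H ≤ pairBound d H + avgBound (m + d) (m - d) H from ?_)
    (add_le_add (le_max_right _ _) le_rfl)
  suffices hP : d ^ 2 * theta Y ≤ pairBound d H by linarith [persp_le_avgBound m d H]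
  rcases hd.lt_or_eq with hd0 | rfl
  swap
  · simp [pairBound_zero]
  set z := d * theta Y with hz
  have hz0 : 0 < z := mul_pos hd0 hTpos
  have hr := tanh_mem hz0
  have hHle : H ≤ (2 * Y + 1) * q := ent_tanh_le (by linarith)
  suffices hc : H * tanh z ≤ d * ent (tanh z) by
    rw [pairBound_of_pos hd0]
    have hri := ratInv_mem (div_pos hH0 hd0)
    have hle : tanh z ≤ ratInv (H / d) := by
      by_contra hlt
      have h := rat_strictAntiOn hri hr (not_le.1 hlt)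
      simp only [rat_ratInv (div_pos hH0 hd0)] at h
      rw [div_lt_div_iff₀ hr.1 hd0] at h
      linarith
    have := artanh_le_artanh (by linarith [hr.1]) hri.2 hle
    rw [artanh_tanh] at this
    calc d ^ 2 * theta Y = d * z := by rw [hz]; ring
      _ ≤ _ := mul_le_mul_of_nonneg_left this hd
  rcases le_total z 1 with h | h
  · have ht : tanh z ≤ z := by
      have := le_artanh hr.1.le hr.2
      rwa [artanh_tanh] at this
    have ha : ent (tanh 1) ≤ ent (tanh z) := by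
      refine ent_strictAntiOn.antitoneOn ⟨hr.1.le, hr.2.le⟩
        ⟨(tanh_mem one_pos).1.le, (tanh_lt_one 1).le⟩ ?_
      by_contra hlt
      have := artanh_le_artanh (neg_one_lt_tanh _) (tanh_lt_one _) (not_le.1 hlt).le
      rw [artanh_tanh, artanh_tanh] at this
      have : z = 1 := le_antisymm h this
      rw [this] at hlt
      exact hlt le_rfl
    have h1 : 1 / 4 ≤ ent (tanh 1) := by
      refine le_trans ?_ (le_ent_tanh zero_le_one)
      have a : exp (-(2 * (1 : ℝ))) ≤ 1 / 7 := by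
        rw [exp_neg, inv_le_comm₀ (exp_pos _) (by norm_num),
          show (2 : ℝ) * 1 = (2 : ℕ) * 1 by norm_num, exp_nat_mul]
        have h := pow_le_pow_left₀ (by norm_num) exp_one_gt_d9.le 2
        norm_num at h ⊢
        linarith
      have b : 1 / 8 ≤ exp (-(2 * (1 : ℝ))) := by
        rw [exp_neg, le_inv_comm₀ (by norm_num) (exp_pos _),
          show (2 : ℝ) * 1 = (2 : ℕ) * 1 by norm_num, exp_nat_mul]
        have h := pow_le_pow_left₀ (exp_pos 1).le exp_one_lt_d9.le 2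
        norm_num at h ⊢
        linarith
      nlinarith [mul_nonneg (sub_nonneg.2 a) (sub_nonneg.2 b)]
    have hHT : H * theta Y ≤ 1 / 4 := by
      have hb : theta Y ≤ 2 * Y := by
        have : 1 / (4 * Y) ≤ 1 / 16 := by gcongr; linarith
        linarith
      calc H * theta Y ≤ (2 * Y + 1) * q * (2 * Y) :=
            mul_le_mul hHle hb hTpos.le (by positivity)
        _ ≤ 1 / 4 := by linarith [q_le' hY]
    have : H * tanh z ≤ H * z := mul_le_mul_of_nonneg_left ht hH0.le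
    have e : H * z = H * theta Y * d := by rw [hz]; ring
    nlinarith [mul_le_mul_of_nonneg_right hHT hd, mul_le_mul_of_nonneg_left (h1.trans ha) hd]
  · have hzle : z ≤ Y - 1 / 2 := by
      have h1 : 1 / Y ≤ 1 := by rw [div_le_one (by linarith)]; linarith
      have h2 : z ≤ (1 - 1 / Y) * (Y + 1 / 2 + 1 / (4 * Y) + q) :=
        mul_le_mul hdY hT1 hTpos.le (by linarith)
      have h3 : q ≤ 1 / (4 * Y) := by
        rw [le_div_iff₀ (by linarith)]
        nlinarith
      have e : (1 - 1 / Y) * (Y + 1 / 2 + 1 / (4 * Y)) =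
          Y - 1 / 2 - 1 / (4 * Y) - 1 / (4 * Y ^ 2) := by field_simp; ring
      nlinarith [mul_le_mul_of_nonneg_right (show 1 - 1 / Y ≤ 1 by
        linarith [show 0 ≤ 1 / Y by positivity]) hq0.le, show 0 ≤ 1 / (4 * Y ^ 2) by positivity]
    set Δ := Y - 1 / 2 - z with hΔ
    have hΔ0 : 0 ≤ Δ := by linarith
    set qz := exp (-(2 * z)) with hqz
    have hqz1 : qz ≤ 7 / 50 := by
      refine (exp_le_exp.2 (show -(2 * z) ≤ -((2 : ℕ) * 1 : ℝ) by push_cast; linarith)).trans ?_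
      rw [exp_neg, exp_nat_mul, inv_le_comm₀ (by positivity) (by norm_num)]
      have h := pow_le_pow_left₀ (by norm_num) exp_one_gt_d9.le 2
      norm_num at h ⊢
      linarith
    have hexp : q * (1 + 2 * Δ + 2 * Δ ^ 2) * (271 / 100) ≤ qz := by
      have e : qz = q * exp 1 * exp (2 * Δ) := by
        rw [hqz, hq, ← exp_add, ← exp_add]; congr 1; rw [hΔ]; ring
      have a := quadratic_le_exp_of_nonneg (show 0 ≤ 2 * Δ by linarith)
      have b : (271 : ℝ) / 100 ≤ exp 1 := by linarith [exp_one_gt_d9]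
      rw [e]
      calc q * (1 + 2 * Δ + 2 * Δ ^ 2) * (271 / 100)
          = q * ((271 / 100) * (1 + 2 * Δ + 2 * Δ ^ 2)) := by ring
        _ ≤ q * (exp 1 * exp (2 * Δ)) :=
            mul_le_mul_of_nonneg_left (mul_le_mul b (by linarith) (by positivity) (exp_pos _).le)
              hq0.le
        _ = _ := by ring
    have hpoly : (Y - 1 / 2) * (2 * Y) ≤ z * (2 * z + 1) * (1 + 2 * Δ + 2 * Δ ^ 2) := by
      have eY : Y - 1 / 2 = z + Δ := by rw [hΔ]; ring
      rw [eY, show 2 * Y = 2 * (z + Δ) + 1 by rw [hΔ]; ring]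
      have a1 : 0 ≤ Δ * (4 * z ^ 2 - 2 * z - 1) :=
        mul_nonneg hΔ0 (by nlinarith only [h])
      have a2 : 0 ≤ Δ ^ 2 * (2 * z * (2 * z + 1) - 2) :=
        mul_nonneg (sq_nonneg Δ) (by nlinarith only [h])
      linarith only [a1, a2]
    have hmain : theta Y * H ≤ z * ent (tanh z) := by
      have hb : theta Y ≤ Y + 3 / 5 := by
        have : 1 / (4 * Y) ≤ 1 / 16 := by gcongr; linarith
        linarith
      calc theta Y * H ≤ (Y + 3 / 5) * ((2 * Y + 1) * q) :=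
            mul_le_mul hb hHle hH0.le (by linarith)
        _ ≤ (Y - 1 / 2) * (2 * Y) * (q * (271 / 100) * (43 / 50)) := by
            have : (Y + 3 / 5) * (2 * Y + 1) ≤ (Y - 1 / 2) * (2 * Y) * (271 / 100 * (43 / 50)) := by
              nlinarith only [hY]
            have := mul_le_mul_of_nonneg_right this hq0.le
            linarith only [this]
        _ ≤ z * (2 * z + 1) * (1 + 2 * Δ + 2 * Δ ^ 2) * (q * (271 / 100) * (43 / 50)) :=
            mul_le_mul_of_nonneg_right hpoly (by positivity)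
        _ = z * ((2 * z + 1) * (q * (1 + 2 * Δ + 2 * Δ ^ 2) * (271 / 100)) * (43 / 50)) := by ring
        _ ≤ z * ((2 * z + 1) * qz * (1 - qz)) := by gcongr; linarith
        _ ≤ z * ent (tanh z) := mul_le_mul_of_nonneg_left (le_ent_tanh hz0.le) hz0.le
    have h3 : H ≤ d * ent (tanh z) := by
      refine le_of_mul_le_mul_left (hmain.trans (le_of_eq ?_)) hTpos
      rw [hz]; ring
    calc H * tanh z ≤ H * 1 := mul_le_mul_of_nonneg_left hr.2.le hH0.le
      _ ≤ _ := by linarith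

/-- bound of the second hypothesis near the endpoint -/
lemma gTwo_le_tail {m Y : ℝ} (hY : 4 ≤ Y) (hm : 0 ≤ m) (hmY : m ≤ 1 / 4) :
    gTwo m (ent (tanh Y)) ≤ tanh Y * Y - m ^ 2 * (Y + 1 / 4 + 1 / (4 * Y)) := by
  have hσ := tanh_mem (show 0 < Y by linarith)
  have hr := tanh_mem (show 0 < Y - 1 / 4 by linarith)
  have hH0 : 0 < ent (tanh Y) := ent_pos (by linarith [hσ.1]) hσ.2
  have hle : ent (tanh Y) / (1 - m ^ 2) ≤ ent (tanh (Y - 1 / 4)) := by
    have hg : 15 / 16 ≤ 1 - m ^ 2 := by nlinarith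
    rw [div_le_iff₀ (by linarith)]
    refine (ent_tanh_le (by linarith)).trans ?_
    have h2 := mul_le_mul (le_ent_tanh (t := Y - 1 / 4) (by linarith)) hg (by norm_num)
      (ent_pos (by linarith [hr.1]) hr.2).le
    refine le_trans ?_ h2
    have e : exp (-(2 * (Y - 1 / 4))) = exp (-(2 * Y)) * exp (1 / 2) := by
      rw [← exp_add]; congr 1; ring
    rw [e]
    have a := quadratic_le_exp_of_nonneg (show (0 : ℝ) ≤ 1 / 2 by norm_num)
    have b : exp (1 / 2) ≤ 2 := by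
      have : exp (1 / 2) * exp (1 / 2) = exp 1 := by rw [← exp_add]; norm_num
      nlinarith [exp_pos (1 / 2 : ℝ), exp_one_lt_d9]
    obtain ⟨hq1, -⟩ := q_le hY
    have hq0 := exp_pos (-(2 * Y))
    set q := exp (-(2 * Y))
    set E := exp (1 / 2 : ℝ)
    have c : 13 / 8 * (999 / 1000) ≤ E * (1 - q * E) :=
      mul_le_mul (by linarith) (by nlinarith) (by norm_num) (by positivity)
    calc (2 * Y + 1) * q ≤ q * ((2 * (Y - 1 / 4) + 1) * (13 / 8 * (999 / 1000)) * (15 / 16)) := by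
          rw [mul_comm]
          exact mul_le_mul_of_nonneg_left (by nlinarith) hq0.le
      _ ≤ q * ((2 * (Y - 1 / 4) + 1) * (E * (1 - q * E)) * (15 / 16)) := by gcongr; linarith
      _ = _ := by ring
  refine (gTwo_le_sub hm (by linarith) hH0 ⟨hr.1.le, hr.2⟩ hle).trans ?_
  rw [curve_ent hσ.1.le hσ.2, artanh_tanh]
  have h := le_theta (show 2 ≤ Y - 1 / 4 by linarith)
  have h' : 1 / (4 * Y) ≤ 1 / (4 * (Y - 1 / 4)) := by gcongr <;> linarith
  have := mul_le_mul_of_nonneg_left (show Y + 1 / 4 + 1 / (4 * Y) ≤ theta (Y - 1 / 4) by linarith)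
    (sq_nonneg m)
  simp only [theta, artanh_tanh] at this ⊢
  linarith

/-- the boundary between the last two bounds -/
noncomputable def cut (Y : ℝ) : ℝ := exp (-Y + 1 / 2 - 3 / (10 * Y))

lemma exp_le_pade {x : ℝ} (h₀ : 0 ≤ x) (h₂ : x < 2) : exp x ≤ (2 + x) / (2 - x) := by
  have h := le_artanh (show 0 ≤ x / 2 by linarith) (by linarith)
  rw [artanh_eq (by linarith) (by linarith)] at h
  have hp : 0 < (2 + x) / (2 - x) := div_pos (by linarith) (by linarith)
  have e : log ((2 + x) / (2 - x)) = log (1 + x / 2) - log (1 - x / 2) := by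
    rw [← log_div (by linarith) (by linarith)]; congr 1
    have : (2 : ℝ) - x ≠ 0 := by linarith
    have : (1 : ℝ) - x / 2 ≠ 0 := by linarith
    field_simp
  rw [← le_log_iff_exp_le hp, e]
  linarith

lemma cut_le {Y : ℝ} (hY : 4 ≤ Y) :
    cut Y ≤ 2806 / 100000 / (1 + 98 / 100 * (Y - 4) + 48 / 100 * (Y - 4) ^ 2) := by
  set x := Y - 4 with hx
  have hx0 : 0 ≤ x := by linarith
  have hD : 0 < 1 + 98 / 100 * x + 48 / 100 * x ^ 2 := by positivity
  rw [le_div_iff₀ hD]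
  have hexp : 1 + 98 / 100 * x + 48 / 100 * x ^ 2 ≤ exp (15700 / 16000 * x) := by
    have := quadratic_le_exp_of_nonneg (show 0 ≤ 15700 / 16000 * x by positivity)
    nlinarith
  have h2 : -Y + 1 / 2 - 3 / (10 * Y) ≤ -(143 / 40) - 15700 / 16000 * x := by
    have hY0 : (0 : ℝ) < 10 * Y := by linarith
    rw [← sub_nonneg]
    have e : -(143 / 40) - 15700 / 16000 * x - (-Y + 1 / 2 - 3 / (10 * Y)) =
        ((-(143 / 40) - 15700 / 16000 * x + Y - 1 / 2) * (10 * Y) + 3) / (10 * Y) := by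
      field_simp; ring
    rw [e]
    apply div_nonneg _ hY0.le
    rw [hx]
    nlinarith [sq_nonneg (Y - 4)]
  have h3 : exp (-(143 / 40 : ℝ)) ≤ 2806 / 100000 := by
    rw [exp_neg, inv_le_comm₀ (exp_pos _) (by norm_num),
      show (143 / 40 : ℝ) = (3 : ℕ) * 1 + 23 / 40 by norm_num, exp_add, exp_nat_mul]
    have a := pow_le_pow_left₀ (by norm_num) exp_one_gt_d9.le 3
    have b := sum_le_exp_of_nonneg (show (0 : ℝ) ≤ 23 / 40 by norm_num) 5
    simp [Finset.sum_range_succ, Nat.factorial] at b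
    norm_num at a b ⊢
    refine le_trans ?_ (mul_le_mul a b (by norm_num) (by positivity))
    norm_num
  calc cut Y * (1 + 98 / 100 * x + 48 / 100 * x ^ 2)
      ≤ exp (-(143 / 40) - 15700 / 16000 * x) * exp (15700 / 16000 * x) :=
        mul_le_mul (exp_le_exp.2 h2) hexp hD.le (exp_pos _).le
    _ = exp (-(143 / 40)) := by rw [← exp_add]; congr 1; ring
    _ ≤ _ := h3

/-- the parameter of the perspective line -/
noncomputable def par (Y : ℝ) : ℝ := Y / 2 + 1 / 4 + 1 / (4 * Y)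

/-- the left endpoint of the perspective range -/
lemma left_num {Y : ℝ} (hY : 4 ≤ Y) :
    0 ≤ 1 + 1 / (4 * Y) + 1 / (2 * par Y) - (2 * Y + 1) * exp (4 / (5 * Y)) / (4 * par Y)
      - (par Y + 1 / 2 + 1 / (4 * par Y)) * cut Y := by
  have hP : 0 < par Y := by unfold par; positivity
  have hy : 4 / (5 * Y) < 2 := by rw [div_lt_iff₀ (by linarith)]; linarith
  have hR := exp_le_pade (show 0 ≤ 4 / (5 * Y) by positivity) hy
  have a : (2 * Y + 1) * exp (4 / (5 * Y)) / (4 * par Y) ≤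
      (2 * Y + 1) * ((2 + 4 / (5 * Y)) / (2 - 4 / (5 * Y))) / (4 * par Y) := by gcongr
  have b : (par Y + 1 / 2 + 1 / (4 * par Y)) * cut Y ≤ (par Y + 1 / 2 + 1 / (4 * par Y)) *
      (2806 / 100000 / (1 + 98 / 100 * (Y - 4) + 48 / 100 * (Y - 4) ^ 2)) :=
    mul_le_mul_of_nonneg_left (cut_le hY) (by positivity)
  suffices h : 0 ≤ 1 + 1 / (4 * Y) + 1 / (2 * par Y)
      - (2 * Y + 1) * ((2 + 4 / (5 * Y)) / (2 - 4 / (5 * Y))) / (4 * par Y)
      - (par Y + 1 / 2 + 1 / (4 * par Y)) *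
        (2806 / 100000 / (1 + 98 / 100 * (Y - 4) + 48 / 100 * (Y - 4) ^ 2)) by linarith
  obtain ⟨x, hx, rfl⟩ : ∃ x, 0 ≤ x ∧ Y = 4 + x := ⟨Y - 4, by linarith, by ring⟩
  set Z := 4 + x with hZ
  have hZ0 : 0 < Z := by rw [hZ]; linarith
  have hR' : (2 + 4 / (5 * Z)) / (2 - 4 / (5 * Z)) = (Z + 2 / 5) / (Z - 2 / 5) := by
    rw [div_eq_div_iff (by linarith) (by rw [hZ]; linarith)]
    field_simp
    ring
  rw [hR', show par Z = (2 * Z ^ 2 + Z + 1) / (4 * Z) by unfold par; field_simp; ring,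
    show Z - 4 = x by rw [hZ]; ring]
  have h1 : 0 < Z - 2 / 5 := by rw [hZ]; linarith
  have h2 : 0 < 2 * Z ^ 2 + Z + 1 := by positivity
  have h3 : 0 < 1 + 98 / 100 * x + 48 / 100 * x ^ 2 := by positivity
  have h4 : 0 < Z * 5 - 2 := by linarith
  rw [show (Z + 2 / 5) / (Z - 2 / 5) = (Z * 5 + 2) / (Z * 5 - 2) by
    rw [div_eq_div_iff h1.ne' h4.ne']; ring]
  field_simp
  rw [hZ]
  nlinarith [pow_nonneg hx 2, pow_nonneg hx 3, pow_nonneg hx 4, pow_nonneg hx 5, pow_nonneg hx 6,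
    pow_nonneg hx 7]

/-- the right endpoint of the perspective range -/
lemma right_num {Y W : ℝ} (hY : 4 ≤ Y)
    (hW : W ≤ 345 / 10000 / (1 + 96 / 100 * (Y - 4) + 4 / 10 * (Y - 4) ^ 2)) :
    0 ≤ -(Y + 1 / 2 + 1 / (4 * Y)) * (1 / Y)
      + (par Y + 1 / 2 + 1 / (4 * par Y)) * (2 * (1 / Y) - (1 / Y) ^ 2)
      - (2 * Y + 1) * W / (4 * par Y) := by
  have hP : 0 < par Y := by unfold par; positivity
  have a : (2 * Y + 1) * W / (4 * par Y) ≤ (2 * Y + 1) *
      (345 / 10000 / (1 + 96 / 100 * (Y - 4) + 4 / 10 * (Y - 4) ^ 2)) / (4 * par Y) := by gcongr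
  suffices h : 0 ≤ -(Y + 1 / 2 + 1 / (4 * Y)) * (1 / Y)
      + (par Y + 1 / 2 + 1 / (4 * par Y)) * (2 * (1 / Y) - (1 / Y) ^ 2)
      - (2 * Y + 1) * (345 / 10000 / (1 + 96 / 100 * (Y - 4) + 4 / 10 * (Y - 4) ^ 2))
        / (4 * par Y) by linarith
  obtain ⟨x, hx, rfl⟩ : ∃ x, 0 ≤ x ∧ Y = 4 + x := ⟨Y - 4, by linarith, by ring⟩
  set Z := 4 + x with hZ
  have hZ0 : 0 < Z := by rw [hZ]; linarith
  rw [show par Z = (2 * Z ^ 2 + Z + 1) / (4 * Z) by unfold par; field_simp; ring,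
    show Z - 4 = x by rw [hZ]; ring]
  have h2 : 0 < 2 * Z ^ 2 + Z + 1 := by positivity
  have h3 : 0 < 1 + 96 / 100 * x + 4 / 10 * x ^ 2 := by positivity
  field_simp
  rw [hZ]
  nlinarith [pow_nonneg hx 2, pow_nonneg hx 3, pow_nonneg hx 4, pow_nonneg hx 5, pow_nonneg hx 6,
    pow_nonneg hx 7, pow_nonneg hx 8]

/-- `cut Y ≤ 1 - d ≤ 1/Y`: pair line and perspective line -/
lemma case_mid {m ε Y : ℝ} (hY : 4 ≤ Y) (hm : 0 ≤ m) (hmε : m < ε) (hcut : cut Y ≤ ε)
    (hεY : ε ≤ 1 / Y) (hdσ : 1 - ε ≤ tanh Y) :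
    gTwo m (ent (tanh Y)) ≤ rhs m (1 - ε) (ent (tanh Y)) := by
  have hY0 : 0 < Y := by linarith
  have h4 : 1 / Y ≤ 1 / 4 := by gcongr
  have hσ := tanh_mem hY0
  have hH0 : 0 < ent (tanh Y) := ent_pos (by linarith [hσ.1]) hσ.2
  have hHle := ent_tanh_le hY0.le
  obtain ⟨-, hq2⟩ := q_le hY
  have hq0 := exp_pos (-(2 * Y))
  set t := par Y with ht
  have ht0 : 0 < t := by rw [ht]; unfold par; positivity
  have ht2 : 2 ≤ t := by
    rw [ht, par]; linarith [show 0 ≤ 1 / (4 * Y) by positivity]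
  have hr := tanh_mem ht0
  have hg := gbar_pos hm (show 0 ≤ 1 - ε by linarith) (show m + (1 - ε) < 1 by linarith)
  set T := t + 1 / 2 + 1 / (4 * t) with hT
  have hline := curve_line_two (T := T) hg hH0 ⟨hr.1.le, hr.2⟩ (le_theta ht2) le_rfl
  have hP := pair_line hY0 (show 0 ≤ 1 - ε by linarith) hdσ
  have hG := gTwo_le_tail hY hm (show m ≤ 1 / 4 by linarith)
  have hA := persp_le_avgBound m (1 - ε) (ent (tanh Y))
  have hR := add_le_add (le_max_right (meanBound (m + (1 - ε)) (m - (1 - ε)) (ent (tanh Y)))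
    (pairBound (1 - ε) (ent (tanh Y)))) hA
  refine le_trans ?_ hR
  refine hG.trans (le_trans ?_ (add_le_add hP hline))
  set μ := Y + 1 / 2 + 1 / (4 * Y) with hμ
  set W := exp (-Y + 1 / 2 + 1 / (2 * Y)) with hW
  set q := exp (-(2 * Y)) with hq
  set H := ent (tanh Y)
  have hk : kap (tanh t) * H ≤ (2 * Y + 1) * q + (2 * Y + 1) * W / (4 * t) := by
    have hqt := exp_pos (-(2 * t))
    have e : (2 * Y + 1) * W / (4 * t) = (2 * Y + 1) * q / (4 * t * exp (-(2 * t))) := by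
      have : W * exp (-(2 * t)) = q := by
        rw [hW, hq, ← exp_add]; congr 1; rw [ht, par]; field_simp; ring
      rw [← this]
      field_simp
    rw [kap_tanh ht0, e]
    calc (1 + (1 - exp (-(2 * t)) ^ 2) / (4 * t * exp (-(2 * t)))) * H
        ≤ (1 + 1 / (4 * t * exp (-(2 * t)))) * ((2 * Y + 1) * q) := by
          refine mul_le_mul ?_ hHle hH0.le (by positivity)
          gcongr
          linarith [sq_nonneg (exp (-(2 * t)))]
      _ = _ := by ring
  have hδ : (2 * Y + 1) * q ≤ μ * (1 - tanh Y) := by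
    rw [tanh_eq_q, ← hq, show 1 - (1 - q) / (1 + q) = 2 * q / (1 + q) by field_simp; ring,
      mul_div_assoc', le_div_iff₀ (by positivity)]
    have h' : q * (2 * Y + 1) ≤ 1 / (2 * Y) := by rw [le_div_iff₀ (by linarith)]; linarith
    have := mul_le_mul_of_nonneg_left h' hq0.le
    have e : μ * (2 * q) = (2 * Y + 1) * q + q * (1 / (2 * Y)) := by rw [hμ]; field_simp; ring
    linarith
  have hTM : T ≤ Y + 1 / 4 + 1 / (4 * Y) := by
    have h5 : 1 / (4 * t) ≤ 1 / 8 := by gcongr; linarith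
    have e : t = Y / 2 + 1 / 4 + 1 / (4 * Y) := by rw [ht, par]
    linarith
  -- concavity in `ε`
  have hG0 : 0 ≤ -μ * cut Y + T * (2 * cut Y - cut Y ^ 2) - (2 * Y + 1) * W / (4 * t) := by
    have h := mul_nonneg (exp_pos (-Y + 1 / 2 - 3 / (10 * Y))).le (left_num hY)
    have eW : W = cut Y * exp (4 / (5 * Y)) := by
      rw [hW, cut, ← exp_add]; congr 1; field_simp; ring
    have e2 : 2 * T - μ = 1 + 1 / (4 * Y) + 1 / (2 * t) := by
      rw [hT, hμ, ht, par]; field_simp; ring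
    rw [← cut, ← ht] at h
    rw [eW]
    calc (0 : ℝ) ≤ _ := h
      _ = _ := by rw [← hT]; linear_combination (-cut Y) * e2
  have hW1 : W ≤ 345 / 10000 / (1 + 96 / 100 * (Y - 4) + 4 / 10 * (Y - 4) ^ 2) := by
    set x := Y - 4 with hx
    have hx0 : 0 ≤ x := by linarith
    rw [le_div_iff₀ (by positivity)]
    have hexp : 1 + 96 / 100 * x + 4 / 10 * x ^ 2 ≤ exp x := by
      linarith [quadratic_le_exp_of_nonneg hx0, sq_nonneg x]
    have h5 : 1 / (2 * Y) ≤ 1 / 8 := by gcongr; linarith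
    calc W * (1 + 96 / 100 * x + 4 / 10 * x ^ 2) ≤ exp (-(27 / 8) - x) * exp x :=
          mul_le_mul (exp_le_exp.2 (by rw [hx]; linarith)) hexp (by positivity) (exp_pos _).le
      _ = exp (-(27 / 8)) := by rw [← exp_add]; congr 1; ring
      _ ≤ _ := by
          rw [exp_neg, inv_le_comm₀ (exp_pos _) (by norm_num),
            show (27 / 8 : ℝ) = (3 : ℕ) * 1 + 3 / 8 by norm_num, exp_add, exp_nat_mul]
          have a := pow_le_pow_left₀ (by norm_num) exp_one_gt_d9.le 3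
          have b := sum_le_exp_of_nonneg (show (0 : ℝ) ≤ 3 / 8 by norm_num) 5
          simp [Finset.sum_range_succ, Nat.factorial] at b
          norm_num at a b ⊢
          refine le_trans ?_ (mul_le_mul a b (by norm_num) (by positivity))
          norm_num
  have hG1 := right_num hY hW1
  rw [← ht, ← hT, ← hμ] at hG1
  have hGε : 0 ≤ -μ * ε + T * (2 * ε - ε ^ 2) - (2 * Y + 1) * W / (4 * t) := by
    rcases hεY.lt_or_eq with hlt | heq
    · have hl : cut Y < 1 / Y := lt_of_le_of_lt hcut hlt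
      have h1 := mul_nonneg (sub_nonneg.2 hεY) hG0
      have h2 := mul_nonneg (sub_nonneg.2 hcut) hG1
      have h3 : 0 ≤ T * ((ε - cut Y) * (1 / Y - ε) * (1 / Y - cut Y)) := by
        have : 0 ≤ T := by rw [hT]; positivity
        exact mul_nonneg this (mul_nonneg (mul_nonneg (sub_nonneg.2 hcut) (sub_nonneg.2 hεY))
          (sub_nonneg.2 hl.le))
      refine nonneg_of_mul_nonneg_right ?_ (sub_pos.2 hl)
      linarith
    · rw [heq]; exact hG1
  have hM := mul_le_mul_of_nonneg_left hTM (sq_nonneg m)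
  linarith

/-- lower bound used in the two ranges next to the endpoint -/
lemma case_pair {m ε Y : ℝ} (hY : 4 ≤ Y) (hm : 0 ≤ m) (hmε : m < ε) (hε : ε ≤ 1 / 4)
    (hdσ : 1 - ε ≤ tanh Y)
    (h : (Y + 1 / 2 + 1 / (4 * Y)) * (ε - (1 - tanh Y)) + 2 * ent (tanh Y)
      + m ^ 2 * (log 2 * (1 / ε + 1 / (2 - ε)) - (Y + 1 / 4 + 1 / (4 * Y))) ≤ 2 * ent (1 - ε)) :
    gTwo m (ent (tanh Y)) ≤ rhs m (1 - ε) (ent (tanh Y)) := by
  have hY0 : 0 < Y := by linarith
  have hσ := tanh_mem hY0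
  have hH0 : 0 < ent (tanh Y) := ent_pos (by linarith [hσ.1]) hσ.2
  have hP := pair_line hY0 (show 0 ≤ 1 - ε by linarith) hdσ
  have hG := gTwo_le_tail hY hm (show m ≤ 1 / 4 by linarith)
  have hA := two_mul_le_avgBound (m := m) (d := 1 - ε) (abs_lt.2 ⟨by linarith, by linarith⟩)
    (abs_lt.2 ⟨by linarith, by linarith⟩) hH0
  have hE := pair_ent_ge hm hmε (show ε ≤ 1 by linarith)
  refine le_trans ?_ (add_le_add (le_max_right (meanBound (m + (1 - ε)) (m - (1 - ε))
    (ent (tanh Y))) (pairBound (1 - ε) (ent (tanh Y)))) hA)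
  linarith

/-- the function of `1 - d` which remains above `4 q` -/
lemma high_key {ε Y : ℝ} (hY : 4 ≤ Y) (hlo : 4 * exp (-(2 * Y)) ≤ ε) (hcut : ε ≤ cut Y) :
    0 ≤ negMulLog ε + (1 - (Y + 1 / 2 + 1 / (4 * Y))) * ε + (Y - 37 / 100) * ε ^ 2
      - (2 * Y + 1) * exp (-(2 * Y)) := by
  have hY0 : 0 < Y := by linarith
  have he0 : cut Y ≤ 2806 / 100000 := by
    refine (cut_le hY).trans (div_le_self (by norm_num) ?_)
    nlinarith [sq_nonneg (Y - 4)]
  obtain ⟨hq1, hq2⟩ := q_le hY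
  have hq0 := exp_pos (-(2 * Y))
  set q := exp (-(2 * Y)) with hq
  set μ := Y + 1 / 2 + 1 / (4 * Y) with hμ
  have hμ1 : μ ≤ Y + 9 / 16 := by
    have : 1 / (4 * Y) ≤ 1 / 16 := by gcongr; linarith
    linarith
  set c := 1 - μ with hc
  set A := Y - 37 / 100 with hAdef
  have hA : 2 * A * cut Y ≤ 1 := by
    have h1 := cut_le hY
    rw [le_div_iff₀ (by nlinarith [sq_nonneg (Y - 4)])] at h1
    have : 0 ≤ cut Y := (exp_pos _).le
    nlinarith [mul_nonneg this (sq_nonneg (Y - 4)), hAdef]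
  have hconc : ConcaveOn ℝ (Icc (4 * q) (cut Y))
      fun e => negMulLog e + c * e + A * e ^ 2 - (2 * Y + 1) * q := by
    have hpos : ∀ e ∈ Icc (4 * q) (cut Y), 0 < e := fun e he => by linarith [he.1]
    refine concaveOn_of_hasDerivWithinAt2_nonpos (convex_Icc _ _)
      (f' := fun e => -log e - 1 + c + 2 * A * e) (f'' := fun e => -e⁻¹ + 2 * A)
      (((continuous_negMulLog.add (continuous_const.mul continuous_id)).add
        (continuous_const.mul (continuous_pow 2))).sub continuous_const).continuousOn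
      (fun e he => ?_) (fun e he => ?_) fun e he => ?_
    · have h0 := hpos e (interior_subset he)
      have := (((hasDerivAt_negMulLog h0.ne').add ((hasDerivAt_id e).const_mul c)).add
        ((hasDerivAt_pow 2 e).const_mul A)).sub_const ((2 * Y + 1) * q)
      exact (this.congr_deriv (by push_cast; ring)).hasDerivWithinAt
    · have h0 := hpos e (interior_subset he)
      have := ((((Real.hasDerivAt_log h0.ne').neg).sub_const 1).add_const c).add
        ((hasDerivAt_id e).const_mul (2 * A))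
      exact (this.congr_deriv (by ring)).hasDerivWithinAt
    · have h0 := hpos e (interior_subset he)
      rw [neg_add_nonpos_iff, ← one_div, le_div_iff₀ h0]
      have hA0 : 0 ≤ A := by linarith [hAdef]
      nlinarith [(interior_subset he).2, hA]
  have hle : 4 * q ≤ cut Y := hlo.trans hcut
  have h1 : 0 ≤ negMulLog (4 * q) + c * (4 * q) + A * (4 * q) ^ 2 - (2 * Y + 1) * q := by
    have el : negMulLog (4 * q) = (2 * Y - 2 * log 2) * (4 * q) := by
      rw [negMulLog, log_mul (by norm_num) hq0.ne', hq, log_exp,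
        show (4 : ℝ) = 2 ^ 2 by norm_num, log_pow]
      push_cast; ring
    have l2 : log 2 ≤ 7 / 10 := by linarith [log_two_lt_d9]
    have : 0 ≤ A * (4 * q) ^ 2 := mul_nonneg (by linarith [hAdef]) (sq_nonneg _)
    rw [el, hc]
    have a1 := mul_nonneg hq0.le (sub_nonneg.2 l2)
    have a2 := mul_nonneg hq0.le (sub_nonneg.2 hμ1)
    have a3 := mul_nonneg hq0.le (sub_nonneg.2 hY)
    linarith
  have h2 : 0 ≤ negMulLog (cut Y) + c * cut Y + A * cut Y ^ 2 - (2 * Y + 1) * q := by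
    have el : negMulLog (cut Y) = (Y - 1 / 2 + 3 / (10 * Y)) * cut Y := by
      rw [negMulLog, cut, log_exp]; ring
    have hqc : q ≤ 4275 / 10000 * cut Y ^ 2 := by
      have e : q = exp (-1 + 3 / (5 * Y)) * cut Y ^ 2 := by
        rw [hq, cut, sq, ← exp_add, ← exp_add]; congr 1; field_simp; ring
      have h5 : 3 / (5 * Y) ≤ 3 / 20 := by gcongr; linarith
      have h6 : exp (-1 + 3 / (5 * Y)) ≤ 4275 / 10000 := by
        refine (exp_le_exp.2 (show -1 + 3 / (5 * Y) ≤ -(17 / 20) by linarith)).trans ?_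
        rw [exp_neg, inv_le_comm₀ (exp_pos _) (by norm_num)]
        have b := sum_le_exp_of_nonneg (show (0 : ℝ) ≤ 17 / 20 by norm_num) 7
        simp [Finset.sum_range_succ, Nat.factorial] at b
        norm_num at b ⊢
        linarith
      rw [e]
      exact mul_le_mul_of_nonneg_right h6 (sq_nonneg _)
    have hc0 : 0 < cut Y := exp_pos _
    rw [el]
    have e : (Y - 1 / 2 + 3 / (10 * Y)) * cut Y + c * cut Y = cut Y * (1 / (20 * Y)) := by
      rw [hc, hμ]; field_simp; ring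
    have h7 : 0 ≤ 1 / (20 * Y) + cut Y * (145 / 1000 * Y - 7975 / 10000) := by
      rw [show 1 / (20 * Y) + cut Y * (145 / 1000 * Y - 7975 / 10000) =
        (1 + 20 * Y * cut Y * (145 / 1000 * Y - 7975 / 10000)) / (20 * Y) by field_simp]
      refine div_nonneg ?_ (by linarith)
      nlinarith [mul_nonneg hc0.le (sq_nonneg (Y - 11 / 4)), he0]
    have h8 := mul_le_mul_of_nonneg_left hqc (show 0 ≤ 2 * Y + 1 by linarith)
    have h9 := mul_nonneg hc0.le h7
    rw [hAdef]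
    linarith
  rcases hle.lt_or_eq with hlt | heq
  · have := hconc.2 (show 4 * q ∈ Icc (4 * q) (cut Y) from ⟨le_rfl, hle⟩)
      (show cut Y ∈ Icc (4 * q) (cut Y) from ⟨hle, le_rfl⟩)
      (show 0 ≤ (cut Y - ε) / (cut Y - 4 * q) from div_nonneg (by linarith) (by linarith))
      (show 0 ≤ (ε - 4 * q) / (cut Y - 4 * q) from div_nonneg (by linarith) (by linarith))
      (by have : cut Y - 4 * q ≠ 0 := by linarith
          field_simp; ring)
    simp only [smul_eq_mul] at this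
    have e : (cut Y - ε) / (cut Y - 4 * q) * (4 * q) + (ε - 4 * q) / (cut Y - 4 * q) * cut Y = ε := by
      have : cut Y - 4 * q ≠ 0 := by linarith
      field_simp; ring
    rw [e] at this
    refine le_trans (add_nonneg (mul_nonneg ?_ h1) (mul_nonneg ?_ h2)) this <;>
      exact div_nonneg (by linarith) (by linarith)
  · have : ε = 4 * q := le_antisymm (by linarith) hlo
    rw [this]; exact h1

/-- `4 q ≤ 1 - d ≤ cut Y` -/
lemma case_high {m ε Y : ℝ} (hY : 4 ≤ Y) (hm : 0 ≤ m) (hmε : m < ε)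
    (hlo : 4 * exp (-(2 * Y)) ≤ ε) (hcut : ε ≤ cut Y) (hdσ : 1 - ε ≤ tanh Y) :
    gTwo m (ent (tanh Y)) ≤ rhs m (1 - ε) (ent (tanh Y)) := by
  have hY0 : 0 < Y := by linarith
  have he0 : cut Y ≤ 2806 / 100000 := by
    refine (cut_le hY).trans (div_le_self (by norm_num) ?_)
    nlinarith [sq_nonneg (Y - 4)]
  have hε0 : 0 < ε := by linarith
  obtain ⟨hq1, hq2⟩ := q_le hY
  have hq0 := exp_pos (-(2 * Y))
  have hHle := ent_tanh_le hY0.le
  set q := exp (-(2 * Y)) with hq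
  refine case_pair hY hm hmε (by linarith) hdσ ?_
  set μ := Y + 1 / 2 + 1 / (4 * Y) with hμ
  set H := ent (tanh Y)
  have hμ1 : μ ≤ Y + 9 / 16 := by
    have : 1 / (4 * Y) ≤ 1 / 16 := by gcongr; linarith
    linarith
  have hδ : (2 * Y + 1) * q ≤ μ * (1 - tanh Y) := by
    rw [tanh_eq_q, ← hq, show 1 - (1 - q) / (1 + q) = 2 * q / (1 + q) by field_simp; ring,
      mul_div_assoc', le_div_iff₀ (by positivity)]
    have h' : q * (2 * Y + 1) ≤ 1 / (2 * Y) := by rw [le_div_iff₀ (by linarith)]; linarith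
    have := mul_le_mul_of_nonneg_left h' hq0.le
    have e : μ * (2 * q) = (2 * Y + 1) * q + q * (1 / (2 * Y)) := by rw [hμ]; field_simp; ring
    linarith
  have hent := le_ent_one_sub hε0 (show ε < 1 by linarith)
  -- the correction is largest at `m = ε`
  have hcoef : 0 ≤ log 2 * (1 / ε + 1 / (2 - ε)) - (Y + 1 / 4 + 1 / (4 * Y)) := by
    have hb : ε * (Y + 1 / 4 + 1 / (4 * Y)) ≤ 1 / 2 := by
      have h1 := cut_le hY
      rw [le_div_iff₀ (by nlinarith [sq_nonneg (Y - 4)])] at h1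
      have h2 : ε * (1 + 98 / 100 * (Y - 4) + 48 / 100 * (Y - 4) ^ 2) ≤ 2806 / 100000 :=
        le_trans (mul_le_mul_of_nonneg_right hcut (by nlinarith [sq_nonneg (Y - 4)])) h1
      have : 1 / (4 * Y) ≤ 1 / 16 := by gcongr; linarith
      nlinarith [mul_nonneg hε0.le (sq_nonneg (Y - 4))]
    have hl : 1 / 2 ≤ log 2 := by linarith [log_two_gt_d9]
    have : Y + 1 / 4 + 1 / (4 * Y) ≤ log 2 * (1 / ε) := by
      rw [mul_one_div, le_div_iff₀ hε0]; linarith
    have : 0 ≤ log 2 * (1 / (2 - ε)) :=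
      mul_nonneg (by linarith) (one_div_nonneg.2 (by linarith))
    linarith
  have hM : m ^ 2 ≤ ε ^ 2 := pow_le_pow_left₀ hm hmε.le 2
  have hcM := mul_le_mul_of_nonneg_right hM hcoef
  -- the function of `ε` which remains
  have key := high_key hY hlo hcut
  rw [← hq, ← hμ] at key
  rw [negMulLog] at key
  have hrat : log 2 / (2 - ε) + 1 / 4 + ε / 8 ≤ 62 / 100 + (1 / (4 * Y)) := by
    have : log 2 / (2 - ε) ≤ 6932 / 10000 / (19 / 10) :=
      div_le_div₀ (by norm_num) (by linarith [log_two_lt_d9]) (by norm_num) (by linarith)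
    linarith [show 0 ≤ 1 / (4 * Y) by positivity]
  have h10 := mul_le_mul_of_nonneg_left hrat (sq_nonneg ε)
  have e : ε ^ 2 * (log 2 * (1 / ε + 1 / (2 - ε))) = ε * log 2 + ε ^ 2 * (log 2 / (2 - ε)) := by
    have : (2 : ℝ) - ε ≠ 0 := by linarith
    field_simp
  linarith

/-- `1 - σ ≤ 1 - d ≤ 4 q` with `m` small: the chord bound -/
lemma case_corner_pair {m ε Y : ℝ} (hY : 4 ≤ Y) (hm : 0 ≤ m) (hmε : m < ε)
    (hhi : ε ≤ 4 * exp (-(2 * Y))) (hdσ : 1 - ε ≤ tanh Y)
    (hcase : m ^ 2 ≤ 4 * ε * (ε - (1 - tanh Y))) :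
    gTwo m (ent (tanh Y)) ≤ rhs m (1 - ε) (ent (tanh Y)) := by
  have hY0 : 0 < Y := by linarith
  obtain ⟨hq1, hq2⟩ := q_le hY
  have hq0 := exp_pos (-(2 * Y))
  have hσ := tanh_mem hY0
  have hHle := ent_tanh_le hY0.le
  set q := exp (-(2 * Y)) with hqdef
  set δ := 1 - tanh Y with hδ
  have hδe : δ = 2 * q / (1 + q) := by rw [hδ, tanh_eq_q, ← hqdef]; field_simp; ring
  have hδ1 : δ ≤ 2 * q := by rw [hδe]; exact div_le_self (by linarith) (by linarith)
  have hδ2 : 2 * q * (1 - q) ≤ δ := by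
    rw [hδe, le_div_iff₀ (by linarith)]; nlinarith [pow_nonneg hq0.le 3]
  set v := ε - δ with hv
  have hv0 : 0 ≤ v := by linarith
  set H := ent (tanh Y) with hHdef
  have hH0 : 0 < H := ent_pos (by linarith [hσ.1]) hσ.2
  refine case_pair hY hm hmε (by linarith) hdσ ?_
  set μ := Y + 1 / 2 + 1 / (4 * Y) with hμ
  have hμ1 : μ ≤ Y + 9 / 16 := by
    have : 1 / (4 * Y) ≤ 1 / 16 := by gcongr; linarith
    linarith
  have hε0 : 0 < ε := by linarith
  -- chord between `δ` and `4 q`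
  have hend : (Y - 1) * (4 * q - δ) ≤ 2 * ent (1 - 4 * q) - 2 * H - μ * (4 * q - δ) := by
    have h := le_ent_one_sub (show 0 < 4 * q by linarith) (show 4 * q < 1 by linarith)
    rw [log_mul (by norm_num) hq0.ne', hqdef, log_exp, ← hqdef,
      show (4 : ℝ) = 2 ^ 2 by norm_num, log_pow] at h
    push_cast at h
    have l2 : log 2 ≤ 6932 / 10000 := by linarith [log_two_lt_d9]
    have a : (Y - 1 + μ) * (4 * q - δ) ≤ (2 * Y - 7 / 16) * (2 * q + 2 * q ^ 2) :=
      mul_le_mul (by linarith) (by linarith) (by linarith) (by linarith)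
    have b : q ^ 2 * (4 * Y + 8) ≤ q * (1 / 12) := by
      have h' : 3 * (4 * Y + 8) ≤ 2 * Y * (2 * Y + 1) := by nlinarith only [hY]
      have h'' := mul_le_mul_of_nonneg_left h' hq0.le
      have hq' := q_le' hY
      rw [← hqdef] at hq'
      have := mul_le_mul_of_nonneg_left (show q * (4 * Y + 8) ≤ 1 / 12 by linarith) hq0.le
      linarith
    nlinarith [mul_nonneg hq0.le (sub_nonneg.2 hY), mul_nonneg hq0.le (sub_nonneg.2 l2),
      pow_nonneg hq0.le 3, mul_le_mul_of_nonneg_right hq1 (sq_nonneg q)]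
  have hw : 0 < 4 * q - δ := by linarith
  set l := v / (4 * q - δ) with hl
  have hl0 : 0 ≤ l := div_nonneg hv0 hw.le
  have hl1 : l ≤ 1 := by rw [hl, div_le_one hw]; linarith
  have hδ0 : 0 < δ := by linarith [hσ.2]
  have hch := ent_chord (x := tanh Y) (y := 1 - 4 * q)
    (abs_lt.2 ⟨by linarith [hσ.1], hσ.2⟩) (abs_lt.2 ⟨by linarith, by linarith⟩) hl0 hl1
  have el : l * (4 * q - δ) = v := div_mul_cancel₀ _ hw.ne'
  have hte : tanh Y + δ - 1 = 0 := by rw [hδ]; ring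
  rw [show (1 - l) * tanh Y + l * (1 - 4 * q) = 1 - ε by
    rw [hv] at el; linear_combination (-1 : ℝ) * el + (1 - l) * hte, ← hHdef] at hch
  have hmain : (Y - 1 + μ) * v + 2 * H ≤ 2 * ent (1 - ε) := by
    have := mul_le_mul_of_nonneg_left hend hl0
    have e : l * ((Y - 1) * (4 * q - δ)) = (Y - 1) * v := by
      linear_combination (Y - 1) * el
    have e' : l * (μ * (4 * q - δ)) = μ * v := by linear_combination μ * el
    linarith
  have hcoef : m ^ 2 * (log 2 * (1 / ε + 1 / (2 - ε))) ≤ 3 * v := by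
    have h2 : 0 < 2 - ε := by linarith
    have a : log 2 * (1 / ε + 1 / (2 - ε)) * ε ≤ 7 / 10 * (51 / 50) := by
      rw [mul_assoc]
      refine mul_le_mul (by linarith [log_two_lt_d9]) ?_ (by positivity) (by norm_num)
      rw [add_mul, one_div_mul_cancel hε0.ne', one_div_mul_eq_div, ← le_sub_iff_add_le',
        div_le_iff₀ h2]
      linarith
    have b := mul_le_mul_of_nonneg_right hcase
      (mul_nonneg (log_nonneg one_le_two) (show 0 ≤ 1 / ε + 1 / (2 - ε) by positivity))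
    nlinarith [mul_le_mul_of_nonneg_left a hv0]
  have hY3 := mul_le_mul_of_nonneg_right (show 3 ≤ Y - 1 by linarith) hv0
  have := mul_nonneg (sq_nonneg m) (show 0 ≤ Y + 1 / 4 + 1 / (4 * Y) by positivity)
  linarith

lemma corner_main {Y q δ v : ℝ} (hY : 4 ≤ Y) (hq0 : 0 < q) (hq1 : q ≤ 1 / 2900)
    (hqY : q * Y ≤ 1 / 16) (hδ1 : δ ≤ 2 * q) (hδ2 : 2 * q * (1 - q) ≤ δ) (hv0 : 0 ≤ v)
    (hv4 : δ + v ≤ 4 * q) :
    (δ + v) ^ 2 - 4 * (δ + v) * v * (1 - q ^ 2) ≤ (δ - q * v) ^ 2 * (1 - 41 / 10 * Y * v) := by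
  have hY0 : 0 ≤ Y := by linarith only [hY]
  have hqδ : q ≤ δ := by nlinarith only [hδ2, hq0, hq1]
  have hδ0 : 0 ≤ δ := by linarith only [hqδ, hq0]
  have hv1 : v ≤ 1 := by linarith only [hv4, hδ0, hq1]
  have hqv : q * v ≤ δ := by
    linarith only [mul_le_mul_of_nonneg_left hv1 hq0.le, hqδ]
  have h1 : (δ - q * v) ^ 2 * (41 / 10 * Y * v) ≤ δ ^ 2 * (41 / 10 * Y * v) :=
    mul_le_mul_of_nonneg_right (pow_le_pow_left₀ (by linarith only [hqv])
      (by linarith only [mul_nonneg hq0.le hv0]) 2) (by positivity)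
  have a : Y * δ ^ 2 ≤ δ * (1 / 8) := by
    have := mul_le_mul_of_nonneg_left hδ1 (mul_nonneg hY0 hδ0)
    have := mul_le_mul_of_nonneg_left hqY hδ0
    linarith
  have b : 4 * q ^ 2 * (δ + v) ≤ δ * (1 / 10) := by
    have : 4 * q * (δ + v) ≤ 1 / 10 := by
      linarith only [mul_le_mul_of_nonneg_left hv4 hq0.le, mul_le_mul_of_nonneg_left hq1 hq0.le,
        hq1]
    have := mul_le_mul_of_nonneg_left this hq0.le
    linarith
  have c : 2 * q * δ ≤ δ * (1 / 10) := by
    linarith only [mul_le_mul_of_nonneg_left hq1 hδ0, hδ0]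
  have h3 := mul_le_mul_of_nonneg_left
    (show 41 / 10 * Y * δ ^ 2 + 4 * q ^ 2 * (δ + v) + 2 * q * δ ≤ 2 * δ by
      linarith only [a, b, c, hδ0]) hv0
  linarith only [h1, h3, sq_nonneg v, mul_nonneg (sq_nonneg q) (sq_nonneg v)]

lemma kerMD_corner {m ε : ℝ} (hm : 0 ≤ m) (hmε : m < ε) (hε : ε < 1) :
    kerMD m (1 - ε) = (1 - ε) / 4 * (log ((2 - ε) ^ 2 - m ^ 2) - log (ε ^ 2 - m ^ 2)) := by
  rw [kerMD, ker, artanh_eq (by linarith) (by linarith), artanh_eq (by linarith) (by linarith),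
    show (2 - ε) ^ 2 - m ^ 2 = (1 + (m + (1 - ε))) * (1 - (m - (1 - ε))) by ring,
    show ε ^ 2 - m ^ 2 = (1 - (m + (1 - ε))) * (1 + (m - (1 - ε))) by ring,
    log_mul (by linarith) (by linarith), log_mul (by linarith) (by linarith)]
  ring

lemma exp_corner_le {ε Y : ℝ} (hY0 : 0 < Y) (hhi : ε ≤ 4 * exp (-(2 * Y)))
    (hq1 : exp (-(2 * Y)) ≤ 1 / 2900) (hv0 : 0 ≤ ε - (1 - tanh Y)) (hd0 : 0 < 1 - ε) :
    exp (-(2 * Y)) ^ 2 * (1 - 41 / 10 * Y * (ε - (1 - tanh Y))) ≤
      exp (-(4 * (tanh Y * Y) / (1 - ε))) := by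
  set v := ε - (1 - tanh Y) with hv
  have e : exp (-(4 * (tanh Y * Y) / (1 - ε))) =
      exp (-(2 * Y)) ^ 2 * exp (-(4 * Y * v / (1 - ε))) := by
    rw [sq, ← exp_add, ← exp_add]
    congr 1
    rw [show tanh Y = 1 - ε + v by rw [hv]; ring]
    field_simp
    ring
  rw [e]
  refine mul_le_mul_of_nonneg_left ?_ (sq_nonneg _)
  have h1 := add_one_le_exp (-(4 * Y * v / (1 - ε)))
  have h2 : 4 * Y * v / (1 - ε) ≤ 41 / 10 * Y * v := by
    rw [div_le_iff₀ hd0]
    linarith only [mul_nonneg (mul_nonneg hY0.le hv0) (sub_nonneg.2 hhi),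
      mul_nonneg (mul_nonneg hY0.le hv0) (sub_nonneg.2 hq1), mul_nonneg hY0.le hv0]
  linarith

/-- `1 - σ ≤ 1 - d ≤ 4 q` with `m` large: the kernel bound -/
lemma case_corner_ker {m ε Y : ℝ} (hY : 4 ≤ Y) (hm : 0 ≤ m) (hmε : m < ε)
    (hhi : ε ≤ 4 * exp (-(2 * Y))) (hdσ : 1 - ε ≤ tanh Y)
    (hH : ent (tanh Y) ≤ (ent (m + (1 - ε)) + ent (m - (1 - ε))) / 2)
    (hcase : 4 * ε * (ε - (1 - tanh Y)) < m ^ 2) :
    gTwo m (ent (tanh Y)) ≤ rhs m (1 - ε) (ent (tanh Y)) := by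
  have hY0 : 0 < Y := by linarith
  obtain ⟨hq1, hq2⟩ := q_le hY
  have hq0 := exp_pos (-(2 * Y))
  have hσ := tanh_mem hY0
  have hHle := ent_tanh_le hY0.le
  set q := exp (-(2 * Y)) with hqdef
  set δ := 1 - tanh Y with hδ
  have hδe : δ = 2 * q / (1 + q) := by rw [hδ, tanh_eq_q, ← hqdef]; field_simp; ring
  have hδ1 : δ ≤ 2 * q := by rw [hδe]; exact div_le_self (by linarith) (by linarith)
  have hδ2 : 2 * q * (1 - q) ≤ δ := by
    rw [hδe, le_div_iff₀ (by linarith)]; nlinarith [pow_nonneg hq0.le 3]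
  set v := ε - δ with hv
  have hv0 : 0 ≤ v := by linarith
  set H := ent (tanh Y) with hHdef
  have hH0 : 0 < H := ent_pos (by linarith [hσ.1]) hσ.2
  have hε0 : 0 < ε := by linarith
  have hd0 : 0 < 1 - ε := by linarith
  have hmd : m + (1 - ε) < 1 := by linarith
  have hG : gTwo m H ≤ tanh Y * Y := by
    have := gTwo_le_tail hY hm (show m ≤ 1 / 4 by linarith)
    linarith [mul_nonneg (sq_nonneg m) (show 0 ≤ Y + 1 / 4 + 1 / (4 * Y) by positivity)]
  have hmean := meanBound_ge hm hd0.le hmd hH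
  have hA : 0 ≤ avgBound (m + (1 - ε)) (m - (1 - ε)) H := by
    refine le_trans ?_ (persp_le_avgBound m (1 - ε) H)
    have hg := gbar_pos hm hd0.le hmd
    exact mul_nonneg hg.le (curve_nonneg (div_pos hH0 hg))
  have hw0 : 0 ≤ min (1 / 2) ((1 - ε) ^ 2 / (1 - m ^ 2)) *
      ((ent (m + (1 - ε)) + ent (m - (1 - ε))) / 2 - H) :=
    mul_nonneg (le_min (by norm_num) (div_nonneg (sq_nonneg _) (by nlinarith))) (by linarith)
  suffices hK : tanh Y * Y ≤ kerMD m (1 - ε) by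
    unfold rhs
    linarith [le_max_left (meanBound (m + (1 - ε)) (m - (1 - ε)) H) (pairBound (1 - ε) H)]
  have hA1 : 0 < ε ^ 2 - m ^ 2 := by nlinarith
  have hA2 : 0 < (2 - ε) ^ 2 - m ^ 2 := by nlinarith
  have eK := kerMD_corner hm hmε (show ε < 1 by linarith)
  rw [eK]
  suffices hle : ε ^ 2 - m ^ 2 ≤
      ((2 - ε) ^ 2 - m ^ 2) * exp (-(4 * (tanh Y * Y) / (1 - ε))) by
    have := log_le_log hA1 hle
    rw [log_mul hA2.ne' (exp_pos _).ne', log_exp] at this
    have e : (1 - ε) / 4 * (4 * (tanh Y * Y) / (1 - ε)) = tanh Y * Y := by field_simp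
    have h4 := mul_le_mul_of_nonneg_left this (show 0 ≤ (1 - ε) / 4 by linarith)
    linarith
  set E := q ^ 2 * (1 - 41 / 10 * Y * v) with hE
  have hEle : E ≤ exp (-(4 * (tanh Y * Y) / (1 - ε))) := exp_corner_le hY0 hhi hq1 hv0 hd0
  have hEq : E ≤ q ^ 2 := by
    rw [hE]
    exact mul_le_of_le_one_right (sq_nonneg q)
      (by linarith [mul_nonneg (mul_nonneg (show (0 : ℝ) ≤ 41 / 10 by norm_num) hY0.le) hv0])
  have hmain : ε ^ 2 - 4 * ε * v * (1 - q ^ 2) ≤ (2 - ε) ^ 2 * E := by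
    have e1 : (2 - ε) * q = δ - q * v := by
      have : δ * (1 + q) = 2 * q := by rw [hδe]; field_simp
      rw [hv]; linear_combination (-1 : ℝ) * this
    have hqY : q * Y ≤ 1 / 16 := by
      have h' := mul_le_mul_of_nonneg_left (show 8 * Y ≤ 2 * Y * (2 * Y + 1) by
        nlinarith only [hY]) hq0.le
      have hq' := q_le' hY
      rw [← hqdef] at hq'
      linarith only [h', hq', hq2, mul_pos hq0 hY0]
    have := corner_main hY hq0 hq1 hqY hδ1 hδ2 hv0 (show δ + v ≤ 4 * q by linarith only [hhi, hv])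
    rw [show δ + v = ε by rw [hv]; ring, ← e1] at this
    rw [hE]
    linarith only [this]
  refine le_trans ?_ (mul_le_mul_of_nonneg_left hEle hA2.le)
  have h5 := mul_le_mul_of_nonneg_right hcase.le (show 0 ≤ 1 - q ^ 2 by nlinarith)
  have h6 := mul_le_mul_of_nonneg_left hEq (sq_nonneg m)
  linarith

/-- `1 - σ ≤ 1 - d ≤ 4 q` -/
lemma case_corner {m ε Y : ℝ} (hY : 4 ≤ Y) (hm : 0 ≤ m) (hmε : m < ε)
    (hhi : ε ≤ 4 * exp (-(2 * Y))) (hdσ : 1 - ε ≤ tanh Y)
    (hH : ent (tanh Y) ≤ (ent (m + (1 - ε)) + ent (m - (1 - ε))) / 2) :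
    gTwo m (ent (tanh Y)) ≤ rhs m (1 - ε) (ent (tanh Y)) := by
  by_cases hcase : m ^ 2 ≤ 4 * ε * (ε - (1 - tanh Y))
  · exact case_corner_pair hY hm hmε hhi hdσ hcase
  · exact case_corner_ker hY hm hmε hhi hdσ hH (not_le.1 hcase)

end Vale.Agent.P322.Tail

namespace Vale.Agent.P322

open Real Set Tail

/-- The second hypothesis for `σ = entInv H` near one. -/
theorem scalar_two_tail {m d σ : ℝ} (hm : 0 ≤ m) (hd : 0 ≤ d) (hmd : m + d < 1)
    (hσ : 1499 / 1500 ≤ σ) (hσ1 : σ < 1)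
    (hH' : ent σ ≤ (ent (m + d) + ent (m - d)) / 2) : ScalarCase gTwo m d (ent σ) := by
  have hY := four_le_artanh hσ hσ1
  set Y := artanh σ with hYdef
  have eσ : tanh Y = σ := tanh_artanh ⟨by linarith, hσ1⟩
  rw [← eσ] at hH' ⊢
  change gTwo m (ent (tanh Y)) ≤ rhs m d (ent (tanh Y))
  by_cases h1 : d ≤ 1 - 1 / Y
  · exact case_small hY hm hd hmd h1
  rw [not_le] at h1
  have hdσ : d ≤ tanh Y := by
    by_contra hc
    have := ent_strictAntiOn ⟨(tanh_mem (show 0 < Y by linarith)).1.le, (tanh_lt_one Y).le⟩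
      ⟨hd, by linarith⟩ (not_le.1 hc)
    linarith [avg_ent_le hm hd hmd]
  obtain ⟨ε, rfl⟩ : ∃ ε, d = 1 - ε := ⟨1 - d, by ring⟩
  by_cases h2 : cut Y ≤ ε
  · exact case_mid hY hm (by linarith) h2 (by linarith) hdσ
  by_cases h3 : 4 * exp (-(2 * Y)) ≤ ε
  · exact case_high hY hm (by linarith) h3 (not_le.1 h2).le hdσ
  exact case_corner hY hm (by linarith) (not_le.1 h3).le hdσ hH'

end Vale.Agent.P322
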