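import Vale.Agent.P322.Scalar.Assembly
import Vale.Agent.P322.Scalar.Box.One
import Vale.Agent.P322.Scalar.Slice
import Vale.Agent.P322.Scalar.SmallTwo
import Vale.Agent.P322.Scalar.Box.Two
import Vale.Agent.P322.Scalar.Tail

/-!
The two covers from the regime statements: bands in the parameter `s`, each split in `d` into
a small part, a rectangle with a corner table, and the corner part.
-/

namespace Vale.Agent.P322

open Real Set

/-- `phi d ≤ gapPhi m d`: the gap is smallest at mean zero. -/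
lemma phi_le_gapPhi {m d : ℝ} (hm : 0 ≤ m) (hd : 0 ≤ d) (hmd : m + d < 1) :
    phi d ≤ gapPhi m d := by
  have key : ∀ t ∈ Icc 0 d, artanh t ≤ halfDiff m t := by
    intro t ht
    refine le_of_hasDerivAt_le (f := artanh) (g := halfDiff m) (f' := fun u => 1 / (1 - u ^ 2))
      (g' := pairF m) ht.1
      (fun u hu => hasDerivAt_artanh' (by linarith [hu.1]) (by linarith [hu.2, ht.2]))
      (fun u hu => hasDerivAt_halfDiff hm hu.1 (by linarith [hu.2, ht.2])) (by simp) ?_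
    intro u hu
    have h1 : m + u < 1 := by linarith [hu.2, ht.2]
    obtain ⟨P, Q⟩ := one_sub_sq_pos_pair hm hu.1.le h1
    have h0 : 0 < 1 - u ^ 2 := one_sub_sq_pos (by linarith [hu.1]) (by linarith)
    rw [pairF]
    have e : (1 / (1 - (m + u) ^ 2) + 1 / (1 - (m - u) ^ 2)) / 2 =
        ((1 - (m + u) ^ 2) + (1 - (m - u) ^ 2)) / 2 / ((1 - (m + u) ^ 2) * (1 - (m - u) ^ 2)) := by
      field_simp; ring
    rw [e, div_le_div_iff₀ h0 (mul_pos P Q), one_mul]
    have hav : ((1 - (m + u) ^ 2) + (1 - (m - u) ^ 2)) / 2 ≤ 1 - u ^ 2 := by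
      nlinarith [sq_nonneg m]
    have := mul_le_mul_of_nonneg_left hav
      (show 0 ≤ ((1 - (m + u) ^ 2) + (1 - (m - u) ^ 2)) / 2 by linarith)
    nlinarith [sq_nonneg ((1 - (m + u) ^ 2) - (1 - (m - u) ^ 2))]
  exact le_of_hasDerivAt_le (f := phi) (g := gapPhi m) (f' := artanh) (g' := halfDiff m) hd
    (fun t ht => hasDerivAt_phi (by linarith [ht.1]) (by linarith [ht.2]))
    (fun t ht => hasDerivAt_gapPhi hm ht.1 (by linarith [ht.2])) (by simp)
    (fun t ht => key t ⟨ht.1.le, ht.2.le⟩)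

/-- the half difference is at most the parameter of the information level -/
lemma diff_le_param_one {m d s : ℝ} (hm : 0 ≤ m) (hd : 0 ≤ d) (hmd : m + d < 1) (hs : 0 ≤ s)
    (h : gapPhi m d ≤ phi s) : d ≤ s := by
  by_contra hc
  have h1 := ent_strictAntiOn ⟨hs, by linarith⟩ ⟨hd, by linarith⟩ (not_le.1 hc)
  have h2 := phi_le_gapPhi hm hd hmd
  unfold ent at h1
  linarith

/-- the half difference is at most the parameter of the entropy -/
lemma diff_le_param_two {m d s : ℝ} (hm : 0 ≤ m) (hd : 0 ≤ d) (hmd : m + d < 1) (hs : 0 ≤ s)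
    (h : ent s ≤ (ent (m + d) + ent (m - d)) / 2) : d ≤ s := by
  refine diff_le_param_one hm hd hmd hs ?_
  have := phi_nonneg (show -1 ≤ m by linarith) (by linarith)
  unfold ent at h
  unfold gapPhi
  linarith

/-! ## The first hypothesis -/

/-- the first hypothesis holds at `(m, d, s)` -/
def HoldsOne (m d s : ℝ) : Prop := ScalarCase gOne m d (ent s - phi m)

/-- the domain of the first hypothesis -/
def DomOne (m d s : ℝ) : Prop :=
  0 ≤ m ∧ 0 ≤ d ∧ m + d < 1 ∧ 4 / 25 < phi s ∧ s < 91 / 100 ∧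
    0 < ent s - phi m ∧ gapPhi m d ≤ phi s

/-- the first hypothesis on a band `sl ≤ s ≤ sh` -/
def BandOne (sl sh : ℝ) : Prop := ∀ m d s, DomOne m d s → sl ≤ s → s ≤ sh → HoldsOne m d s

/-- small half difference -/
def SliceOne (sl sh d1 : ℝ) : Prop :=
  ∀ m d s, DomOne m d s → sl ≤ s → s ≤ sh → d ≤ d1 → HoldsOne m d s

/-- the rectangle, off the corner table -/
def RectOne (tbl : List Box.Row) (sl sh dl dh : ℝ) : Prop :=
  ∀ m d s, DomOne m d s → sl ≤ s → s ≤ sh → dl ≤ d → d ≤ dh →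
    (∀ w ∈ tbl, (w.s0 : ℝ) ≤ s → s ≤ w.s1 → d < w.dc) → HoldsOne m d s

/-- the corner part -/
def CornerOne (tbl : List Box.Row) : Prop :=
  ∀ w ∈ tbl, ∀ m d s, DomOne m d s → (w.s0 : ℝ) ≤ s → s ≤ w.s1 → (w.dc : ℝ) ≤ d → HoldsOne m d s

lemma BandOne.union {a b c : ℝ} (h₁ : BandOne a b) (h₂ : BandOne b c) : BandOne a c :=
  fun m d s hD ha hc => (le_total s b).elim (h₁ m d s hD ha) (fun h => h₂ m d s hD h hc)

lemma bandOne_of_regimes {tbl : List Box.Row} {sl sh d1 dh : ℝ} (h0 : 0 ≤ sl) (hdh : sh ≤ dh)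
    (hsl : SliceOne sl sh d1) (hrect : RectOne tbl sl sh d1 dh) (hcor : CornerOne tbl) :
    BandOne sl sh := by
  intro m d s hD h1 h2
  rcases le_total d d1 with hd | hd
  · exact hsl m d s hD h1 h2 hd
  by_cases h : ∀ w ∈ tbl, (w.s0 : ℝ) ≤ s → s ≤ w.s1 → d < w.dc
  · refine hrect m d s hD h1 h2 hd ?_ h
    obtain ⟨hm, hd0, hmd, -, -, -, hg⟩ := hD
    linarith [diff_le_param_one hm hd0 hmd (h0.trans h1) hg]
  · push Not at h
    obtain ⟨w, hw, e1, e2, e3⟩ := h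
    exact hcor w hw m d s hD e1 e2 e3

/-- The first cover from one band reaching from below the switch to `91 / 100`. -/
theorem coverOne_of_band {sl sh : ℝ} (h0 : 0 ≤ sl) (h1 : sl ≤ 1) (hlo : phi sl ≤ 4 / 25)
    (hhi : 91 / 100 ≤ sh) (h : BandOne sl sh) : CoverOne := by
  intro m d s hm hd hmd hs hs' hp hH hg
  refine h m d s ⟨hm, hd, hmd, hp, hs', hH, hg⟩ ?_ (by linarith)
  by_contra hc
  have := Low.phi_mono hs (not_le.1 hc).le h1
  linarith

lemma phi_5495_le : phi (5495 / 10000) ≤ 4 / 25 := by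
  have h := Num.le_phiHi (s := 5495 / 10000) (by norm_num) (by norm_num)
  have e : Num.phiHi (5495 / 10000) ≤ 4 / 25 := by decide +kernel
  have : ((Num.phiHi (5495 / 10000) : ℚ) : ℝ) ≤ ((4 / 25 : ℚ) : ℝ) := by exact_mod_cast e
  push_cast at h this
  linarith

/-- The first cover from three bands with common corner table. -/
theorem coverOne_of_regimes (tbl : List Box.Row) (a b c e d₁ d₂ d₃ h₁ h₂ h₃ : ℚ)
    (hord : 0 ≤ a ∧ a ≤ 5495 / 10000 ∧ a ≤ b ∧ b ≤ c ∧ 91 / 100 ≤ e ∧ b ≤ h₁ ∧ c ≤ h₂ ∧ e ≤ h₃)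
    (s₁ : SliceOne a b d₁) (s₂ : SliceOne b c d₂) (s₃ : SliceOne c e d₃)
    (r₁ : RectOne tbl a b d₁ h₁) (r₂ : RectOne tbl b c d₂ h₂) (r₃ : RectOne tbl c e d₃ h₃)
    (hcor : CornerOne tbl) : CoverOne := by
  obtain ⟨ha0, ha, hab, hbc, he, e1, e2, e3⟩ := hord
  have a0 : (0 : ℝ) ≤ a := by exact_mod_cast ha0
  have a1 : (a : ℝ) ≤ 5495 / 10000 := by
    have : (a : ℝ) ≤ ((5495 / 10000 : ℚ) : ℝ) := by exact_mod_cast ha
    simpa using this
  have ab : (a : ℝ) ≤ b := by exact_mod_cast hab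
  have bc : (b : ℝ) ≤ c := by exact_mod_cast hbc
  have he' : (91 / 100 : ℝ) ≤ e := by
    have : ((91 / 100 : ℚ) : ℝ) ≤ e := by exact_mod_cast he
    simpa using this
  refine coverOne_of_band a0 (by linarith) ?_ he' (((bandOne_of_regimes a0 (by exact_mod_cast e1) s₁ r₁ hcor).union
    (bandOne_of_regimes (by linarith) (by exact_mod_cast e2) s₂ r₂ hcor)).union
    (bandOne_of_regimes (by linarith) (by exact_mod_cast e3) s₃ r₃ hcor))
  exact (Low.phi_mono a0 a1 (by norm_num)).trans phi_5495_le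

/-! ## The second hypothesis -/

/-- the second hypothesis holds at `(m, d, s)` -/
def HoldsTwo (m d s : ℝ) : Prop := ScalarCase gTwo m d (ent s)

/-- the domain of the second hypothesis -/
def DomTwo (m d s : ℝ) : Prop :=
  0 ≤ m ∧ 0 ≤ d ∧ m + d < 1 ∧ 17 / 20 < s ∧ s < 1 ∧ ent s ≤ (ent (m + d) + ent (m - d)) / 2

/-- the second hypothesis on a band `sl ≤ s ≤ sh` -/
def BandTwo (sl sh : ℝ) : Prop := ∀ m d s, DomTwo m d s → sl ≤ s → s ≤ sh → HoldsTwo m d s

/-- small half difference -/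
def SliceTwo (sl sh d1 : ℝ) : Prop :=
  ∀ m d s, DomTwo m d s → sl ≤ s → s ≤ sh → d ≤ d1 → HoldsTwo m d s

/-- the rectangle, off the corner table -/
def RectTwo (tbl : List Box.Row) (sl sh dl dh : ℝ) : Prop :=
  ∀ m d s, DomTwo m d s → sl ≤ s → s ≤ sh → dl ≤ d → d ≤ dh →
    (∀ w ∈ tbl, (w.s0 : ℝ) ≤ s → s ≤ w.s1 → d < w.dc) → HoldsTwo m d s

/-- the corner part -/
def CornerTwo (tbl : List Box.Row) : Prop :=
  ∀ w ∈ tbl, ∀ m d s, DomTwo m d s → (w.s0 : ℝ) ≤ s → s ≤ w.s1 → (w.dc : ℝ) ≤ d → HoldsTwo m d s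

/-- the tail near one -/
def TailTwo (st : ℝ) : Prop := ∀ m d s, DomTwo m d s → st ≤ s → HoldsTwo m d s

lemma BandTwo.union {a b c : ℝ} (h₁ : BandTwo a b) (h₂ : BandTwo b c) : BandTwo a c :=
  fun m d s hD ha hc => (le_total s b).elim (h₁ m d s hD ha) (fun h => h₂ m d s hD h hc)

lemma bandTwo_of_regimes {tbl : List Box.Row} {sl sh d1 dh : ℝ} (h0 : 0 ≤ sl) (hdh : sh ≤ dh)
    (hsl : SliceTwo sl sh d1) (hrect : RectTwo tbl sl sh d1 dh) (hcor : CornerTwo tbl) :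
    BandTwo sl sh := by
  intro m d s hD h1 h2
  rcases le_total d d1 with hd | hd
  · exact hsl m d s hD h1 h2 hd
  by_cases h : ∀ w ∈ tbl, (w.s0 : ℝ) ≤ s → s ≤ w.s1 → d < w.dc
  · refine hrect m d s hD h1 h2 hd ?_ h
    obtain ⟨hm, hd0, hmd, -, -, hg⟩ := hD
    linarith [diff_le_param_two hm hd0 hmd (h0.trans h1) hg]
  · push Not at h
    obtain ⟨w, hw, e1, e2, e3⟩ := h
    exact hcor w hw m d s hD e1 e2 e3

/-- The second cover from a band and the tail. -/
theorem coverTwo_of_band {sl st : ℝ} (hlo : sl ≤ 17 / 20) (h : BandTwo sl st) (ht : TailTwo st) :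
    CoverTwo := by
  intro m d s hm hd hmd hs hs' hH
  rcases le_total s st with h' | h'
  · exact h m d s ⟨hm, hd, hmd, hs, hs', hH⟩ (by linarith) h'
  · exact ht m d s ⟨hm, hd, hmd, hs, hs', hH⟩ h'

/-! ## Instances -/

lemma sliceOne_18 {sl sh : ℝ} (h0 : 0 ≤ sl) : SliceOne sl sh (18 / 100) := by
  intro m d s ⟨hm, hd, hmd, hp, hs', hH, hg⟩ h1 _ h3
  exact scalar_one_slice hm hd hmd (h0.trans h1) hs' hp hH hg (Or.inl h3)

lemma sliceOne_22 {sl sh : ℝ} (h0 : 654 / 1000 ≤ sl) : SliceOne sl sh (22 / 100) := by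
  intro m d s ⟨hm, hd, hmd, hp, hs', hH, hg⟩ h1 _ h3
  exact scalar_one_slice hm hd hmd (by linarith) hs' hp hH hg (Or.inr (Or.inl ⟨h0.trans h1, h3⟩))

lemma sliceOne_30 {sl sh : ℝ} (h0 : 74 / 100 ≤ sl) : SliceOne sl sh (30 / 100) := by
  intro m d s ⟨hm, hd, hmd, hp, hs', hH, hg⟩ h1 _ h3
  exact scalar_one_slice hm hd hmd (by linarith) hs' hp hH hg (Or.inr (Or.inr ⟨h0.trans h1, h3⟩))

/-- A checked tree covers its rectangle. -/
lemma rectOne_of_okTree (tbl : List Box.Row) (t : Box.Tree Box.P1) (sl sh dl dh : ℚ)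
    (h : Box.okTree Box.chkOne tbl t sl sh dl dh = true) : RectOne tbl sl sh dl dh := by
  intro m d s ⟨hm, hd, hmd, _, _, hH, hg⟩ h1 h2 h3 h4 h5
  exact Box.okTreeOne_sound tbl t sl sh dl dh h s d h1 h2 h3 h4 h5 m hm hd hmd hH hg

lemma sliceTwo_small {a b dT r : ℚ} (hrow : (a, b, dT, r) ∈ smallTwoTable) :
    SliceTwo a b dT := by
  intro m d s ⟨hm, hd, hmd, _, _, _⟩ h1 h2 h3
  exact scalar_two_small hrow hm hd hmd h1 h2 h3 rfl

lemma sliceTwo_tail {sl sh : ℝ} (h0 : 19 / 20 ≤ sl) : SliceTwo sl sh (2 / 5) := by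
  intro m d s ⟨hm, hd, hmd, _, hs', _⟩ h1 _ h3
  exact scalar_two_small_tail hm hd h3 hmd (h0.trans h1) hs' rfl

lemma SliceTwo.mono {a b a' b' d1 d1' : ℝ} (h : SliceTwo a b d1) (ha : a ≤ a') (hb : b' ≤ b)
    (hd : d1' ≤ d1) : SliceTwo a' b' d1' :=
  fun m d s hD h1 h2 h3 => h m d s hD (ha.trans h1) (h2.trans hb) (h3.trans hd)

lemma SliceTwo.union {a b c d1 : ℝ} (h₁ : SliceTwo a b d1) (h₂ : SliceTwo b c d1) :
    SliceTwo a c d1 :=
  fun m d s hD h1 h2 h3 => (le_total s b).elim (fun h => h₁ m d s hD h1 h h3)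
    (fun h => h₂ m d s hD h h2 h3)

lemma SliceOne.mono {a b a' b' d1 d1' : ℝ} (h : SliceOne a b d1) (ha : a ≤ a') (hb : b' ≤ b)
    (hd : d1' ≤ d1) : SliceOne a' b' d1' :=
  fun m d s hD h1 h2 h3 => h m d s hD (ha.trans h1) (h2.trans hb) (h3.trans hd)

/-- A checked tree covers its rectangle, second hypothesis. -/
lemma rectTwo_of_okTree (tbl : List Box.Row) (t : Box.Tree BoxTwo.Piece) (sl sh dl dh : ℚ)
    (h : Box.okTree BoxTwo.chkTwo tbl t sl sh dl dh = true) : RectTwo tbl sl sh dl dh := by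
  intro m d s ⟨hm, hd, hmd, _, _, hH⟩ h1 h2 h3 h4 h5
  exact BoxTwo.okTreeTwo_sound tbl t sl sh dl dh h s d h1 h2 h3 h4 h5 m hm hd hmd hH

lemma tailTwo : TailTwo (1499 / 1500) := by
  intro m d s ⟨hm, hd, hmd, _, hs', hH⟩ h
  exact scalar_two_tail hm hd hmd h hs' hH

/-- rows of the small-difference table reaching from `cur` to `sh` with bound at least `d1` -/
def smallChain : List (ℚ × ℚ × ℚ × ℚ) → ℚ → ℚ → ℚ → Bool
  | [], cur, sh, _ => decide (sh ≤ cur)
  | w :: ws, cur, sh, d1 =>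
    decide (sh ≤ cur) ||
      (if w.1 ≤ cur ∧ cur ≤ w.2.1 ∧ d1 ≤ w.2.2.1 then smallChain ws w.2.1 sh d1
      else smallChain ws cur sh d1)

lemma smallChain_sound : ∀ (ws : List (ℚ × ℚ × ℚ × ℚ)), (∀ w ∈ ws, w ∈ smallTwoTable) →
    ∀ cur sh d1 : ℚ, smallChain ws cur sh d1 = true → (cur : ℝ) < sh → SliceTwo cur sh d1
  | [], _, cur, sh, d1, h, hlt => by
    simp only [smallChain, decide_eq_true_eq] at h
    have : (sh : ℝ) ≤ cur := by exact_mod_cast h
    linarith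
  | w :: ws, hmem, cur, sh, d1, h, hlt => by
    simp only [smallChain, Bool.or_eq_true, decide_eq_true_eq] at h
    rcases h with h | h
    · have : (sh : ℝ) ≤ cur := by exact_mod_cast h
      linarith
    have hws : ∀ v ∈ ws, v ∈ smallTwoTable := fun v hv => hmem v (List.mem_cons_of_mem _ hv)
    split_ifs at h with hc
    · obtain ⟨a, b, dT, r⟩ := w
      obtain ⟨h1, h2, h3⟩ := hc
      have h1' : (a : ℝ) ≤ cur := by exact_mod_cast h1
      have h3' : (d1 : ℝ) ≤ dT := by exact_mod_cast h3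
      have hrow := sliceTwo_small (hmem (a, b, dT, r) List.mem_cons_self)
      rcases le_or_gt (sh : ℝ) (b : ℝ) with hb | hb
      · exact hrow.mono h1' hb h3'
      · exact (hrow.mono h1' le_rfl h3').union (smallChain_sound ws hws b sh d1 h hb)
    · exact smallChain_sound ws hws cur sh d1 h hlt

/-- A band of the second hypothesis from a Boolean check of table, tree and bounds. -/
theorem bandTwo_of_checks (tbl : List Box.Row) (t : Box.Tree BoxTwo.Piece)
    (sl sh sh' d1 dh : ℚ) (hsl : smallChain smallTwoTable sl sh d1 = true)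
    (hord : 0 ≤ sl ∧ sl < sh ∧ sh ≤ sh' ∧ sh ≤ dh)
    (h : Box.okTree BoxTwo.chkTwo tbl t sl sh' d1 dh = true) (hcor : CornerTwo tbl) :
    BandTwo sl sh := by
  obtain ⟨h0, hlt, hsh, hdh⟩ := hord
  exact bandTwo_of_regimes (by exact_mod_cast h0) (by exact_mod_cast hdh)
    (smallChain_sound _ (fun _ h => h) sl sh d1 hsl (by exact_mod_cast hlt))
    (fun m d s hD h1 h2 => rectTwo_of_okTree tbl t sl sh' d1 dh h m d s hD h1
      (h2.trans (by exact_mod_cast hsh))) hcor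

end Vale.Agent.P322
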