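import Vale.Agent.P322.Scalar.CoverGlue
import Vale.Agent.P322.Scalar.Corner
import Vale.Agent.P322.Scalar.Box.CertOne
import Vale.Agent.P322.Scalar.Box.CertTwoA
import Vale.Agent.P322.Scalar.Box.CertTwoB

/-!
The two covers, and with them the Courtade-Kumar inequality.
-/

namespace Vale.Agent.P322

open Real Set

theorem coverOne : CoverOne := by
  refine coverOne_of_regimes cornerTableOne (5494 / 10000) (654 / 1000) (74 / 100) (9101 / 10000)
    (18 / 100) (22 / 100) (30 / 100) (654 / 1000) (74 / 100) (9101 / 10000) (by norm_num)
    ?_ ?_ ?_ (rectOne_of_okTree _ _ _ _ _ _ Box.checkOneA)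
    (rectOne_of_okTree _ _ _ _ _ _ Box.checkOneB) (rectOne_of_okTree _ _ _ _ _ _ Box.checkOneC)
    cornerOne
  · push_cast; exact sliceOne_18 (by norm_num)
  · push_cast; exact sliceOne_22 (by norm_num)
  · push_cast; exact sliceOne_30 (by norm_num)

theorem coverTwo : CoverTwo := by
  have A := bandTwo_of_checks cornerTableTwo _ (85 / 100) (9757 / 10000) (9757 / 10000) (41 / 100)
    (9757 / 10000) (by decide +kernel) (by norm_num) Box.checkTwoA cornerTwo
  have B := bandTwo_of_checks cornerTableTwo _ (9757 / 10000) (99101 / 100000) (99101 / 100000)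
    (68 / 100) (99101 / 100000) (by decide +kernel) (by norm_num) Box.checkTwoB cornerTwo
  have C := bandTwo_of_checks cornerTableTwo _ (99101 / 100000) (99777 / 100000) (99777 / 100000)
    (74 / 100) (99777 / 100000) (by decide +kernel) (by norm_num) Box.checkTwoC cornerTwo
  have D := bandTwo_of_checks cornerTableTwo _ (99777 / 100000) (1499 / 1500) (999335 / 1000000)
    (80 / 100) (999335 / 1000000) (by decide +kernel) (by norm_num) Box.checkTwoD cornerTwo
  have h := ((A.union B).union C).union D
  refine coverTwo_of_band (st := 1499 / 1500) ?_ (by push_cast at h; exact h) tailTwo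
  norm_num

/-- The scalar two-point inequality. -/
theorem scalarTwoPoint : ScalarTwoPoint := scalarTwoPoint_of_covers coverOne coverTwo

/-- The Courtade-Kumar inequality. -/
theorem courtadeKumar : CourtadeKumar := courtadeKumar_of_covers coverOne coverTwo

end Vale.Agent.P322
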