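import Vale.Agent.P322.Scalar.Defs

/-!
Geometry of a single pair `m + d`, `m - d`: bounds on `gapPhi`, `kerMD`, `meanBound`,
the derivative of `curve`, and the one-pair case of the induction step.
-/

namespace Vale.Agent.P322

open Real Set

/-- half the difference of `artanh` at the pair; the `d`-derivative of `gapPhi` -/
noncomputable def halfDiff (m d : ℝ) : ℝ := (artanh (m + d) - artanh (m - d)) / 2

/-- the average of `1 / (1 - u ^ 2)` over the pair; the `d`-derivative of `halfDiff` -/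
noncomputable def pairF (m d : ℝ) : ℝ := (1 / (1 - (m + d) ^ 2) + 1 / (1 - (m - d) ^ 2)) / 2

/-- the product of `1 - u ^ 2` over the pair -/
def pairPQ (m d : ℝ) : ℝ := (1 - (m + d) ^ 2) * (1 - (m - d) ^ 2)

lemma pairPQ_eq (m d : ℝ) :
    pairPQ m d = (1 - m ^ 2) ^ 2 - 2 * d ^ 2 * (1 + m ^ 2) + d ^ 4 := by
  unfold pairPQ; ring

/-- comparison of two functions through their derivatives -/
lemma le_of_hasDerivAt_le {f g f' g' : ℝ → ℝ} {a b : ℝ} (hab : a ≤ b)
    (hf : ∀ t ∈ Icc a b, HasDerivAt f (f' t) t) (hg : ∀ t ∈ Icc a b, HasDerivAt g (g' t) t)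
    (h0 : f a ≤ g a) (h : ∀ t ∈ Ioo a b, f' t ≤ g' t) : f b ≤ g b := by
  have key : MonotoneOn (fun t => g t - f t) (Icc a b) := by
    apply monotoneOn_of_hasDerivWithinAt_nonneg (f' := fun t => g' t - f' t) (convex_Icc a b)
      (fun t ht => ((hg t ht).sub (hf t ht)).continuousAt.continuousWithinAt)
      (fun t ht => ((hg t (interior_subset ht)).sub (hf t (interior_subset ht))).hasDerivWithinAt)
    intro t ht
    rw [interior_Icc] at ht
    exact sub_nonneg.2 (h t ht)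
  have := key ⟨le_rfl, hab⟩ ⟨hab, le_rfl⟩ hab
  simp only at this
  linarith

section basic

variable {m d : ℝ}

lemma pair_bounds (hm : 0 ≤ m) (hd : 0 ≤ d) (hmd : m + d < 1) :
    (-1 < m + d ∧ m + d < 1) ∧ (-1 < m - d ∧ m - d < 1) :=
  ⟨⟨by linarith, hmd⟩, by linarith, by linarith⟩

lemma pair_mem (_ : 0 ≤ m) (hmd : m + d < 1) {t : ℝ} (ht : t ∈ Icc 0 d) :
    0 ≤ t ∧ m + t < 1 ∧ m < 1 := ⟨ht.1, by linarith [ht.2], by linarith [ht.1, ht.2]⟩

lemma one_sub_sq_pos_pair (hm : 0 ≤ m) (hd : 0 ≤ d) (hmd : m + d < 1) :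
    0 < 1 - (m + d) ^ 2 ∧ 0 < 1 - (m - d) ^ 2 :=
  ⟨one_sub_sq_pos (by linarith) hmd, one_sub_sq_pos (by linarith) (by linarith)⟩

lemma pairPQ_pos (hm : 0 ≤ m) (hd : 0 ≤ d) (hmd : m + d < 1) : 0 < pairPQ m d :=
  mul_pos (one_sub_sq_pos_pair hm hd hmd).1 (one_sub_sq_pos_pair hm hd hmd).2

lemma sq_lt_one_sub_sq (hm : 0 ≤ m) (hd : 0 ≤ d) (hmd : m + d < 1) : d ^ 2 < 1 - m ^ 2 := by
  nlinarith [mul_nonneg hm hd]

lemma pairF_eq (hm : 0 ≤ m) (hd : 0 ≤ d) (hmd : m + d < 1) :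
    pairF m d = (1 - m ^ 2 - d ^ 2) / pairPQ m d := by
  obtain ⟨h1, h2⟩ := one_sub_sq_pos_pair hm hd hmd
  unfold pairF pairPQ
  field_simp
  ring

lemma one_div_le_pairF (hm : 0 ≤ m) (hd : 0 ≤ d) (hmd : m + d < 1) :
    1 / (1 - m ^ 2) ≤ pairF m d := by
  have he : 0 < 1 - m ^ 2 := one_sub_sq_pos (by linarith) (by linarith)
  rw [pairF_eq hm hd hmd, div_le_div_iff₀ he (pairPQ_pos hm hd hmd), pairPQ_eq]
  have := sq_lt_one_sub_sq hm hd hmd
  nlinarith [mul_nonneg (sq_nonneg d) (sq_nonneg m), mul_nonneg (sq_nonneg d) (sub_nonneg.2 this.le)]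

lemma hasDerivAt_halfDiff (hm : 0 ≤ m) {t : ℝ} (ht : 0 ≤ t) (hmt : m + t < 1) :
    HasDerivAt (halfDiff m) (pairF m t) t := by
  obtain ⟨⟨a1, a2⟩, b1, b2⟩ := pair_bounds hm ht hmt
  have h1 := (hasDerivAt_artanh' a1 a2).comp t ((hasDerivAt_id t).const_add m)
  have h2 := (hasDerivAt_artanh' b1 b2).comp t ((hasDerivAt_id t).const_sub m)
  refine HasDerivAt.congr_deriv (show HasDerivAt (halfDiff m) _ t from (h1.sub h2).div_const 2) ?_
  unfold pairF; ring

lemma hasDerivAt_gapPhi (hm : 0 ≤ m) {t : ℝ} (ht : 0 ≤ t) (hmt : m + t < 1) :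
    HasDerivAt (gapPhi m) (halfDiff m t) t := by
  obtain ⟨⟨a1, a2⟩, b1, b2⟩ := pair_bounds hm ht hmt
  have h1 := (hasDerivAt_phi a1 a2).comp t ((hasDerivAt_id t).const_add m)
  have h2 := (hasDerivAt_phi b1 b2).comp t ((hasDerivAt_id t).const_sub m)
  refine HasDerivAt.congr_deriv
    (show HasDerivAt (gapPhi m) _ t from ((h1.add h2).div_const 2).sub_const (phi m)) ?_
  unfold halfDiff; ring

@[simp] lemma gapPhi_zero (m : ℝ) : gapPhi m 0 = 0 := by simp [gapPhi]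

@[simp] lemma halfDiff_zero (m : ℝ) : halfDiff m 0 = 0 := by simp [halfDiff]

lemma kerMD_eq (m d : ℝ) : kerMD m d = d * halfDiff m d := by
  unfold kerMD ker halfDiff; ring

lemma halfDiff_ge (hm : 0 ≤ m) (hd : 0 ≤ d) (hmd : m + d < 1) :
    d / (1 - m ^ 2) ≤ halfDiff m d := by
  refine le_of_hasDerivAt_le (f := fun t => t / (1 - m ^ 2)) (g := halfDiff m) hd
    (fun t _ => (hasDerivAt_id t).div_const _)
    (fun t ht => hasDerivAt_halfDiff hm ht.1 (pair_mem hm hmd ht).2.1) (by simp) fun t ht => ?_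
  exact one_div_le_pairF hm ht.1.le (by linarith [ht.2])

lemma halfDiff_nonneg (hm : 0 ≤ m) (hd : 0 ≤ d) (hmd : m + d < 1) : 0 ≤ halfDiff m d :=
  le_trans (div_nonneg hd (one_sub_sq_pos (by linarith) (by linarith)).le) (halfDiff_ge hm hd hmd)

lemma kerMD_nonneg (hm : 0 ≤ m) (hd : 0 ≤ d) (hmd : m + d < 1) : 0 ≤ kerMD m d := by
  rw [kerMD_eq]; exact mul_nonneg hd (halfDiff_nonneg hm hd hmd)

/-- (1) the Jensen gap dominates its quadratic part -/
theorem sq_div_le_gapPhi (hm : 0 ≤ m) (hd : 0 ≤ d) (hmd : m + d < 1) :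
    d ^ 2 / (1 - m ^ 2) / 2 ≤ gapPhi m d := by
  refine le_of_hasDerivAt_le (f := fun t => t ^ 2 / (1 - m ^ 2) / 2) (g := gapPhi m)
    (f' := fun t => t / (1 - m ^ 2)) hd
    (fun t _ => (((hasDerivAt_pow 2 t).div_const _).div_const 2).congr_deriv (by ring))
    (fun t ht => hasDerivAt_gapPhi hm ht.1 (pair_mem hm hmd ht).2.1) (by simp) fun t ht => ?_
  exact halfDiff_ge hm ht.1.le (by linarith [ht.2])

lemma gapPhi_nonneg (hm : 0 ≤ m) (hd : 0 ≤ d) (hmd : m + d < 1) : 0 ≤ gapPhi m d :=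
  le_trans (div_nonneg (div_nonneg (sq_nonneg d)
    (one_sub_sq_pos (by linarith) (by linarith)).le) zero_le_two) (sq_div_le_gapPhi hm hd hmd)

lemma gapPhi_lt (hm : 0 ≤ m) (hd : 0 ≤ d) (hmd : m + d < 1) : gapPhi m d < log 2 := by
  obtain ⟨⟨a1, a2⟩, b1, b2⟩ := pair_bounds hm hd hmd
  have h1 := ent_pos a1 a2
  have h2 := ent_pos b1 b2
  have h3 := phi_nonneg (show -1 ≤ m by linarith) (show m ≤ 1 by linarith)
  unfold ent at h1 h2
  unfold gapPhi
  linarith

/-- the derivative in `d` of `d ↦ d / ((p ^ 2 - d ^ 2))` pieces, and the sign used in (2) -/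
lemma piece_nonneg {p t : ℝ} (hp : 0 < p) (hpt : t ^ 2 < p ^ 2) :
    0 ≤ t * (2 * t * p / (p ^ 2 - t ^ 2) ^ 2) - 2 * (p / (p ^ 2 - t ^ 2)) + 2 / p := by
  have h : 0 < p ^ 2 - t ^ 2 := sub_pos.2 hpt
  have e : t * (2 * t * p / (p ^ 2 - t ^ 2) ^ 2) - 2 * (p / (p ^ 2 - t ^ 2)) + 2 / p
      = 2 * t ^ 4 / (p * (p ^ 2 - t ^ 2) ^ 2) := by
    field_simp; ring
  rw [e]; positivity

lemma pairF_eq_fractions (hm : 0 ≤ m) {t : ℝ} (ht : 0 ≤ t) (hmt : m + t < 1) :
    pairF m t = ((1 - m) / ((1 - m) ^ 2 - t ^ 2) + (1 + m) / ((1 + m) ^ 2 - t ^ 2)) / 2 := by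
  have h1 : 0 < (1 - m) ^ 2 - t ^ 2 := by nlinarith
  have h2 : 0 < (1 + m) ^ 2 - t ^ 2 := by nlinarith
  obtain ⟨a, b⟩ := one_sub_sq_pos_pair hm ht hmt
  unfold pairF
  field_simp
  ring

/-- (2) -/
theorem four_gap_le (hm : 0 ≤ m) (hd : 0 ≤ d) (hmd : m + d < 1) :
    4 * gapPhi m d ≤ kerMD m d + d ^ 2 / (1 - m ^ 2) := by
  set F := fun t : ℝ =>
    ((1 - m) / ((1 - m) ^ 2 - t ^ 2) + (1 + m) / ((1 + m) ^ 2 - t ^ 2)) / 2 with hF
  have hpos : ∀ t ∈ Icc (0 : ℝ) d, 0 < (1 - m) ^ 2 - t ^ 2 ∧ 0 < (1 + m) ^ 2 - t ^ 2 :=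
    fun t ht => ⟨by nlinarith [ht.1, ht.2], by nlinarith [ht.1, ht.2]⟩
  have hG : ∀ t ∈ Icc (0 : ℝ) d, HasDerivAt (halfDiff m) (F t) t := fun t ht =>
    (hasDerivAt_halfDiff hm ht.1 (pair_mem hm hmd ht).2.1).congr_deriv
      (pairF_eq_fractions hm ht.1 (pair_mem hm hmd ht).2.1)
  have hFd : ∀ t ∈ Icc (0 : ℝ) d, HasDerivAt F
      ((2 * t * (1 - m) / ((1 - m) ^ 2 - t ^ 2) ^ 2
        + 2 * t * (1 + m) / ((1 + m) ^ 2 - t ^ 2) ^ 2) / 2) t := by
    intro t ht
    obtain ⟨h1, h2⟩ := hpos t ht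
    have a := (hasDerivAt_const t (1 - m)).div ((hasDerivAt_pow 2 t).const_sub ((1 - m) ^ 2)) h1.ne'
    have b := (hasDerivAt_const t (1 + m)).div ((hasDerivAt_pow 2 t).const_sub ((1 + m) ^ 2)) h2.ne'
    refine HasDerivAt.congr_deriv (show HasDerivAt F _ t from (a.add b).div_const 2) ?_
    push_cast
    ring
  have hfirst : ∀ s ∈ Icc (0 : ℝ) d,
      3 * halfDiff m s ≤ s * F s + 2 * s / (1 - m ^ 2) := by
    intro s hs
    refine le_of_hasDerivAt_le (f := fun t => 3 * halfDiff m t)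
      (g := fun t => t * F t + 2 * t / (1 - m ^ 2)) hs.1
      (fun t ht => (hG t ⟨ht.1, ht.2.trans hs.2⟩).const_mul 3)
      (fun t ht => ((hasDerivAt_id t).mul (hFd t ⟨ht.1, ht.2.trans hs.2⟩)).add
        (((hasDerivAt_id t).const_mul 2).div_const _)) (by simp) fun t ht => ?_
    have ht' : t ∈ Icc (0 : ℝ) d := ⟨ht.1.le, ht.2.le.trans hs.2⟩
    obtain ⟨h1, h2⟩ := hpos t ht'
    have a := piece_nonneg (p := 1 - m) (by linarith [hs.1, hs.2]) (sub_pos.1 h1)
    have b := piece_nonneg (p := 1 + m) (by linarith) (sub_pos.1 h2)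
    have hne : (1 : ℝ) - m ≠ 0 := by linarith [hs.1, hs.2]
    have hne' : (1 : ℝ) + m ≠ 0 := by linarith
    have e : 2 / (1 - m ^ 2) = 1 / (1 - m) + 1 / (1 + m) := by
      rw [show 1 - m ^ 2 = (1 - m) * (1 + m) by ring]; field_simp; ring
    simp only [id_eq, mul_one, one_mul, e, hF]
    linear_combination (a + b) / 2
  refine le_of_hasDerivAt_le (f := fun t => 4 * gapPhi m t)
    (g := fun t => kerMD m t + t ^ 2 / (1 - m ^ 2))
    (g' := fun t => halfDiff m t + t * F t + 2 * t / (1 - m ^ 2)) hd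
    (fun t ht => (hasDerivAt_gapPhi hm ht.1 (pair_mem hm hmd ht).2.1).const_mul 4)
    (fun t ht => ?_) (by simp [kerMD_eq]) fun t ht => ?_
  · have h : HasDerivAt (fun t => t * halfDiff m t + t ^ 2 / (1 - m ^ 2))
        (halfDiff m t + t * F t + 2 * t / (1 - m ^ 2)) t :=
      (((hasDerivAt_id t).mul (hG t ht)).add ((hasDerivAt_pow 2 t).div_const _)).congr_deriv
        (by simp only [id_eq]; push_cast; ring)
    simpa only [kerMD_eq] using h
  · linarith [hfirst t ⟨ht.1.le, ht.2.le⟩]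

end basic

/-- the `m`-derivative of `gapPhi` -/
noncomputable def gapDer (m d : ℝ) : ℝ := (artanh (m + d) + artanh (m - d)) / 2 - artanh m

lemma hasDerivAt_gapDer {m t : ℝ} (hm : 0 ≤ m) (ht : 0 ≤ t) (hmt : m + t < 1) :
    HasDerivAt (gapDer m) (2 * m * t / pairPQ m t) t := by
  obtain ⟨⟨a1, a2⟩, b1, b2⟩ := pair_bounds hm ht hmt
  obtain ⟨p1, p2⟩ := one_sub_sq_pos_pair hm ht hmt
  have h1 := (hasDerivAt_artanh' a1 a2).comp t ((hasDerivAt_id t).const_add m)
  have h2 := (hasDerivAt_artanh' b1 b2).comp t ((hasDerivAt_id t).const_sub m)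
  refine HasDerivAt.congr_deriv
    (show HasDerivAt (gapDer m) _ t from ((h1.add h2).div_const 2).sub_const (artanh m)) ?_
  unfold pairPQ
  field_simp
  ring

lemma gapDer_nonneg {m d : ℝ} (hm : 0 ≤ m) (hd : 0 ≤ d) (hmd : m + d < 1) : 0 ≤ gapDer m d := by
  refine le_of_hasDerivAt_le (f := fun _ : ℝ => (0 : ℝ)) (g := gapDer m) hd
    (fun t _ => hasDerivAt_const t 0)
    (fun t ht => hasDerivAt_gapDer hm ht.1 (pair_mem hm hmd ht).2.1) (by simp [gapDer]) fun t ht => ?_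
  have := pairPQ_pos hm ht.1.le (by linarith [ht.2])
  have := ht.1
  positivity

lemma gapDer_le {m d : ℝ} (hm : 0 ≤ m) (hd : 0 ≤ d) (hmd : m + d < 1) :
    gapDer m d ≤ m / 2 * d ^ 2 * (1 / (1 - m ^ 2) ^ 2 + 1 / pairPQ m d) := by
  have hP : ∀ t ∈ Icc (0 : ℝ) d, 0 < (1 - m ^ 2) ^ 2 - 2 * t ^ 2 * (1 + m ^ 2) + t ^ 4 :=
    fun t ht => by rw [← pairPQ_eq]; exact pairPQ_pos hm ht.1 (pair_mem hm hmd ht).2.1
  have e0 : m / 2 * d ^ 2 * (1 / (1 - m ^ 2) ^ 2 + 1 / pairPQ m d) = m / 2 * (d ^ 2 *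
      (1 / (1 - m ^ 2) ^ 2 + 1 / ((1 - m ^ 2) ^ 2 - 2 * d ^ 2 * (1 + m ^ 2) + d ^ 4))) := by
    rw [pairPQ_eq]; ring
  rw [e0]
  refine le_of_hasDerivAt_le (f := gapDer m)
    (g := fun t => m / 2 * (t ^ 2 * (1 / (1 - m ^ 2) ^ 2
      + 1 / ((1 - m ^ 2) ^ 2 - 2 * t ^ 2 * (1 + m ^ 2) + t ^ 4))))
    (g' := fun t => m / 2 * (2 * t * (1 / (1 - m ^ 2) ^ 2
        + 1 / ((1 - m ^ 2) ^ 2 - 2 * t ^ 2 * (1 + m ^ 2) + t ^ 4))
      + t ^ 2 * ((4 * t * (1 + m ^ 2) - 4 * t ^ 3)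
        / ((1 - m ^ 2) ^ 2 - 2 * t ^ 2 * (1 + m ^ 2) + t ^ 4) ^ 2))) hd
    (fun t ht => hasDerivAt_gapDer hm ht.1 (pair_mem hm hmd ht).2.1) (fun t ht => ?_)
    (by simp [gapDer]) fun t ht => ?_
  · have a := (((hasDerivAt_pow 2 t).const_mul 2).mul_const (1 + m ^ 2)).const_sub
      ((1 - m ^ 2) ^ 2) |>.add (hasDerivAt_pow 4 t)
    have b := ((hasDerivAt_pow 2 t).mul
      (((hasDerivAt_const t (1 : ℝ)).div a (hP t ht).ne').const_add
        (1 / (1 - m ^ 2) ^ 2))).const_mul (m / 2)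
    refine b.congr_deriv ?_
    simp only [Pi.add_apply, Pi.div_apply]
    push_cast
    ring
  · rw [pairPQ_eq]
    have hP' := hP t ⟨ht.1.le, ht.2.le⟩
    have hlt : m + t < 1 := by linarith [ht.2]
    have he : 0 < 1 - m ^ 2 := one_sub_sq_pos (by linarith) (by linarith [ht.1])
    set e := 1 - m ^ 2 with he'
    set b := 1 + m ^ 2 with hb
    set P := e ^ 2 - 2 * t ^ 2 * b + t ^ 4 with hPdef
    have key : P * (P - e ^ 2) + t ^ 2 * (2 * b - 2 * t ^ 2) * e ^ 2
        = t ^ 4 * ((2 * b - t ^ 2) ^ 2 - e ^ 2) := by rw [hPdef]; ring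
    have hsq : e ^ 2 ≤ (2 * b - t ^ 2) ^ 2 := by
      have := sq_lt_one_sub_sq hm ht.1.le hlt
      exact pow_le_pow_left₀ he.le (by nlinarith) 2
    have : 2 / P ≤ 1 / e ^ 2 + 1 / P + t ^ 2 * ((2 * b - 2 * t ^ 2) / P ^ 2) := by
      have e2 : 1 / e ^ 2 + 1 / P + t ^ 2 * ((2 * b - 2 * t ^ 2) / P ^ 2) - 2 / P
          = (P * (P - e ^ 2) + t ^ 2 * (2 * b - 2 * t ^ 2) * e ^ 2) / (e ^ 2 * P ^ 2) := by
        field_simp; ring
      rw [← sub_nonneg, e2, key]
      exact div_nonneg (mul_nonneg (by positivity) (sub_nonneg.2 hsq)) (by positivity)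
    have h2 := mul_le_mul_of_nonneg_left this (mul_nonneg hm ht.1.le)
    calc 2 * m * t / P = m * t * (2 / P) := by ring
      _ ≤ _ := h2
      _ = _ := by ring

/-- (3) `kerMD - c * gapPhi` increases in the mean -/
theorem kerMD_sub_gap_mono {m₁ m₂ d c : ℝ} (hm₁ : 0 ≤ m₁) (h12 : m₁ ≤ m₂) (hd : 0 ≤ d)
    (hmd : m₂ + d < 1)
    (hc : c * (((1 - m₁ ^ 2) ^ 2 - 2 * d ^ 2 * (1 + m₁ ^ 2) + d ^ 4) + (1 - m₁ ^ 2) ^ 2)
      ≤ 4 * (1 - m₁ ^ 2) ^ 2) :
    kerMD m₁ d - c * gapPhi m₁ d ≤ kerMD m₂ d - c * gapPhi m₂ d := by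
  refine le_of_hasDerivAt_le (f := fun _ => kerMD m₁ d - c * gapPhi m₁ d)
    (g := fun m => kerMD m d - c * gapPhi m d) (f' := fun _ => 0)
    (g' := fun m => 2 * m * d ^ 2 / pairPQ m d - c * gapDer m d) h12
    (fun m _ => hasDerivAt_const m _) (fun m hm => ?_) le_rfl fun m hm => ?_
  · have hm0 : 0 ≤ m := hm₁.trans hm.1
    have hlt : m + d < 1 := by linarith [hm.2]
    obtain ⟨⟨a1, a2⟩, b1, b2⟩ := pair_bounds hm0 hd hlt
    obtain ⟨p1, p2⟩ := one_sub_sq_pos_pair hm0 hd hlt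
    have h1 := (hasDerivAt_artanh' a1 a2).comp m ((hasDerivAt_id m).add_const d)
    have h2 := (hasDerivAt_artanh' b1 b2).comp m ((hasDerivAt_id m).sub_const d)
    have h3 := (hasDerivAt_phi a1 a2).comp m ((hasDerivAt_id m).add_const d)
    have h4 := (hasDerivAt_phi b1 b2).comp m ((hasDerivAt_id m).sub_const d)
    have h5 := hasDerivAt_phi (show -1 < m by linarith) (show m < 1 by linarith)
    have hker : HasDerivAt (fun x => kerMD x d) (2 * m * d ^ 2 / pairPQ m d) m := by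
      have : HasDerivAt (fun x => d * halfDiff x d) (2 * m * d ^ 2 / pairPQ m d) m := by
        refine HasDerivAt.congr_deriv (show HasDerivAt (fun x => d * halfDiff x d) _ m from
          ((h1.sub h2).div_const 2).const_mul d) ?_
        unfold pairPQ; field_simp; ring
      simpa only [kerMD_eq] using this
    have hgap : HasDerivAt (fun x => gapPhi x d) (gapDer m d) m := by
      refine HasDerivAt.congr_deriv (show HasDerivAt (fun x => gapPhi x d) _ m from
        ((h3.add h4).div_const 2).sub h5) ?_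
      unfold gapDer; ring
    exact hker.sub (hgap.const_mul c)
  · have hm0 : 0 ≤ m := hm₁.trans hm.1.le
    have hlt : m + d < 1 := by linarith [hm.2]
    have hP := pairPQ_pos hm0 hd hlt
    have hZ := gapDer_nonneg hm0 hd hlt
    rw [sub_nonneg]
    rcases le_or_gt c 0 with hc0 | hc0
    · exact (mul_nonpos_of_nonpos_of_nonneg hc0 hZ).trans (by positivity)
    have he : 0 < 1 - m ^ 2 := one_sub_sq_pos (by linarith) (by linarith)
    have he1 : 0 < 1 - m₁ ^ 2 := one_sub_sq_pos (by linarith) (by linarith)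
    have hmm : m₁ ^ 2 ≤ m ^ 2 := pow_le_pow_left₀ hm₁ hm.1.le 2
    have hanti : pairPQ m d * (1 - m₁ ^ 2) ^ 2 ≤ pairPQ m₁ d * (1 - m ^ 2) ^ 2 := by
      rw [pairPQ_eq, pairPQ_eq]
      have hd1 : d ^ 2 ≤ 1 := by nlinarith
      have h := mul_le_mul
        (show 2 * (1 + m₁ ^ 2) - d ^ 2 ≤ 2 * (1 + m ^ 2) - d ^ 2 by linarith)
        (pow_le_pow_left₀ he.le (show 1 - m ^ 2 ≤ 1 - m₁ ^ 2 by linarith) 2)
        (by positivity) (by nlinarith)
      nlinarith [mul_le_mul_of_nonneg_left h (sq_nonneg d)]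
    have hc' : c * (pairPQ m d + (1 - m ^ 2) ^ 2) ≤ 4 * (1 - m ^ 2) ^ 2 := by
      rw [← pairPQ_eq] at hc
      refine le_of_mul_le_mul_right ?_ (pow_pos he1 2)
      nlinarith [mul_le_mul_of_nonneg_left hanti hc0.le,
        mul_le_mul_of_nonneg_right hc (sq_nonneg (1 - m ^ 2))]
    calc c * gapDer m d
        ≤ c * (m / 2 * d ^ 2 * (1 / (1 - m ^ 2) ^ 2 + 1 / pairPQ m d)) :=
          mul_le_mul_of_nonneg_left (gapDer_le hm0 hd hlt) hc0.le
      _ = m * d ^ 2 * (c * (pairPQ m d + (1 - m ^ 2) ^ 2))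
            / (2 * (1 - m ^ 2) ^ 2 * pairPQ m d) := by field_simp
      _ ≤ m * d ^ 2 * (4 * (1 - m ^ 2) ^ 2) / (2 * (1 - m ^ 2) ^ 2 * pairPQ m d) := by gcongr
      _ = 2 * m * d ^ 2 / pairPQ m d := by field_simp; ring

/-- (4) the corner ratio is at least `d ^ 2 / (1 - m ^ 2)` -/
theorem meanBound_ge {m d H : ℝ} (hm : 0 ≤ m) (hd : 0 ≤ d) (hmd : m + d < 1)
    (hH : H ≤ (ent (m + d) + ent (m - d)) / 2) :
    kerMD m d + min (1 / 2) (d ^ 2 / (1 - m ^ 2)) * ((ent (m + d) + ent (m - d)) / 2 - H)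
      ≤ meanBound (m + d) (m - d) H := by
  unfold meanBound kerMD
  gcongr
  have he : 0 < 1 - m ^ 2 := one_sub_sq_pos (by linarith) (by linarith)
  set P := (1 + (m + d)) * (1 + (m - d)) / 4 with hP
  have hP0 : 0 < P := by rw [hP]; apply div_pos <;> nlinarith
  have hd2 : d ^ 2 ≤ (1 - m) ^ 2 := pow_le_pow_left₀ hd (by linarith) 2
  have hPs : P ≤ ((1 + m) / 2) ^ 2 := by rw [hP]; nlinarith [sq_nonneg d]
  have hP1 : m ≤ P := by rw [hP]; nlinarith
  have hPlt : P < 1 := hPs.trans_lt (by nlinarith)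
  set x := sqrt P with hx
  have hx0 : 0 < x := sqrt_pos.2 hP0
  have hxs : x ≤ (1 + m) / 2 := by rw [hx, sqrt_le_left (by linarith)]; exact hPs
  have hxP : x ^ 2 = P := sq_sqrt hP0.le
  have hlog : 2 * P * -log P ≤ 1 - m ^ 2 := by
    have h1 : -log x ≤ (x⁻¹ - x) / 2 := by
      have hx1 : x ≤ 1 := hxs.trans (by linarith)
      have := self_le_sinh_iff.2 (neg_nonneg.2 (log_nonpos hx0.le hx1))
      rwa [sinh_eq, neg_neg, exp_neg, exp_log hx0] at this
    have h2 : -log P ≤ x⁻¹ - x := by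
      rw [← hxP, log_pow]; push_cast; linarith
    have h3 : 2 * P * -log P ≤ 2 * (x * (1 - P)) := by
      calc 2 * P * -log P ≤ 2 * P * (x⁻¹ - x) := by gcongr
        _ = 2 * (x * (1 - P)) := by rw [← hxP]; field_simp
    have h4 : x * (1 - P) ≤ (1 + m) / 2 * (1 - m) := by
      gcongr
    nlinarith
  unfold cornerRatio
  rw [show (1 + (m + d)) * (1 + (m - d)) = 4 * P by rw [hP]; ring,
    show 4 * P / 4 = P by ring,
    show ((m + d) - (m - d)) ^ 2 / (2 * (4 * P) * -log P) = d ^ 2 / (2 * P * -log P) by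
      field_simp; ring]
  exact div_le_div_of_nonneg_left (sq_nonneg d)
    (by have := log_neg hP0 hPlt; nlinarith) hlog

lemma continuousAt_entInv {H : ℝ} (h0 : 0 < H) (h1 : H < log 2) : ContinuousAt entInv H := by
  obtain ⟨hs0, hs1⟩ := entInv_mem h0 h1.le
  have es := ent_entInv h0.le h1.le
  have hev : ∀ᶠ H' in nhds H, 0 < H' ∧ H' < log 2 :=
    Filter.Eventually.and (eventually_gt_nhds h0) (eventually_lt_nhds h1)
  refine tendsto_order.2 ⟨fun a ha => ?_, fun b hb => ?_⟩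
  · rcases lt_or_ge a 0 with ha0 | ha0
    · exact hev.mono fun H' h => ha0.trans_le (entInv_mem h.1 h.2.le).1
    have hH : H < ent a := by
      have := ent_strictAntiOn ⟨ha0, (ha.trans hs1).le⟩ ⟨hs0, hs1.le⟩ ha
      rwa [es] at this
    filter_upwards [hev, eventually_lt_nhds hH] with H' h h'
    obtain ⟨t0, t1⟩ := entInv_mem h.1 h.2.le
    by_contra hle
    have := ent_strictAntiOn.antitoneOn ⟨t0, t1.le⟩ ⟨ha0, (ha.trans hs1).le⟩ (not_lt.1 hle)
    rw [ent_entInv h.1.le h.2.le] at this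
    linarith
  · rcases le_or_gt 1 b with hb1 | hb1
    · exact hev.mono fun H' h => (entInv_mem h.1 h.2.le).2.trans_le hb1
    have hH : ent b < H := by
      have := ent_strictAntiOn ⟨hs0, hs1.le⟩ ⟨hs0.trans hb.le, hb1.le⟩ hb
      rwa [es] at this
    filter_upwards [hev, eventually_gt_nhds hH] with H' h h'
    obtain ⟨t0, t1⟩ := entInv_mem h.1 h.2.le
    by_contra hle
    have := ent_strictAntiOn.antitoneOn ⟨hs0.trans hb.le, hb1.le⟩ ⟨t0, t1.le⟩ (not_lt.1 hle)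
    rw [ent_entInv h.1.le h.2.le] at this
    linarith

lemma entInv_pos {H : ℝ} (h0 : 0 < H) (h1 : H < log 2) : 0 < entInv H := by
  rcases (entInv_mem h0 h1.le).1.lt_or_eq with h | h
  · exact h
  · have := ent_entInv h0.le h1.le
    rw [← h, ent_zero] at this
    linarith

/-- (5) the derivative of the dictator curve -/
theorem hasDerivAt_curve {H : ℝ} (h0 : 0 < H) (h1 : H < log 2) :
    HasDerivAt curve (-kap (entInv H)) H := by
  have hs := entInv_mem h0 h1.le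
  have hsp := entInv_pos h0 h1
  have hk : ContinuousAt (fun x => kap (entInv x)) H := by
    refine ContinuousAt.comp (g := kap) ?_ (continuousAt_entInv h0 h1)
    refine (hasDerivAt_kap_aux hsp hs.2).continuousAt.congr ?_
    filter_upwards [eventually_gt_nhds hsp] with s h using (kap_of_pos h).symm
  rw [hasDerivAt_iff_isLittleO, Asymptotics.isLittleO_iff]
  intro c hc
  filter_upwards [Metric.tendsto_nhds.1 hk c hc, eventually_gt_nhds h0, eventually_lt_nhds h1]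
    with x hx x0 x1
  have hsx := entInv_mem x0 x1.le
  have l1 := curve_tangent x0 hs
  have l2 := curve_tangent h0 hsx
  rw [ent_entInv h0.le h1.le, ← (show curve H = entInv H * artanh (entInv H) by
    conv_lhs => rw [← ent_entInv h0.le h1.le]
    exact curve_ent hs.1 hs.2)] at l1
  rw [ent_entInv x0.le x1.le, ← (show curve x = entInv x * artanh (entInv x) by
    conv_lhs => rw [← ent_entInv x0.le x1.le]
    exact curve_ent hsx.1 hsx.2)] at l2
  rw [Real.dist_eq] at hx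
  simp only [smul_eq_mul, Real.norm_eq_abs]
  have hb : |(kap (entInv x) - kap (entInv H)) * (x - H)| ≤ c * |x - H| := by
    rw [abs_mul]; gcongr
  refine le_trans ?_ hb
  rw [abs_of_nonneg (show 0 ≤ curve x - curve H - (x - H) * -kap (entInv H) by linarith)]
  refine le_trans ?_ (neg_le_abs _)
  linarith

/-- (6) the case of a single pair -/
theorem curve_gap_le_kerMD {m d : ℝ} (hm : 0 ≤ m) (hd : 0 ≤ d) (hmd : m + d < 1) :
    curve (log 2 - gapPhi m d) ≤ kerMD m d := by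
  -- the parameter `τ = tanh (halfDiff m t)`
  have geom : ∀ t : ℝ, 0 < t → m + t < 1 →
      cosh (halfDiff m t) ^ 2 ≤ pairF m t ∧
      sinh (halfDiff m t) * cosh (halfDiff m t) ≤ t * pairF m t := by
    intro t ht hmt
    obtain ⟨⟨a1, a2⟩, b1, b2⟩ := pair_bounds hm ht.le hmt
    obtain ⟨p1, p2⟩ := one_sub_sq_pos_pair hm ht.le hmt
    set S := sqrt (1 - (m + t) ^ 2) * sqrt (1 - (m - t) ^ 2) with hS
    have hSpos : 0 < S := mul_pos (sqrt_pos.2 p1) (sqrt_pos.2 p2)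
    have hS2 : S ^ 2 = pairPQ m t := by
      rw [hS, mul_pow, sq_sqrt p1.le, sq_sqrt p2.le]; rfl
    have hc : 0 < 1 - m ^ 2 - t ^ 2 := sub_pos.2 (sq_lt_one_sub_sq hm ht.le hmt)
    have hSc : S ≤ 1 - m ^ 2 - t ^ 2 := by
      rw [← pow_le_pow_iff_left₀ hSpos.le hc.le two_ne_zero, hS2, pairPQ_eq]
      nlinarith [mul_nonneg (sq_nonneg m) (sq_nonneg t)]
    have h2 : 2 * halfDiff m t = artanh (m + t) - artanh (m - t) := by unfold halfDiff; ring
    have hsinh : sinh (2 * halfDiff m t) = 2 * t / S := by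
      rw [h2, sinh_sub, sinh_artanh ⟨a1, a2⟩, cosh_artanh ⟨a1, a2⟩, sinh_artanh ⟨b1, b2⟩,
        cosh_artanh ⟨b1, b2⟩, hS]
      field_simp
      ring
    have hcosh : cosh (2 * halfDiff m t) = (1 - m ^ 2 + t ^ 2) / S := by
      rw [h2, cosh_sub, sinh_artanh ⟨a1, a2⟩, cosh_artanh ⟨a1, a2⟩, sinh_artanh ⟨b1, b2⟩,
        cosh_artanh ⟨b1, b2⟩, hS]
      field_simp
      ring
    have hFS : (1 / S) ≤ pairF m t := by
      rw [pairF_eq hm ht.le hmt, ← hS2, div_le_div_iff₀ hSpos (pow_pos hSpos 2)]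
      nlinarith
    refine ⟨?_, ?_⟩
    · have e : cosh (halfDiff m t) ^ 2 = (1 - m ^ 2 + t ^ 2 + S) / (2 * S) := by
        have := cosh_two_mul (halfDiff m t)
        rw [hcosh] at this
        have hsq := cosh_sq (halfDiff m t)
        field_simp at this ⊢
        nlinarith
      refine le_trans ?_ hFS
      rw [e, div_le_div_iff₀ (by positivity) hSpos]
      nlinarith
    · have e : sinh (halfDiff m t) * cosh (halfDiff m t) = t * (1 / S) := by
        have := sinh_two_mul (halfDiff m t)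
        rw [hsinh, show 2 * t / S = 2 * (t * (1 / S)) by ring] at this
        linarith
      rw [e]; gcongr
  have htanh : ∀ x : ℝ, HasDerivAt tanh (1 / cosh x ^ 2) x := by
    intro x
    have := (hasDerivAt_sinh x).div (hasDerivAt_cosh x) (cosh_pos x).ne'
    refine (this.congr_of_eventuallyEq (Filter.Eventually.of_forall fun y =>
      tanh_eq_sinh_div_cosh y)).congr_deriv ?_
    rw [← cosh_sq_sub_sinh_sq x]; ring
  -- the gap is at most `phi τ`
  have hgap : ∀ s ∈ Icc (0 : ℝ) d, gapPhi m s ≤ phi (tanh (halfDiff m s)) := by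
    intro s hs
    refine le_of_hasDerivAt_le (f := gapPhi m) (g := fun t => phi (tanh (halfDiff m t)))
      (g' := fun t => artanh (tanh (halfDiff m t))
        * (1 / cosh (halfDiff m t) ^ 2 * pairF m t)) hs.1
      (fun t ht => hasDerivAt_gapPhi hm ht.1 (by linarith [ht.2, hs.2]))
      (fun t ht => HasDerivAt.comp (h₂ := phi) t
        (hasDerivAt_phi (neg_one_lt_tanh (halfDiff m t)) (tanh_lt_one (halfDiff m t)))
        (HasDerivAt.comp (h₂ := tanh) t (htanh (halfDiff m t))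
          (hasDerivAt_halfDiff hm ht.1 (by linarith [ht.2, hs.2]))))
      (by simp) fun t ht => ?_
    have hlt : m + t < 1 := by linarith [ht.2, hs.2]
    rw [artanh_tanh]
    refine le_mul_of_one_le_right (halfDiff_nonneg hm ht.1.le hlt) ?_
    rw [one_div_mul_eq_div, one_le_div (pow_pos (cosh_pos _) 2)]
    exact (geom t ht.1 hlt).1
  have hd0 : ∀ t ∈ Icc (0 : ℝ) d, HasDerivAt (kerMD m) (halfDiff m t + t * pairF m t) t := by
    intro t ht
    have : HasDerivAt (fun t => t * halfDiff m t) (halfDiff m t + t * pairF m t) t :=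
      ((hasDerivAt_id t).mul (hasDerivAt_halfDiff hm ht.1 (pair_mem hm hmd ht).2.1)).congr_deriv
        (by simp only [id_eq]; ring)
    exact this.congr_of_eventuallyEq (Filter.Eventually.of_forall fun x => kerMD_eq m x)
  have hgc : ContinuousOn (fun t => curve (log 2 - gapPhi m t)) (Icc 0 d) := by
    refine (curve_convexOn.continuousOn isOpen_Ioi).comp (fun t ht =>
      ((hasDerivAt_gapPhi hm ht.1 (pair_mem hm hmd ht).2.1).const_sub
        (log 2)).continuousAt.continuousWithinAt) fun t ht => ?_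
    exact sub_pos.2 (gapPhi_lt hm ht.1 (pair_mem hm hmd ht).2.1)
  have key : MonotoneOn (fun t => kerMD m t - curve (log 2 - gapPhi m t)) (Icc 0 d) := by
    apply monotoneOn_of_hasDerivWithinAt_nonneg
      (f' := fun t => halfDiff m t + t * pairF m t
        - kap (entInv (log 2 - gapPhi m t)) * halfDiff m t) (convex_Icc 0 d)
      ((continuousOn_of_forall_continuousAt fun t ht => (hd0 t ht).continuousAt).sub hgc)
    · intro t ht
      rw [interior_Icc] at ht ⊢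
      have hlt : m + t < 1 := by linarith [ht.2]
      have hy : 0 < gapPhi m t := lt_of_lt_of_le
        (by have := one_sub_sq_pos (show -1 < m by linarith) (by linarith [ht.1]); have := ht.1
            positivity) (sq_div_le_gapPhi hm ht.1.le hlt)
      have hc := (hasDerivAt_curve (H := log 2 - gapPhi m t)
        (sub_pos.2 (gapPhi_lt hm ht.1.le hlt)) (by linarith)).comp t
        ((hasDerivAt_gapPhi hm ht.1.le hlt).const_sub (log 2))
      exact (((hd0 t ⟨ht.1.le, ht.2.le⟩).sub hc).congr_deriv (by ring)).hasDerivWithinAt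
    · intro t ht
      rw [interior_Icc] at ht
      have hlt : m + t < 1 := by linarith [ht.2]
      set G := halfDiff m t with hG
      have hG0 : 0 < G := lt_of_lt_of_le (div_pos ht.1
        (one_sub_sq_pos (by linarith) (by linarith [ht.1]))) (halfDiff_ge hm ht.1.le hlt)
      have hH0 : 0 < log 2 - gapPhi m t := sub_pos.2 (gapPhi_lt hm ht.1.le hlt)
      have hH1 : log 2 - gapPhi m t ≤ log 2 := by linarith [gapPhi_nonneg hm ht.1.le hlt]
      have hτ : 0 < tanh G := by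
        rw [tanh_eq_sinh_div_cosh]; exact div_pos (sinh_pos_iff.2 hG0) (cosh_pos G)
      have hle : entInv (log 2 - gapPhi m t) ≤ tanh G := by
        obtain ⟨s0, s1⟩ := entInv_mem hH0 hH1
        by_contra hcon
        have := ent_strictAntiOn ⟨hτ.le, (tanh_lt_one G).le⟩ ⟨s0, s1.le⟩ (not_le.1 hcon)
        rw [ent_entInv hH0.le hH1] at this
        have := hgap t ⟨ht.1.le, ht.2.le⟩
        unfold ent at *
        linarith
      have hkap := kap_monotoneOn (entInv_mem hH0 hH1) ⟨hτ.le, tanh_lt_one G⟩ hle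
      have hk : kap (tanh G) * G = G + sinh G * cosh G := by
        rw [kap_of_pos hτ, artanh_tanh, tanh_eq_sinh_div_cosh]
        have := cosh_pos G
        have e : 1 - (sinh G / cosh G) ^ 2 = 1 / cosh G ^ 2 := by
          field_simp; linear_combination cosh_sq G
        rw [e]
        field_simp
      have := mul_le_mul_of_nonneg_right hkap hG0.le
      have := (geom t ht.1 hlt).2
      linarith
  have := key ⟨le_rfl, hd⟩ ⟨hd, le_rfl⟩ hd
  simpa [kerMD_eq, curve_eq_zero le_rfl] using this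

end Vale.Agent.P322
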