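import Vale.Agent.P322.Scalar.Lines
import Vale.Agent.P322.Scalar.Switch

/-!
Auxiliary bounds for the second hypothesis near `entInv H = 1`, in the parameter `t = artanh σ`.
-/

namespace Vale.Agent.P322.Tail

open Real Set

lemma tanh_eq_q (t : ℝ) : tanh t = (1 - exp (-(2 * t))) / (1 + exp (-(2 * t))) := by
  have h := exp_pos t
  rw [Real.tanh_eq, show -(2 * t) = -t + -t by ring, exp_add, exp_neg]
  field_simp

lemma ent_tanh (t : ℝ) :
    ent (tanh t) =
      log (1 + exp (-(2 * t))) + 2 * t * exp (-(2 * t)) / (1 + exp (-(2 * t))) := by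
  set q := exp (-(2 * t)) with hq
  have hq0 : 0 < q := exp_pos _
  rw [Num.ent_eq_log (neg_one_lt_tanh t) (tanh_lt_one t)]
  have e1 : (1 + tanh t) / 2 = 1 / (1 + q) := by rw [tanh_eq_q, ← hq]; field_simp; ring
  have e2 : (1 - tanh t) / 2 = q / (1 + q) := by rw [tanh_eq_q, ← hq]; field_simp; ring
  rw [e1, e2, log_div hq0.ne' (by positivity), one_div, log_inv]
  have : log q = -(2 * t) := by rw [hq, log_exp]
  rw [this]
  field_simp
  ring

lemma log_one_add_le {q : ℝ} (hq : 0 ≤ q) : log (1 + q) ≤ q := by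
  linarith [log_le_sub_one_of_pos (show (0 : ℝ) < 1 + q by linarith)]

lemma le_log_one_add {q : ℝ} (hq : 0 ≤ q) : q - q ^ 2 / 2 ≤ log (1 + q) := by
  refine le_trans ?_ (le_log_one_add_of_nonneg hq)
  rw [le_div_iff₀ (by linarith)]
  nlinarith [pow_nonneg hq 3]

lemma ent_tanh_le {t : ℝ} (ht : 0 ≤ t) : ent (tanh t) ≤ (2 * t + 1) * exp (-(2 * t)) := by
  rw [ent_tanh]
  have hq := exp_pos (-(2 * t))
  have a := log_one_add_le hq.le
  have b : 2 * t * exp (-(2 * t)) / (1 + exp (-(2 * t))) ≤ 2 * t * exp (-(2 * t)) :=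
    div_le_self (by positivity) (by linarith)
  linarith

lemma le_ent_tanh {t : ℝ} (ht : 0 ≤ t) :
    (2 * t + 1) * exp (-(2 * t)) * (1 - exp (-(2 * t))) ≤ ent (tanh t) := by
  rw [ent_tanh]
  have hq := exp_pos (-(2 * t))
  set q := exp (-(2 * t))
  have a := le_log_one_add hq.le
  have b : 2 * t * q * (1 - q) ≤ 2 * t * q / (1 + q) := by
    rw [le_div_iff₀ (by positivity)]
    nlinarith [mul_nonneg (mul_nonneg ht hq.le) (sq_nonneg q)]
  nlinarith [sq_nonneg q]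

lemma tanh_mem {t : ℝ} (ht : 0 < t) : tanh t ∈ Ioo (0 : ℝ) 1 := by
  refine ⟨?_, tanh_lt_one t⟩
  rw [tanh_eq_q]
  have h1 : exp (-(2 * t)) < 1 := exp_lt_one_iff.2 (by linarith)
  exact div_pos (by linarith) (by positivity)

lemma kap_tanh {t : ℝ} (ht : 0 < t) :
    kap (tanh t) = 1 + (1 - exp (-(2 * t)) ^ 2) / (4 * t * exp (-(2 * t))) := by
  rw [kap_of_pos (tanh_mem ht).1, artanh_tanh, tanh_eq_q]
  have hq := exp_pos (-(2 * t))
  set q := exp (-(2 * t))
  have e : 1 - ((1 - q) / (1 + q)) ^ 2 = 4 * q / (1 + q) ^ 2 := by field_simp; ring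
  rw [e]
  field_simp
  ring

/-- the slope of the perspective curve in the parameter `t` -/
noncomputable def theta (t : ℝ) : ℝ :=
  tanh t * artanh (tanh t) + kap (tanh t) * ent (tanh t)

lemma theta_eq {t : ℝ} (ht : 0 < t) :
    theta t = t + 1 / 2 + log (1 + exp (-(2 * t))) - exp (-(2 * t)) / 2
      + (1 - exp (-(2 * t)) ^ 2) * log (1 + exp (-(2 * t))) / (4 * t * exp (-(2 * t))) := by
  rw [theta, artanh_tanh, kap_tanh ht, ent_tanh, tanh_eq_q]
  have hq := exp_pos (-(2 * t))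
  set q := exp (-(2 * t))
  field_simp
  ring

lemma le_theta {t : ℝ} (ht : 2 ≤ t) : t + 1 / 2 + 1 / (4 * t) ≤ theta t := by
  rw [theta_eq (by linarith)]
  have hq := exp_pos (-(2 * t))
  have hq1 : exp (-(2 * t)) ≤ 1 / 5 := by
    rw [exp_neg, inv_le_comm₀ (exp_pos _) (by norm_num)]
    have := add_one_le_exp (2 * t)
    norm_num
    linarith
  set q := exp (-(2 * t))
  set L := log (1 + q) with hL
  have a : q - q ^ 2 / 2 ≤ L := le_log_one_add hq.le
  have b : (1 - q ^ 2) * (q - q ^ 2 / 2) ≤ (1 - q ^ 2) * L :=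
    mul_le_mul_of_nonneg_left a (by nlinarith)
  have key : q ≤ 4 * t * q * (L - q / 2) + (1 - q ^ 2) * L := by
    have c : 4 * t * q * (q / 2 - q ^ 2 / 2) ≤ 4 * t * q * (L - q / 2) :=
      mul_le_mul_of_nonneg_left (by linarith) (by positivity)
    have d : 8 * q * (q / 2 - q ^ 2 / 2) ≤ 4 * t * q * (q / 2 - q ^ 2 / 2) :=
      mul_le_mul_of_nonneg_right (by nlinarith) (by nlinarith)
    nlinarith [sq_nonneg q, mul_le_mul_of_nonneg_left hq1 (sq_nonneg q), pow_nonneg hq.le 4]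
  have e : 1 / (4 * t) ≤ L - q / 2 + (1 - q ^ 2) * L / (4 * t * q) := by
    rw [show L - q / 2 + (1 - q ^ 2) * L / (4 * t * q) =
      (4 * t * q * (L - q / 2) + (1 - q ^ 2) * L) / (4 * t * q) by field_simp,
      div_le_div_iff₀ (by linarith) (by positivity)]
    nlinarith [mul_le_mul_of_nonneg_left key (show 0 ≤ 4 * t by linarith)]
  linarith

lemma theta_le {t : ℝ} (ht : 1 ≤ t) :
    theta t ≤ t + 1 / 2 + 1 / (4 * t) + exp (-(2 * t)) := by
  rw [theta_eq (by linarith)]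
  have hq := exp_pos (-(2 * t))
  have hq1 : exp (-(2 * t)) ≤ 1 := exp_le_one_iff.2 (by linarith)
  set q := exp (-(2 * t))
  have a := log_one_add_le hq.le
  have b : (1 - q ^ 2) * log (1 + q) ≤ 1 * q :=
    mul_le_mul (by nlinarith) a (log_nonneg (by linarith)) zero_le_one
  have c : (1 - q ^ 2) * log (1 + q) / (4 * t * q) ≤ 1 / (4 * t) := by
    rw [div_le_div_iff₀ (by positivity) (by linarith)]
    nlinarith [mul_le_mul_of_nonneg_left b (show 0 ≤ 4 * t by linarith)]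
  linarith

lemma q_le {Y : ℝ} (hY : 4 ≤ Y) :
    exp (-(2 * Y)) ≤ 1 / 2900 ∧ exp (-(2 * Y)) * (2 * Y * (2 * Y + 1)) ≤ 1 := by
  constructor
  · refine (exp_le_exp.2 (show -(2 * Y) ≤ -(8 : ℕ) * (1 : ℝ) by push_cast; linarith)).trans ?_
    rw [neg_mul, exp_neg, exp_nat_mul, inv_le_comm₀ (by positivity) (by norm_num)]
    have h := pow_le_pow_left₀ (by norm_num) exp_one_gt_d9.le 8
    norm_num at h ⊢
    linarith
  · have hs := sum_le_exp_of_nonneg (show 0 ≤ 2 * Y by linarith) 4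
    simp [Finset.sum_range_succ, Nat.factorial] at hs
    have hb : 2 * Y * (2 * Y + 1) ≤ exp (2 * Y) := by
      nlinarith [mul_le_mul_of_nonneg_right hY (sq_nonneg Y)]
    rw [exp_neg, inv_mul_le_iff₀ (exp_pos _), mul_one]
    exact hb

lemma q_le' {Y : ℝ} (hY : 4 ≤ Y) : exp (-(2 * Y)) * (2 * Y * (2 * Y + 1)) ≤ 1 / 4 := by
  have hs := sum_le_exp_of_nonneg (show 0 ≤ 2 * Y by linarith) 6
  simp [Finset.sum_range_succ, Nat.factorial] at hs
  rw [exp_neg, inv_mul_le_iff₀ (exp_pos _)]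
  nlinarith [mul_le_mul_of_nonneg_right hY (sq_nonneg Y), pow_le_pow_left₀ (by norm_num) hY 4,
    pow_le_pow_left₀ (by norm_num) hY 5, mul_le_mul_of_nonneg_right hY (pow_nonneg (show 0 ≤ Y by linarith) 4)]

lemma four_le_artanh {σ : ℝ} (h : 1499 / 1500 ≤ σ) (h1 : σ < 1) : 4 ≤ artanh σ := by
  refine le_trans ?_ (artanh_le_artanh (by norm_num : (-1 : ℝ) < 1499 / 1500) h1 h)
  rw [artanh_eq (by norm_num) (by norm_num)]
  have h8 : 8 ≤ log (2999 : ℝ) := by
    rw [le_log_iff_exp_le (by norm_num), show (8 : ℝ) = (8 : ℕ) * 1 by norm_num, exp_nat_mul]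
    have h := pow_le_pow_left₀ (exp_pos 1).le exp_one_lt_d9.le 8
    norm_num at h ⊢
    linarith
  rw [← log_div (by norm_num) (by norm_num)]
  norm_num
  linarith

lemma lam_mul_le {Y : ℝ} (hY : 0 < Y) :
    lamFun (tanh Y) * (ent (tanh Y) / tanh Y) ≤ 1 / 2 + 1 / (4 * Y) := by
  have hs := tanh_mem hY
  have hN : nfun (tanh Y) = Y + log (1 + exp (-(2 * Y))) := by
    rw [nfun_eq (by linarith [hs.1]) hs.2, artanh_tanh, ent_tanh, tanh_eq_q]
    have := exp_pos (-(2 * Y))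
    field_simp
    ring
  have hq := exp_pos (-(2 * Y))
  have hq1 : exp (-(2 * Y)) < 1 := exp_lt_one_iff.2 (by linarith)
  unfold lamFun
  rw [hN, ent_tanh, tanh_eq_q]
  set q := exp (-(2 * Y))
  have hL0 : 0 ≤ log (1 + q) := log_nonneg (by linarith)
  have hL1 := log_one_add_le hq.le
  set L := log (1 + q)
  have h1q : (1 : ℝ) - q ≠ 0 := by linarith
  have hYL : 0 < Y + L := by linarith
  have e1 : 1 - ((1 - q) / (1 + q)) ^ 2 = 4 * q / (1 + q) ^ 2 := by field_simp; ring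
  have e : ((1 - q) / (1 + q)) ^ 2 / ((1 - ((1 - q) / (1 + q)) ^ 2) * (Y + L)) *
      ((L + 2 * Y * q / (1 + q)) / ((1 - q) / (1 + q))) =
      (1 - q) * (L * (1 + q) + 2 * Y * q) / (4 * q * (Y + L)) := by
    rw [e1]
    field_simp
  rw [e, show 1 / 2 + 1 / (4 * Y) = (2 * Y + 1) / (4 * Y) by field_simp; ring,
    div_le_div_iff₀ (by positivity) (by positivity)]
  have n1 : (1 - q) * (L * (1 + q) + 2 * Y * q) ≤ (2 * Y + 1) * q := by
    have a : (1 - q ^ 2) * L ≤ 1 * q :=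
      mul_le_mul (by nlinarith) hL1 hL0 zero_le_one
    have b : 0 ≤ Y * q * q := by positivity
    nlinarith
  nlinarith [mul_le_mul_of_nonneg_right n1 (show 0 ≤ 4 * Y by linarith),
    mul_nonneg (mul_nonneg hq.le hL0) hY.le, mul_nonneg hq.le hL0]

/-- The pair line at `z = σ`. -/
lemma pair_line {d Y : ℝ} (hY : 0 < Y) (hd : 0 ≤ d) (hdσ : d ≤ tanh Y) :
    tanh Y * Y - (Y + 1 / 2 + 1 / (4 * Y)) * (tanh Y - d) ≤ pairBound d (ent (tanh Y)) := by
  have hs := tanh_mem hY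
  have h := pairBound_line (H := ent (tanh Y)) (z := tanh Y)
    (u := artanh (tanh Y) + lamFun (tanh Y) * (ent (tanh Y) / tanh Y)) (l := lamFun (tanh Y))
    hd (ent_pos (by linarith [hs.1]) hs.2) hs le_rfl le_rfl
  rw [artanh_tanh] at h
  refine le_trans ?_ h
  have := mul_le_mul_of_nonneg_right (lam_mul_le hY) (sub_nonneg.2 hdσ)
  have e : lamFun (tanh Y) * ent (tanh Y) =
      lamFun (tanh Y) * (ent (tanh Y) / tanh Y) * tanh Y := by
    field_simp [hs.1.ne']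
  nlinarith

/-- The entropy of a mean is at least the mean entropy of a symmetric pair. -/
lemma avg_ent_le {m d : ℝ} (hm : 0 ≤ m) (hd : 0 ≤ d) (hmd : m + d < 1) :
    (ent (m + d) + ent (m - d)) / 2 ≤ ent d := by
  have h1 := ent_le_tangent (x := m + d) (c := d) (abs_lt.2 ⟨by linarith, hmd⟩)
    (abs_lt.2 ⟨by linarith, by linarith⟩)
  have h2 := ent_le_tangent (x := d - m) (c := d) (abs_lt.2 ⟨by linarith, by linarith⟩)
    (abs_lt.2 ⟨by linarith, by linarith⟩)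
  rw [← ent_neg (d - m), show -(d - m) = m - d by ring] at h2
  linarith

/-- Chords lie below `ent`. -/
lemma ent_chord {x y l : ℝ} (hx : |x| < 1) (hy : |y| < 1) (h₀ : 0 ≤ l) (h₁ : l ≤ 1) :
    (1 - l) * ent x + l * ent y ≤ ent ((1 - l) * x + l * y) := by
  rw [abs_lt] at hx hy
  have hc : |(1 - l) * x + l * y| < 1 := by
    have h := convex_Ioo (-1 : ℝ) 1 (show x ∈ Ioo (-1 : ℝ) 1 from hx)
      (show y ∈ Ioo (-1 : ℝ) 1 from hy) (sub_nonneg.2 h₁) h₀ (by ring)
    rw [abs_lt]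
    simpa [smul_eq_mul] using h
  have a := mul_le_mul_of_nonneg_left (ent_le_tangent (abs_lt.2 hx) hc) (sub_nonneg.2 h₁)
  have b := mul_le_mul_of_nonneg_left (ent_le_tangent (abs_lt.2 hy) hc) h₀
  linarith

lemma phi_le_log_two_mul_sq {u : ℝ} (h₀ : 0 ≤ u) (h₁ : u < 1) : phi u ≤ log 2 * u ^ 2 := by
  by_contra hc
  rw [not_le] at hc
  have hp : 0 < phi u := lt_of_le_of_lt (mul_nonneg (log_nonneg one_le_two) (sq_nonneg u)) hc
  set r := log 2 * u ^ 2 / phi u with hr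
  have hr1 : r < 1 := by rw [hr, div_lt_one hp]; exact hc
  have hr0 : 0 ≤ r := div_nonneg (mul_nonneg (log_nonneg one_le_two) (sq_nonneg u)) hp.le
  set b := max u ((1 + sqrt r) / 2) with hb
  have hs1 : sqrt r < 1 := by rw [sqrt_lt hr0 zero_le_one]; simpa using hr1
  have hb1 : b < 1 := max_lt h₁ (by linarith)
  have hsb : sqrt r < b := lt_of_lt_of_le (by linarith) (le_max_right u _)
  have hrb : r < b ^ 2 := by
    have := pow_lt_pow_left₀ hsb (sqrt_nonneg r) two_ne_zero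
    rwa [sq_sqrt hr0] at this
  have hm := phi_mul_sq_mono h₀ (le_max_left u _) hb1
  have hφb : phi b ≤ log 2 := by
    have := ent_pos (show -1 < b by linarith [le_max_left u ((1 + sqrt r) / 2)]) hb1
    unfold ent at this
    linarith
  have h5 := mul_le_mul_of_nonneg_right hφb (sq_nonneg u)
  have h6 : log 2 * u ^ 2 < b ^ 2 * phi u := by
    have := mul_lt_mul_of_pos_right hrb hp
    rwa [hr, div_mul_cancel₀ _ hp.ne'] at this
  rw [← hb] at hm
  linarith

/-- exact deficit of a symmetric pair near the endpoint -/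
lemma pair_ent_eq {m ε : ℝ} (hm : 0 ≤ m) (hmε : m < ε) (hε : ε ≤ 1) :
    ent (1 - ε + m) + ent (m - (1 - ε)) =
      2 * ent (1 - ε) - (ε * phi (m / ε) + (2 - ε) * phi (m / (2 - ε))) := by
  have h2 : 0 < 2 - ε := by linarith
  have h1 : 0 < ε := by linarith
  rw [show m - (1 - ε) = -(1 - ε - m) by ring, ent_neg]
  simp only [ent, phi]
  have e1 : (1 : ℝ) + (1 - ε + m) = (2 - ε) * (1 + m / (2 - ε)) := by field_simp; ring
  have e2 : (1 : ℝ) - (1 - ε + m) = ε * (1 - m / ε) := by field_simp; ring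
  have e3 : (1 : ℝ) + (1 - ε - m) = (2 - ε) * (1 - m / (2 - ε)) := by field_simp; ring
  have e4 : (1 : ℝ) - (1 - ε - m) = ε * (1 + m / ε) := by field_simp; ring
  have a1 : m / ε < 1 := (div_lt_one h1).2 hmε
  have a2 : m / (2 - ε) < 1 := (div_lt_one h2).2 (by linarith)
  have b1 : 0 ≤ m / ε := by positivity
  have b2 : 0 ≤ m / (2 - ε) := by positivity
  rw [e1, e2, e3, e4, show (1 : ℝ) + (1 - ε) = 2 - ε by ring, show (1 : ℝ) - (1 - ε) = ε by ring,
    log_mul h2.ne' (by linarith : (1 : ℝ) + m / (2 - ε) ≠ 0),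
    log_mul h1.ne' (by linarith : (1 : ℝ) - m / ε ≠ 0),
    log_mul h2.ne' (by linarith : (1 : ℝ) - m / (2 - ε) ≠ 0),
    log_mul h1.ne' (by linarith : (1 : ℝ) + m / ε ≠ 0)]
  field_simp
  ring

lemma pair_ent_ge {m ε : ℝ} (hm : 0 ≤ m) (hmε : m < ε) (hε : ε ≤ 1) :
    2 * ent (1 - ε) - log 2 * m ^ 2 * (1 / ε + 1 / (2 - ε)) ≤
      ent (m + (1 - ε)) + ent (m - (1 - ε)) := by
  have h2 : 0 < 2 - ε := by linarith
  have h1 : 0 < ε := by linarith
  rw [add_comm m (1 - ε), pair_ent_eq hm hmε hε]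
  have a := mul_le_mul_of_nonneg_left
    (phi_le_log_two_mul_sq (div_nonneg hm h1.le) ((div_lt_one h1).2 hmε)) h1.le
  have b := mul_le_mul_of_nonneg_left
    (phi_le_log_two_mul_sq (div_nonneg hm h2.le) ((div_lt_one h2).2 (by linarith))) h2.le
  have e1 : ε * (log 2 * (m / ε) ^ 2) = log 2 * m ^ 2 * (1 / ε) := by field_simp
  have e2 : (2 - ε) * (log 2 * (m / (2 - ε)) ^ 2) = log 2 * m ^ 2 * (1 / (2 - ε)) := by field_simp
  linarith

/-- lower bound for the entropy at `1 - ε` -/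
lemma le_ent_one_sub {ε : ℝ} (h₀ : 0 < ε) (h₁ : ε < 1) :
    ε * (log 2 - log ε) + ε - ε ^ 2 / 4 - ε ^ 3 / 8 ≤ 2 * ent (1 - ε) := by
  rw [Num.ent_eq_log (by linarith) (by linarith)]
  rw [show (1 + (1 - ε)) / 2 = 1 - ε / 2 by ring, show (1 - (1 - ε)) / 2 = ε / 2 by ring,
    log_div h₀.ne' two_ne_zero]
  have hL : log (1 - ε / 2) ≤ -(ε / 2) - (ε / 2) ^ 2 / 2 := by
    have hx : 0 ≤ ε / 2 := by linarith
    have h := sum_range_le_log_div (x := ε / (4 - ε)) (div_nonneg h₀.le (by linarith))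
      (by rw [div_lt_one (by linarith)]; linarith) 2
    have e : (1 + ε / (4 - ε)) / (1 - ε / (4 - ε)) = (1 - ε / 2)⁻¹ := by
      have h4 : (4 : ℝ) - ε ≠ 0 := by linarith
      rw [show 1 + ε / (4 - ε) = 4 / (4 - ε) by field_simp; ring,
        show 1 - ε / (4 - ε) = (4 - 2 * ε) / (4 - ε) by field_simp; ring,
        div_div_div_cancel_right₀ h4, show 1 - ε / 2 = (4 - 2 * ε) / 4 by ring, inv_div]
    rw [e, log_inv] at h
    simp [Finset.sum_range_succ] at h
    norm_num at h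
    have key : ε / 2 + (ε / 2) ^ 2 / 2 ≤ 2 * (ε / (4 - ε) + (ε / (4 - ε)) ^ 3 / 3) := by
      have h4 : 0 < 4 - ε := by linarith
      rw [show 2 * (ε / (4 - ε) + (ε / (4 - ε)) ^ 3 / 3) =
        (2 * ε * (4 - ε) ^ 2 + 2 * ε ^ 3 / 3) / (4 - ε) ^ 3 by field_simp,
        le_div_iff₀ (by positivity)]
      nlinarith [pow_nonneg hx 3, pow_nonneg hx 4, mul_nonneg (pow_nonneg hx 3) (sub_nonneg.2 h₁.le)]
    linarith
  nlinarith [mul_le_mul_of_nonneg_left hL (show 0 ≤ 1 - ε / 2 by linarith)]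

end Vale.Agent.P322.Tail
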